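import Vale.Agent.P014T.Kq.Sy
import Vale.Agent.P004F.Pat.Lim

/-! # P014T, block PATQ, row RNG: the quadratic level rings and their limit -/

set_option linter.all false

open PowerSeries Filter

noncomputable section

namespace Vale.Agent.P014T.Pp.Rg

open Vale.Agent.P004F.Pat
open Kq (Rq Un)

section qa

variable {R S : Type} [CommRing R] [CommRing S] {a b : R}

/-- functoriality of the quadratic algebra -/
def qm (f : R →+* S) {a' b' : S} (ha : f a = a') (hb : f b = b') :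
    QuadraticAlgebra R a b →+* QuadraticAlgebra S a' b' where
  toFun x := ⟨f x.re, f x.im⟩
  map_one' := QuadraticAlgebra.ext f.map_one f.map_zero
  map_zero' := QuadraticAlgebra.ext f.map_zero f.map_zero
  map_add' x y := QuadraticAlgebra.ext (f.map_add _ _) (f.map_add _ _)
  map_mul' x y := QuadraticAlgebra.ext (by simp [ha]) (by simp [hb])

/-- the root goes to zero -/
def qz (f : R →+* S) (ha : f a = 0) : QuadraticAlgebra R a b →+* S where
  toFun x := f x.re
  map_one' := f.map_one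
  map_zero' := f.map_zero
  map_add' x y := f.map_add _ _
  map_mul' x y := by simp [ha]

/-- the root -/
def rt : QuadraticAlgebra R a b := ⟨0, 1⟩

theorem rt_sq : (rt : QuadraticAlgebra R a b) ^ 2 = algebraMap R _ a + algebraMap R _ b * rt := by
  rw [sq]; ext <;> simp [rt]

theorem dec (x : QuadraticAlgebra R a b) : x = algebraMap R _ x.re + algebraMap R _ x.im * rt := by
  ext <;> simp [rt]

theorem norm_rt : (rt : QuadraticAlgebra R a b).norm = -a := by simp [rt, QuadraticAlgebra.norm_def]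

theorem dvd_norm (x : QuadraticAlgebra R a b) : x ∣ algebraMap R _ x.norm :=
  ⟨_, x.algebraMap_norm_eq_mul_star⟩

theorem un_of {x : QuadraticAlgebra R a b} (h : Un x.norm) : Un x :=
  h.imp fun c e => (dvd_norm x).trans (by simpa [map_ofNat] using map_dvd (algebraMap R (QuadraticAlgebra R a b)) e)

theorem pw_mem {I : Ideal R} (h2 : (2 : R) ∈ I) {x : R} (h : x - 1 ∈ I) (n : ℕ) :
    x ^ 2 ^ n - 1 ∈ I ^ (n + 1) := by
  induction n with
  | zero => simpa using h
  | succ n ih =>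
    rw [show x ^ 2 ^ (n + 1) - 1 = (x ^ 2 ^ n - 1) * (x ^ 2 ^ n - 1 + 2) by rw [pow_succ, pow_mul]; ring,
      pow_succ I (n + 1)]
    exact Ideal.mul_mem_mul ih (I.add_mem (Ideal.pow_le_self n.succ_ne_zero ih) h2)

/-- `1 + y` has order dividing `2 ^ (2 k)` when `2 ^ k = y ^ k = 0` -/
theorem pw_one {y : R} {k n : ℕ} (h2 : (2 : R) ^ k = 0) (hy : y ^ k = 0) (hn : 2 * k ≤ n + 1) :
    (1 + y) ^ 2 ^ n = 1 := by
  have h := pw_mem (I := Ideal.span {2} ⊔ Ideal.span {y}) (Ideal.mem_sup_left (Ideal.mem_span_singleton_self _))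
    (x := 1 + y) (Ideal.mem_sup_right (by simpa using Ideal.mem_span_singleton_self y)) n
  have k1 := Ideal.sup_pow_add_le_pow_sup_pow (I := Ideal.span {(2 : R)}) (J := Ideal.span {y}) (n := k) (m := k)
    (Ideal.pow_le_pow_right (by omega) h)
  rwa [Ideal.span_singleton_pow, Ideal.span_singleton_pow, h2, hy, sup_idem, Ideal.mem_span_singleton,
    zero_dvd_iff, sub_eq_zero] at k1

end qa

/-- the reduction to the level `j + 1` -/
abbrev mq (j : ℕ) : La →+* Rk (j + 1) := Ideal.Quotient.mk (Im (j + 1))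

variable (a b : ℤ_[2])

/-- **the level rings** -/
abbrev Rl (j : ℕ) : Type := QuadraticAlgebra (Rk (j + 1)) (mq j (C a)) (mq j (C b))

/-- the reduction -/
def pq (j : ℕ) : Rq a b →+* Rl a b j := qm (mq j) rfl rfl

/-- the unperturbed level inside the level ring -/
abbrev iq (j : ℕ) : Rk (j + 1) →+* Rl a b j := algebraMap _ _

/-- the constants -/
def cq (j : ℕ) : ℤ_[2] →+* Rl a b j := (iq a b j).comp ((mq j).comp C)

/-- **the limit** -/
def uq : (∀ j, Rl a b j) →+* Rq a b where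
  toFun x := ⟨Sy.succ.ur fun j => (x j).re, Sy.succ.ur fun j => (x j).im⟩
  map_one' := QuadraticAlgebra.ext Sy.succ.ur.map_one Sy.succ.ur.map_zero
  map_zero' := QuadraticAlgebra.ext Sy.succ.ur.map_zero Sy.succ.ur.map_zero
  map_add' x y := QuadraticAlgebra.ext (Sy.succ.ur.map_add _ _) (Sy.succ.ur.map_add _ _)
  map_mul' x y := by
    refine QuadraticAlgebra.ext ?_ ?_
    · exact (Sy.succ.ur.map_add ((fun j => (x j).re) * fun j => (y j).re)
        ((fun j => mq j (C a)) * (fun j => (x j).im) * fun j => (y j).im)).trans (by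
          rw [map_mul, map_mul, map_mul, Sy.succ.ur_const]; rfl)
    · exact (Sy.succ.ur.map_add (((fun j => (x j).re) * fun j => (y j).im) + (fun j => (x j).im) * fun j => (y j).re)
        ((fun j => mq j (C b)) * (fun j => (x j).im) * fun j => (y j).im)).trans (by
          rw [map_add, map_mul, map_mul, map_mul, map_mul, Sy.succ.ur_const]; rfl)

instance fin (j : ℕ) : Finite (Rl a b j) := .of_equiv _ (QuadraticAlgebra.equivProd _ _).symm

variable {a b} {j k : ℕ}

theorem uq_re (x : ∀ j, Rl a b j) : (uq a b x).re = Sy.succ.ur fun j => (x j).re := rfl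

theorem uq_im (x : ∀ j, Rl a b j) : (uq a b x).im = Sy.succ.ur fun j => (x j).im := rfl

theorem uq_ae : Ae (uq a b) := fun x y h =>
  QuadraticAlgebra.ext (Sy.succ.ur_ae (h.mono fun j e => by rw [e])) (Sy.succ.ur_ae (h.mono fun j e => by rw [e]))

theorem uq_pq (x : Rq a b) : uq a b (fun j => pq a b j x) = x :=
  QuadraticAlgebra.ext (Sy.succ.ur_const _) (Sy.succ.ur_const _)

theorem uq_iq (x : ∀ j, Rk (j + 1)) :
    uq a b (fun j => iq a b j (x j)) = algebraMap La _ (Sy.succ.ur x) :=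
  QuadraticAlgebra.ext rfl Sy.succ.ur.map_zero

theorem pq_alg (x : La) : pq a b j (algebraMap La _ x) = iq a b j (mq j x) :=
  QuadraticAlgebra.ext rfl (mq j).map_zero

theorem pq_rt : pq a b j rt = rt := QuadraticAlgebra.ext (mq j).map_zero (mq j).map_one

theorem pq_sur : Function.Surjective (pq a b j) := fun x => by
  obtain ⟨u, hu⟩ := Ideal.Quotient.mk_surjective x.re
  obtain ⟨v, hv⟩ := Ideal.Quotient.mk_surjective x.im
  exact ⟨⟨u, v⟩, QuadraticAlgebra.ext hu hv⟩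

theorem uq_rt : uq a b (fun _ => rt) = rt :=
  QuadraticAlgebra.ext Sy.succ.ur.map_zero Sy.succ.ur.map_one

theorem uq_cq (x : ℤ_[2]) : uq a b (fun j => cq a b j x) = algebraMap La _ (C x) :=
  (uq_iq _).trans (congrArg _ (Sy.succ.ur_const _))

theorem lm_pq {m n : Type} (A : Matrix m n (Rq a b)) : lm (uq a b) (fun j => A.map (pq a b j)) = A :=
  Matrix.ext fun x y => uq_pq (A x y)

theorem lm_iq {m n : Type} (A : ∀ j, Matrix m n (Rk (j + 1))) :
    lm (uq a b) (fun j => (A j).map (iq a b j)) = (Sy.succ.um A).map (algebraMap La _) :=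
  Matrix.ext fun x y => uq_iq fun j => A j x y

theorem two_mq : (2 : Rk (j + 1)) ^ (j + 1) = 0 := by
  rw [← map_ofNat (mq j), ← map_pow]; exact Ideal.Quotient.eq_zero_iff_mem.2 (two_Im _)

theorem X_mq : mq j X ^ (j + 1) = 0 := by
  rw [← map_pow]; exact Ideal.Quotient.eq_zero_iff_mem.2 (X_Im _)

theorem two_pow : (2 : Rl a b j) ^ (j + 1) = 0 := by
  rw [← map_ofNat (iq a b j), ← map_pow, two_mq, map_zero]

theorem cq_zero {x : ℤ_[2]} (h : 2 ^ (j + 1) ∣ x) : cq a b j x = 0 := by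
  obtain ⟨y, rfl⟩ := h
  rw [map_mul, map_pow, map_ofNat, two_pow, zero_mul]

theorem cq_rt : (rt : Rl a b j) ^ 2 = cq a b j a + cq a b j b * rt := rt_sq

theorem rt_nil (ha : 2 ∣ a) (hb : 2 ∣ b) : (rt : Rl a b j) ^ (2 * (j + 1)) = 0 := by
  obtain ⟨a', e⟩ := ha
  obtain ⟨b', e'⟩ := hb
  have : (rt : Rl a b j) ^ 2 = 2 * (cq a b j a' + cq a b j b' * rt) := by
    rw [cq_rt, show cq a b j a = cq a b j (2 * a') from congrArg _ e,
      show cq a b j b = cq a b j (2 * b') from congrArg _ e', map_mul, map_mul, map_ofNat]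
    ring
  rw [pow_mul, this, mul_pow, two_pow, zero_mul]

theorem C_Im {x : ℤ_[2]} (h : 2 ^ k ∣ x) : (C x : La) ∈ Im k := by
  obtain ⟨y, rfl⟩ := h
  rw [map_mul, ← two_C]
  exact (Im k).mul_mem_right _ (two_Im k)

/-- the residue map -/
def rq (ha : 2 ∣ a) (j : ℕ) : Rl a b j →+* ZMod 2 :=
  qz (rk j) (rs_zero.2 (C_Im (by simpa using ha)))

theorem rq_iq (ha : 2 ∣ a) (x : Rk (j + 1)) : rq ha j (iq a b j x) = rk j x := rfl

theorem rq_cq (ha : 2 ∣ a) (x : ℤ_[2]) : rq ha j (cq a b j x) = PadicInt.toZMod x := by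
  show rs (C x) = _
  simp [rs]

theorem rq_rt (ha : 2 ∣ a) : rq ha j (rt : Rl a b j) = 0 := (rk j).map_zero

theorem rk_nil {x : Rk (j + 1)} (h : rk j x = 0) : IsNilpotent x := by
  obtain ⟨y, rfl⟩ := Ideal.Quotient.mk_surjective x
  obtain ⟨u, v, rfl⟩ := Ideal.mem_span_pair.1 (rs_zero.1 h)
  rw [map_add, map_mul, map_mul, pow_one, pow_one, map_ofNat]
  exact (Commute.all _ _).isNilpotent_add ((Commute.all _ _).isNilpotent_mul_left ⟨_, two_mq⟩)
    ((Commute.all _ _).isNilpotent_mul_left ⟨_, X_mq⟩)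

theorem rq_nil (ha : 2 ∣ a) (hb : 2 ∣ b) {x : Rl a b j} (h : rq ha j x = 0) : IsNilpotent x := by
  rw [dec x]
  exact (Commute.all _ _).isNilpotent_add ((rk_nil h).map _)
    ((Commute.all _ _).isNilpotent_mul_left ⟨_, rt_nil ha hb⟩)

theorem rq_one (ha : 2 ∣ a) (hb : 2 ∣ b) {x : Rl a b j} (h : rq ha j x = 1) : IsNilpotent (x - 1) :=
  rq_nil ha hb (by rw [map_sub, h, map_one, sub_self])

theorem rq_unit (ha : 2 ∣ a) (hb : 2 ∣ b) {x : Rl a b j} : IsUnit x ↔ rq ha j x = 1 :=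
  ⟨fun h => (by decide : ∀ y : ZMod 2, y ≠ 0 → y = 1) _ (h.map _).ne_zero,
    fun h => by simpa using (rq_one ha hb h).isUnit_add_one⟩

theorem loc (ha : 2 ∣ a) (hb : 2 ∣ b) (j : ℕ) : IsLocalRing (Rl a b j) :=
  .of_isUnit_or_isUnit_one_sub_self fun x => by
    rw [rq_unit ha hb, rq_unit ha hb, map_sub, map_one]
    exact (by decide : ∀ y : ZMod 2, y = 1 ∨ 1 - y = 1) _

theorem X_ord {n : ℕ} (hn : 2 * j + 1 ≤ n) : (1 + mq j X) ^ 2 ^ n = 1 := pw_one two_mq X_mq (by omega)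

theorem rt_ord (ha : 2 ∣ a) (hb : 2 ∣ b) {n : ℕ} (hn : 4 * j + 3 ≤ n) : (1 + rt : Rl a b j) ^ 2 ^ n = 1 :=
  pw_one (k := 2 * (j + 1)) (pow_eq_zero_of_le (by omega) two_pow) (rt_nil ha hb) (by omega)

/-- the reduction modulo the root and `2 ^ k` -/
def zq {S : Type} [CommRing S] (f : Rk (j + 1) →+* S) (h : (2 : S) ^ k = 0) (ha : 2 ^ k ∣ a) :
    Rl a b j →+* S :=
  qz f (by obtain ⟨y, rfl⟩ := ha; simp [map_ofNat, h])

theorem zq_iq {S : Type} [CommRing S] (f : Rk (j + 1) →+* S) (h : (2 : S) ^ k = 0) (ha : 2 ^ k ∣ a)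
    (x : Rk (j + 1)) : zq (b := b) f h ha (iq a b j x) = f x := rfl

theorem zq_rt {S : Type} [CommRing S] (f : Rk (j + 1) →+* S) (h : (2 : S) ^ k = 0) (ha : 2 ^ k ∣ a) :
    zq (b := b) f h ha rt = 0 := f.map_zero

/-- the root divides a power of two -/
theorem un_rt (ha : a ≠ 0) : Un (rt : Rq a b) := un_of ⟨a.valuation, by
  rw [norm_rt, neg_dvd, two_C]
  exact map_dvd C ⟨↑(PadicInt.unitCoeff ha)⁻¹, (Units.eq_mul_inv_iff_mul_eq _).2
    ((mul_comm _ _).trans (PadicInt.unitCoeff_spec ha).symm)⟩⟩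

section ch

variable {G A : Type} [Monoid G] [CommMonoid A] {n : ℕ} {x : A} {e : G → ZMod (2 ^ n)}

/-- the character `g ↦ x ^ e g` -/
def ch (hx : x ^ 2 ^ n = 1) (h1 : e 1 = 0) (he : ∀ g h, e (g * h) = e g + e h) : G →* A where
  toFun g := x ^ (e g).val
  map_one' := by rw [h1, ZMod.val_zero, pow_zero]
  map_mul' g h := by rw [he, ZMod.val_add, ← pow_eq_pow_mod _ hx, pow_add]

theorem ch_apply (hx : x ^ 2 ^ n = 1) (h1 : e 1 = 0) (he : ∀ g h, e (g * h) = e g + e h) (g : G) :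
    ch hx h1 he g = x ^ (e g).val := rfl

end ch

end Vale.Agent.P014T.Pp.Rg
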