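import Vale.Agent.P014T.Pp.St
import Vale.Agent.P014T.Pp.Rng
import Vale.Agent.P014T.Dr.Kol

/-! # P014T, block PATQ, row GLK: the Kolyvagin classes of the perturbed tower and the reduction -/

set_option linter.all false

open NumberField Matrix Filter PowerSeries
open scoped Classical

noncomputable section

namespace Vale.Agent.P014T.Pp

open Vale.Agent.P022 (Qb GQ IsConj)
open Vale.Agent.P022E.GW (Ov Fb)
open Vale.Agent.P004F (La Rj cj mj)
open Vale.Agent.P004F.Pat (U Sy Im ul ul_spec ul_Im U_ge Im_anti two_Im)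
open Vale.Agent.P004S.Aq (cz cz_spec)
open Dr (Hm aa Ks Inj Cd Ug Hm_le)
open Kq (Rq)

namespace Gk

theorem cz_mod {n a : ℕ} {g : GQ} (e : ∀ z : Qb, z ^ 2 ^ n = 1 → g z = z ^ a) :
    PadicInt.toZModPow n (cz g : ℤ_[2]) = a := by
  obtain ⟨ζ, χ, h1, -, -, h3⟩ := Dr.ex_cy (2 ^ n)
  have := h3 g _ (cz_spec g h1.pow_eq_one)
  rw [ZMod.natCast_zmod_val] at this
  exact this.symm.trans (h3 g a (e ζ h1.pow_eq_one))

theorem dvd_of {n : ℕ} {x : ℤ_[2]} (h : PadicInt.toZModPow n x = 0) : (2 : ℤ_[2]) ^ n ∣ x := by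
  rwa [← RingHom.mem_ker, PadicInt.ker_toZModPow, Ideal.mem_span_singleton, Nat.cast_ofNat] at h

theorem cz_pow {k M : ℕ} (h : 2 ^ k ∣ M) (g : GQ) : (2 : ℤ_[2]) ^ k ∣ (cz g : ℤ_[2]) ^ M - 1 := by
  obtain ⟨m, rfl⟩ := h
  have a : (cz g : ℤ_[2]) - 1 ∈ Ideal.span {(2 : ℤ_[2])} := by
    have := cz_mod (n := 1) (a := 1) (g := g) fun z hz => by
      rcases sq_eq_one_iff.1 hz with rfl | rfl <;> simp
    rw [Ideal.mem_span_singleton, ← pow_one (2 : ℤ_[2])]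
    exact dvd_of (by rw [map_sub, this, map_one, Nat.cast_one, sub_self])
  have := Rg.pw_mem (Ideal.mem_span_singleton_self _) a k
  rw [Ideal.span_singleton_pow, Ideal.mem_span_singleton] at this
  rw [pow_mul]
  exact ((pow_dvd_pow _ k.le_succ).trans this).trans (sub_one_dvd_pow_sub_one _ m)

theorem cj_one {k : ℕ} {x : ℤ_[2]} (h : 2 ^ k ∣ x - 1) : cj k x = 1 := by
  rw [← sub_eq_zero, ← map_one (cj k), ← map_sub]
  exact Ideal.Quotient.eq_zero_iff_mem.2 (Rg.C_Im h)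

theorem mj_ul {k : ℕ} {x y : ℕ → La} (h : ∀ j, mj k (x j) = mj k (y j)) : mj k (ul x) = mj k (ul y) := by
  rw [Ideal.Quotient.eq, ← map_sub]
  exact ul_Im.2 (.of_forall fun j => Ideal.Quotient.eq.1 (h j))

theorem ug (b : Bs) (N : ℕ) (l : ℕ) (P : Ideal (𝓞 Qb)) (o : Ov l P) (h : l ∉ b.S) : Ug (b.ρ N) l P :=
  have l2 : l ≠ 2 := fun e => h (e ▸ b.two)
  ⟨o, l2, fun i m => (congrArg (PadicInt.toZModPow N).mapMatrix (b.unr l P i o h m).1).trans (map_one _),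
    fun φ f => ((PadicInt.toZModPow N).map_det _).symm.trans ((congrArg _ (b.det φ)).trans
      (cz_mod fun z hz => Dr.root_cong o (Dr.nd_two o l2 N) f hz))⟩

variable {b : Bs} {t : Tw b} (x : t.Es) {k : ℕ} (p : Pe t k)

theorem e_zero {j : ℕ} {g : GQ} (h : g ∈ Hm (x.M j)) : b.ε g = 1 ∧ t.e j g = 0 ∧ t.e' j g = 0 :=
  ⟨x.cd j g h, (t.tq j).ker g (Hm_le ((dvd_mul_right _ _).trans (x.dv j)) h),
    (t.tq' j).ker g (Hm_le ((dvd_mul_left _ _).trans (x.dv j)) h)⟩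

theorem cd0 (j : ℕ) : Cd (x.M j) (t.Ψ j) := fun g h => by
  rw [t.hΨ, (e_zero x h).1, (e_zero x h).2.1, map_one, ZMod.val_zero, pow_zero, mul_one]

theorem cd1 (j : ℕ) : Cd (x.M j * 2 ^ t.N j) (p.Ψ j) := fun g h => by
  obtain ⟨a1, a2, a3⟩ := e_zero x (Hm_le (dvd_mul_right _ _) h)
  have a := cz_mod (a := 1) (g := g) fun z hz => by
    rw [pow_one]; exact Hm_le ((pow_dvd_pow 2 (t.le j)).mul_left _) h z hz
  have c : (2 : ℤ_[2]) ^ (j + 1) ∣ (cz g : ℤ_[2]) ^ p.M - 1 :=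
    (dvd_of (by rw [map_sub, a, map_one, Nat.cast_one, sub_self])).trans (sub_one_dvd_pow_sub_one _ _)
  rw [p.hΨ, a1, a2, a3, ch, ZMod.val_zero, pow_zero, pow_zero, mul_one, mul_one, one_mul,
    ← sub_eq_zero, ← map_one (p.n.i j), ← map_sub, ← map_one (kq p.w), ← map_sub, p.n.ker]
  exact ⟨Rg.C_Im c, zero_mem _⟩

theorem nil (j : ℕ) (g : GQ) : IsNilpotent (p.Ψ j g - 1) :=
  Ring.KrullDimLE.isNilpotent_iff_mem_nonunits.2 fun u => (u.map (p.n.π j)).ne_zero (by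
    rw [map_sub, map_one, sub_eq_zero]
    exact (by decide : ∀ y : ZMod 2, y ≠ 0 → y = 1) _ (((Group.isUnit g).map (p.Ψ j)).map _).ne_zero)

/-- the reduction modulo the root, `2 ^ k` and `X ^ k` -/
def Z : Rq (-p.w) (-p.w) →+* Rj k :=
  Rg.qz (mj k) (Ideal.Quotient.eq_zero_iff_mem.2 (Rg.C_Im (dvd_neg.2
    ((pow_dvd_pow_of_dvd ⟨2, by norm_num⟩ k).trans p.wk))))

theorem Z_ch (y : ℤ_[2]) (g : GQ) (n n' : ℕ) :
    Z p (ch p.w (y * (cz g : ℤ_[2]) ^ p.M) n n') = cj k y * mj k (1 + X) ^ n := by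
  rw [ch, map_mul, map_mul, map_pow, map_pow, map_add _ 1 QuadraticAlgebra.omega, map_one,
    show Z p QuadraticAlgebra.omega = 0 from (mj k).map_zero, add_zero, one_pow, mul_one,
    show Z p (kq _ _) = cj k _ from rfl, map_mul, cj_one (cz_pow p.Mk g), mul_one]
  rfl

theorem hP : mj k (∏ y, p.P y).re = mj k t.E := by
  show Z p _ = _
  rw [map_prod, Fintype.prod_sum_type, Tw.E, map_prod, ← Finset.prod_coe_sort b.σ]
  simp only [Pe.P, Sum.elim_inl, Sum.elim_inr, map_one, Finset.prod_const_one, mul_one,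
    Polynomial.hom_eval₂]
  refine Finset.prod_congr rfl fun y _ => congrArg₂ (Polynomial.eval₂ · · _) rfl ?_
  rw [p.n.lim]
  simp only [← map_pow (mj _), Sy.succ.ur_p]
  refine mj_ul fun j => ?_
  have := Z_ch p 1 (b.pl.σ y) (t.e j (b.pl.σ y)).val (t.e' j (b.pl.σ y)).val
  rwa [one_mul, map_one, one_mul, ← map_pow] at this

end Gk

open Gk

/-- **row GLK** -/
theorem glk : GLK := fun b t x k p a₀ a₁ a₂ a₃ => by
  have m j := (x.gr j).pow (x.ad j) (t.N j)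
  choose K k1 k2 k3 k4 using fun j =>
    Dr.kol1 (ι := p.f j) (x.gr j) (x.eu j) (m j) (cd1 x p j) (nil p j) b.cc
  refine ⟨K, .of_forall fun j => ⟨(x.gr j).pos _ (m j), k1 j, fun n hn => ?_⟩, fun _ => rfl, rfl, hP p,
    fun j y => Z p (Function.surjInv (p.n.sur j) y), fun y => ?_, (U_ge k).mono fun j e => ?_⟩
  · have c := (k1 j).cc0 (k2 j) ((x.gr j).pos _ (m j)) (cd1 x p j) (ug b _) hn
    refine ⟨fun g h => c.coc g trivial h trivial, c.lc, fun g h => c.unr g (P022K.G2.In_anti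
      (Finset.coe_subset.2 (Finset.union_subset_union_left (Finset.union_subset
        Finset.subset_union_left fun l a => ?_))) h), k3 j n hn⟩
    obtain ⟨l1, l2, -⟩ := Nat.mem_primeFactors.1 a
    exact (l1.dvd_mul.1 l2).elim
      (fun d => x.pf j (Nat.mem_primeFactors.2 ⟨l1, d, (x.gr j).pos _ (x.ad j)⟩)) fun d => by
        rw [(Nat.prime_dvd_prime_iff_eq l1 Nat.prime_two).1 (l1.dvd_of_dvd_pow d)]
        exact Finset.mem_union_left _ b.two
  · have := (congrArg p.n.ψ (funext fun j => Function.surjInv_eq (p.n.sur j) (y j))).symm.trans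
      (p.n.lim _)
    exact (ul_spec _ k).mono fun j e => (Ideal.Quotient.eq.2 e).trans
      (congrArg (fun z => mj k z.re) this.symm)
  · let F := (p.n.i j).liftOfSurjective (p.n.sur j) ⟨Z p, fun y h =>
      Ideal.Quotient.eq_zero_iff_mem.2 (Im_anti (e.trans j.le_succ) ((p.n.ker j y).1 h).1)⟩
    have hF (y) : F (p.n.i j y) = Z p y := RingHom.liftOfSurjective_comp_apply ..
    refine ⟨F, rfl, fun r hr => ?_⟩
    have e1 : F.comp (p.f j) = r.comp (t.ι j) := RingHom.ext_zmod _ _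
    have e2 : F.toMonoidHom.comp (p.Ψ j) = r.toMonoidHom.comp (t.Ψ j) := MonoidHom.ext fun g => by
      show F (p.Ψ j g) = r (t.Ψ j g)
      rw [p.hΨ, hF, Z_ch, t.hΨ, map_mul, map_pow, hr]
      exact congrArg (· * _) (hr _).symm
    have e3 (g) : (aa (b.ρ (t.N j)) (p.f j) (p.Ψ j) g).map F = (t.a j g).map r := by
      rw [Dr.aa_map, e1, e2, ← Dr.aa_map]; rfl
    have e4 (g i) : F (x.z j (x.M j * 2 ^ t.N j) _ (p.f j) (p.Ψ j) g i) = r (x.cl j g i) := by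
      rw [(x.eu j).map _ _ _ F _ _ _ _ (m j), e1, e2,
        (x.eu j).pow (x.gr j) (x.ad j) ((cd0 x j).map r), ← (x.eu j).map _ _ _ r _ _ _ _ (x.ad j)]
      rfl
    refine ⟨e3, fun i => hF _, r ∘ x.cl j b.c, fun g _ => funext fun i => ?_⟩
    show F (K j ∅ g i) - r (2 • x.cl j g i) = _
    rw [k4, Pi.add_apply, Pi.sub_apply, map_add, map_sub, RingHom.map_mulVec, e3, Pi.smul_apply,
      map_nsmul, map_nsmul, e4, e4, add_sub_cancel_left, show F ∘ _ = r ∘ _ from funext (e4 _)]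
    rfl

end Vale.Agent.P014T.Pp
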