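import Vale.Agent.P014T.Pp.St
import Vale.Agent.P014T.Pp.Rng

/-! # P014T, block PATQ: the row RNG and small lemmas on the level rings -/

set_option linter.all false

open Matrix Filter PowerSeries

noncomputable section

namespace Vale.Agent.P014T.Pp

open Vale.Agent.P022 (GQ)
open Vale.Agent.P004F (La Rj cj mj)
open Vale.Agent.P004F.Pat (U Ae lm Sy Im ul rs ul_const ul_spec two_Im X_Im Im_anti rs_zero lm_smul)
open Vale.Agent.P004S.Aq (cz)
open Dr (Zn aa am)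
open Kq (M2 Un Rq)

/-- **the level rings exist** -/
theorem rng : RNG := fun w hw =>
  have h : 2 ∣ -w := hw.neg_right
  ⟨@Rn.mk w (Rg.Rl (-w) (-w)) _ (Rg.loc h h) _ (Rg.uq _ _) (Rg.pq _ _) (Rg.rq h) Rg.uq_ae
    (fun _ => Rg.pq_sur)
    (fun j y => QuadraticAlgebra.ext_iff.trans
      (and_congr Ideal.Quotient.eq_zero_iff_mem Ideal.Quotient.eq_zero_iff_mem))
    (fun y => QuadraticAlgebra.ext (Sy.succ.ur_p _) (Sy.succ.ur_p _)) fun _ _ => rfl⟩

/-- two maps from the `2`-adic integers -/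
theorem io_eq {R : Type} [CommRing R] {N : ℕ} (ι : Zn N →+* R) (f : ℤ_[2] →+* R) (x : ℤ_[2]) :
    ι (PadicInt.toZModPow N x) = f x := by
  obtain ⟨y, hy⟩ := Ideal.mem_span_singleton.1 (PadicInt.appr_spec N x)
  have h : (2 : R) ^ N = 0 := by
    simpa only [map_zero, Nat.cast_pow, Nat.cast_ofNat, map_pow, map_ofNat] using
      congrArg ι (ZMod.natCast_self (2 ^ N))
  rw [show f x = f (x.appr N) + 2 ^ N * f y by
    rw [← map_ofNat f, ← map_pow, ← map_mul, ← map_add]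
    exact congrArg f (sub_eq_iff_eq_add'.1 hy), h, zero_mul, add_zero, map_natCast]
  exact map_natCast ι _

theorem ex_io {R : Type} [CommRing R] {N : ℕ} (h : (2 : R) ^ N = 0) : Nonempty (Zn N →+* R) :=
  ⟨ZMod.castHom (ringChar.dvd (by exact_mod_cast h)) R⟩

theorem aa_eq {R : Type} [CommRing R] {N : ℕ} (b : Bs) (ι : Zn N →+* R) (f : ℤ_[2] →+* R)
    (Φ : GQ →* R) (g : GQ) : aa (b.ρ N) ι Φ g = Φ g • (b.r g).map f :=
  congrArg (Φ g • ·) (Matrix.ext fun i j => io_eq ι f _)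

theorem Tw.a_eq {b : Bs} (t : Tw b) (j : ℕ) (g : GQ) : t.a j g = t.Ψ j g • (b.r g).map (cj _) :=
  aa_eq b _ _ _ g

theorem ch_mul (w x y : ℤ_[2]) (m m' n n' : ℕ) :
    ch w (x * y) (m + n) (m' + n') = ch w x m m' * ch w y n n' := by
  simp only [ch, map_mul, pow_add]; ring

theorem ch_zero (w x : ℤ_[2]) : ch w x 0 0 = kq w x := by simp [ch]

theorem kq_re (w x : ℤ_[2]) : (kq w x).re = C x := rfl

theorem kq_im (w x : ℤ_[2]) : (kq w x).im = 0 := rfl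

/-- the equation of the root -/
theorem om_sq (w : ℤ_[2]) : (QuadraticAlgebra.omega : Rq (-w) (-w)) * QuadraticAlgebra.omega =
    -kq w w - kq w w * QuadraticAlgebra.omega := by
  ext1 <;> simp [kq]

theorem un_om {w : ℤ_[2]} (h : w ≠ 0) : Un (QuadraticAlgebra.omega : Rq (-w) (-w)) :=
  Rg.un_rt (neg_ne_zero.2 h)

/-- the reduction modulo the root, `2 ^ k` and `X ^ k` -/
def rz {w : ℤ_[2]} {k : ℕ} (h : 2 ^ k ∣ w) : Rq (-w) (-w) →+* Rj k :=
  Rg.qz (mj k) (Ideal.Quotient.eq_zero_iff_mem.2 (Rg.C_Im h.neg_right))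

theorem rz_apply {w : ℤ_[2]} {k : ℕ} (h : 2 ^ k ∣ w) (y : Rq (-w) (-w)) : rz h y = mj k y.re := rfl

theorem rz_ch {w : ℤ_[2]} {k : ℕ} (h : 2 ^ k ∣ w) (x : ℤ_[2]) (m m' : ℕ) :
    rz h (ch w x m m') = cj k x * mj k (1 + X) ^ m := by
  have : rz h QuadraticAlgebra.omega = 0 := (mj k).map_zero
  rw [ch, map_mul, map_mul, map_pow, map_pow, map_add (rz h), this, map_one, add_zero, one_pow, mul_one]
  rfl

namespace Rn

variable {w : ℤ_[2]} (n : Rn w) {j k : ℕ}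

/-- the constants -/
def c (j : ℕ) : ℤ_[2] →+* n.R j := (n.i j).comp (kq w)

theorem c_apply (x : ℤ_[2]) : n.c j x = n.i j (kq w x) := rfl

theorem ps_i (y : Rq (-w) (-w)) : n.ψ (fun j => n.i j y) = y :=
  (n.lim fun _ => y).trans (QuadraticAlgebra.ext (ul_const _) (ul_const _))

theorem ps_c (x : ℤ_[2]) : n.ψ (fun j => n.c j x) = kq w x := n.ps_i _

theorem ps_alg (x : ℕ → La) : n.ψ (fun j => n.i j (algebraMap La _ (x j))) = algebraMap La _ (ul x) :=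
  (n.lim _).trans (QuadraticAlgebra.ext rfl ul.map_zero)

theorem lm_i {α β : Type} (A : Matrix α β (Rq (-w) (-w))) : lm n.ψ (fun j => A.map (n.i j)) = A :=
  Matrix.ext fun x y => n.ps_i (A x y)

theorem lm_c {α β : Type} (A : Matrix α β ℤ_[2]) : lm n.ψ (fun j => A.map (n.c j)) = A.map (kq w) :=
  Matrix.ext fun x y => n.ps_c (A x y)

theorem i_alg {x : La} : n.i j (algebraMap La _ x) = 0 ↔ x ∈ Im (j + 1) :=
  (n.ker j _).trans (and_iff_left (zero_mem _))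

theorem two : (2 : n.R j) ^ (j + 1) = 0 := by
  rw [← map_ofNat ((n.i j).comp (algebraMap La _)), ← map_pow]
  exact n.i_alg.2 (two_Im _)

theorem two_le (h : j + 1 ≤ k) : (2 : n.R j) ^ k = 0 := pow_eq_zero_of_le h n.two

theorem c_zero {x : ℤ_[2]} (h : 2 ^ (j + 1) ∣ x) : n.c j x = 0 := n.i_alg.2 (Rg.C_Im h)

theorem X_pow : n.i j (algebraMap La _ X) ^ (j + 1) = 0 := by
  rw [← map_pow, ← map_pow]; exact n.i_alg.2 (X_Im _)

theorem of_pq {x y : Rq (-w) (-w)} (h : Rg.pq _ _ j x = Rg.pq _ _ j y) : n.i j x = n.i j y := by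
  rw [← sub_eq_zero, ← map_sub] at h ⊢
  have := QuadraticAlgebra.ext_iff.1 h
  exact (n.ker j _).2 ⟨Ideal.Quotient.eq_zero_iff_mem.1 this.1, Ideal.Quotient.eq_zero_iff_mem.1 this.2⟩

theorem nil (hw : 2 ∣ w) {x : n.R j} (h : n.π j x = 0) : IsNilpotent x := by
  obtain ⟨y, rfl⟩ := n.sur j x
  obtain ⟨m, e⟩ := Rg.rq_nil hw.neg_right hw.neg_right (x := Rg.pq _ _ j y) ((n.res j y).symm.trans h)
  exact ⟨m, by rw [← map_pow, ← map_zero (n.i j)]; exact n.of_pq (by rw [map_pow, e, map_zero])⟩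

theorem nil_one (hw : 2 ∣ w) {x : n.R j} (h : n.π j x = 1) : IsNilpotent (x - 1) :=
  n.nil hw (by rw [map_sub, h, map_one, sub_self])

theorem unit_iff (hw : 2 ∣ w) {x : n.R j} : IsUnit x ↔ n.π j x = 1 :=
  ⟨fun h => (by decide : ∀ y : ZMod 2, y ≠ 0 → y = 1) _ (h.map _).ne_zero,
    fun h => by simpa using (n.nil_one hw h).isUnit_add_one⟩

theorem pi_c (x : ℤ_[2]) : n.π j (n.c j x) = PadicInt.toZMod x :=
  (n.res j _).trans (by simp [rs, kq_re])

theorem pi_om : n.π j (n.i j QuadraticAlgebra.omega) = 0 := (n.res j _).trans rs.map_zero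

theorem pi_X : n.π j (n.i j (algebraMap La _ X)) = 0 := (n.res j _).trans (by simp [rs])

theorem pi_ch (x : ℤ_[2]) (m m' : ℕ) : n.π j (n.i j (ch w x m m')) = PadicInt.toZMod x := by
  simp only [ch, map_mul, map_pow, map_add, map_one, pi_om, pi_X, add_zero, one_pow, mul_one]
  exact n.pi_c x

theorem X_ord (h : 2 * j + 1 ≤ k) : n.i j (algebraMap La _ (1 + X)) ^ 2 ^ k = 1 := by
  rw [map_add, map_add, map_one, map_one]
  exact Rg.pw_one n.two n.X_pow (by omega)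

theorem om_ord (hw : 2 ∣ w) (h : 2 * j + 1 ≤ k) : n.i j (1 + QuadraticAlgebra.omega) ^ 2 ^ k = 1 := by
  obtain ⟨v, hv⟩ := hw
  have e : n.i j QuadraticAlgebra.omega ^ 2 = 2 * (-n.c j v - n.c j v * n.i j QuadraticAlgebra.omega) := by
    rw [sq, ← map_mul, om_sq, map_sub, map_neg, map_mul, ← c_apply,
      show n.c j w = n.c j (2 * v) from congrArg _ hv, map_mul, map_ofNat]
    ring
  have h1 := Rg.pw_mem (I := Ideal.span {2, n.i j QuadraticAlgebra.omega}) (Ideal.subset_span (by simp))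
    (x := n.i j (1 + QuadraticAlgebra.omega)) (Ideal.subset_span (by simp)) k
  have h2 : Ideal.span {2, n.i j QuadraticAlgebra.omega} ^ 2 ≤ Ideal.span {2} := by
    rw [sq, Ideal.span_pair_mul_span_pair, Ideal.span_le]
    simp only [Set.insert_subset_iff, Set.singleton_subset_iff, SetLike.mem_coe, Ideal.mem_span_singleton]
    exact ⟨dvd_mul_right _ _, dvd_mul_right _ _, dvd_mul_left _ _, sq (n.i j _) ▸ ⟨_, e⟩⟩
  have h3 := Ideal.pow_right_mono h2 (j + 1) (by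
    rw [← pow_mul]; exact Ideal.pow_le_pow_right (by omega) h1)
  rwa [Ideal.span_singleton_pow, n.two, Ideal.mem_span_singleton, zero_dvd_iff, sub_eq_zero] at h3

theorem i_ch (x : ℤ_[2]) (m m' : ℕ) : n.i j (ch w x m m') =
    n.c j x * n.i j (algebraMap La _ (1 + X)) ^ m * n.i j (1 + QuadraticAlgebra.omega) ^ m' := by
  rw [ch, map_mul, map_mul, map_pow, map_pow]; rfl

/-- the characters are multiplicative -/
theorem ch_add (hw : 2 ∣ w) (h : 2 * j + 1 ≤ k) (x y : ℤ_[2]) (a a' b b' : ZMod (2 ^ k)) :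
    n.i j (ch w (x * y) (a + b).val (a' + b').val) =
      n.i j (ch w x a.val a'.val) * n.i j (ch w y b.val b'.val) := by
  rw [← map_mul, ← ch_mul, i_ch, i_ch, ZMod.val_add, ZMod.val_add, ← pow_eq_pow_mod _ (n.X_ord h),
    ← pow_eq_pow_mod _ (n.om_ord hw h)]

/-- the reduction to the unperturbed level -/
theorem ex_F (h : 2 ^ k ∣ w) (le : k ≤ j + 1) : ∃ F : n.R j →+* Rj k, ∀ y, F (n.i j y) = rz h y :=
  ⟨(n.i j).liftOfSurjective (n.sur j) ⟨rz h, fun y e =>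
    Ideal.Quotient.eq_zero_iff_mem.2 (Im_anti le ((n.ker j y).1 e).1)⟩,
    fun y => RingHom.liftOfSurjective_comp_apply _ _ _ y⟩

/-- the reductions and the limit -/
theorem red (h : 2 ^ k ∣ w) : ∃ f : ∀ j, n.R j → Rj k,
    (∀ y : ∀ j, n.R j, ∀ᶠ j in U, f j (y j) = mj k (n.ψ y).re) ∧
    ∀ j, k ≤ j + 1 → ∃ F : n.R j →+* Rj k, ⇑F = f j ∧ ∀ y, F (n.i j y) = rz h y := by
  refine ⟨fun j x => rz h (Function.surjInv (n.sur j) x), fun y => ?_, fun j le => ?_⟩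
  · have e := n.lim fun j => Function.surjInv (n.sur j) (y j)
    simp only [Function.surjInv_eq] at e
    rw [e]
    exact (ul_spec _ k).mono fun j a => Ideal.Quotient.eq.2 a
  · obtain ⟨F, hF⟩ := n.ex_F h le
    exact ⟨F, funext fun x => (congrArg F (Function.surjInv_eq (n.sur j) x).symm).trans (hF _), hF⟩

end Rn

namespace Pe

variable {b : Bs} {t : Tw b} {k : ℕ} (p : Pe t k)

theorem k0 (p : Pe t k) : 1 ≤ k := by have := p.km; omega

theorem wk' : 2 ^ k ∣ p.w := (pow_dvd_pow_of_dvd ⟨2, by norm_num⟩ k).trans p.wk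

theorem w2 : 2 ∣ p.w := (dvd_pow_self 2 (by have := p.km; omega)).trans p.wk'

theorem aa_eq (j : ℕ) (Φ : GQ →* p.n.R j) (g : GQ) :
    aa (b.ρ (t.N j)) (p.f j) Φ g = Φ g • (b.r g).map (p.n.c j) := Pp.aa_eq b _ _ _ g

theorem rho (j : ℕ) (g : GQ) : (p.fr.γ j).ρ g = p.Ψ j g • (b.r g).map (p.n.c j) := p.aa_eq j _ g

theorem rho' (j : ℕ) (g : GQ) : (p.fr.γ' j).ρ g = p.Ψ' j g • (b.r g).map (p.n.c j) := p.aa_eq j _ g

theorem G_rho (g : ℕ → GQ) : p.fr.G.ρ g =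
    p.n.ψ (fun j => p.Ψ j (g j)) • lm p.n.ψ fun j => (b.r (g j)).map (p.n.c j) :=
  (congrArg (lm p.n.ψ) (funext fun j => p.rho j (g j))).trans (lm_smul _ _)

theorem G_rho' (g : ℕ → GQ) : p.fr.G'.ρ g =
    p.n.ψ (fun j => p.Ψ' j (g j)) • lm p.n.ψ fun j => (b.r (g j)).map (p.n.c j) :=
  (congrArg (lm p.n.ψ) (funext fun j => p.rho' j (g j))).trans (lm_smul _ _)

theorem lm_r {g : ℕ → GQ} {A : M2 ℤ_[2]} (h : ∀ᶠ j in U, b.r (g j) = A) :
    (lm p.n.ψ fun j => (b.r (g j)).map (p.n.c j)) = A.map (kq p.w) :=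
  (p.n.ae.lm (h.mono fun j e => by rw [e])).trans (p.n.lm_c A)

theorem G_gp : p.fr.G.gp = kq p.w ∘ b.gp := funext fun i => p.n.ps_i _

theorem G_gp' : p.fr.G'.gp = kq p.w ∘ b.gp := funext fun i => p.n.ps_i _

theorem ps_inv (g : ℕ → GQ) :
    p.n.ψ (fun j => p.Ψ j (g j)) * p.n.ψ (fun j => p.Ψ' j (g j)) = 1 := by
  rw [← map_mul, ← map_one p.n.ψ]
  exact congrArg _ (funext fun j => p.inv j (g j))

theorem pi_Ψ (j : ℕ) (g : GQ) : p.n.π j (p.Ψ j g) = 1 :=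
  (p.n.unit_iff p.w2).1 (IsUnit.of_mul_eq_one _ (p.inv j g))

theorem pi_Ψ' (j : ℕ) (g : GQ) : p.n.π j (p.Ψ' j g) = 1 :=
  (p.n.unit_iff p.w2).1 (IsUnit.of_mul_eq_one_right _ (p.inv j g))

theorem nil (j : ℕ) (g : GQ) : IsNilpotent (p.Ψ j g - 1) := p.n.nil_one p.w2 (p.pi_Ψ j g)

theorem nil' (j : ℕ) (g : GQ) : IsNilpotent (p.Ψ' j g - 1) := p.n.nil_one p.w2 (p.pi_Ψ' j g)

theorem one' {j : ℕ} {g : GQ} (h : p.Ψ j g = 1) : p.Ψ' j g = 1 := by simpa [h] using p.inv j g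

/-- the value of the character where the tower characters are known -/
theorem Ψ_of {j : ℕ} {g : GQ} {x : ℤ_[2]} {m m' : ℕ} (h : b.ε g * (cz g : ℤ_[2]) ^ p.M = x)
    (h1 : t.e j g = m) (h2 : t.e' j g = m') : p.Ψ j g = p.n.i j (ch p.w x m m') := by
  rw [p.hΨ, h, h1, h2, ZMod.val_natCast, ZMod.val_natCast, p.n.i_ch, p.n.i_ch,
    ← pow_eq_pow_mod _ (p.n.X_ord (by omega)), ← pow_eq_pow_mod _ (p.n.om_ord p.w2 (by omega))]

end Pe

end Vale.Agent.P014T.Pp
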