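import Vale.Agent.P014T.Pp.Twx
import Vale.Agent.P014T.Pp.Glk
import Vale.Agent.P014T.Pp.Gs
import Vale.Agent.P004F.Pat.Vec

/-! # P014T, block PATQ: presentations of the tower exist -/

set_option linter.all false

open NumberField Matrix Filter PowerSeries Set

noncomputable section

namespace Vale.Agent.P014T.Pp

open Vale.Agent.P022 (Qb GQ IsConj)
open Vale.Agent.P004F (La Rj cj mj)
open Vale.Agent.P004F.Pr (ac)
open Vale.Agent.P004F.Pat (U rk rs U_bdd U_ch)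
open Pq (Zq Gd)
open Dr (Hm Hm_open inert_Hm aa_eq_one)

theorem Bs.gd (b : Bs) : Gd ⊤ b.S fun g => (b.r g).map PadicInt.toZMod := by
  refine ⟨isOpen_univ, inferInstance, b.pr, ?_, fun g _ h _ => by rw [map_mul, Matrix.map_mul],
    ⟨(b.ρ 1).ker, b.lc 1, fun g _ m => ?_⟩, fun g _ ⟨l, m, P, o, i⟩ => ?_⟩
  · rw [map_one, Matrix.map_one _ (map_zero _) (map_one _)]
  · let f := ZMod.castHom (show 2 ∣ 2 ^ 1 by decide) (ZMod 2)
    exact (Matrix.ext fun a a' => G0.uq ⟨1, by decide⟩ PadicInt.toZMod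
      (f.comp (PadicInt.toZModPow 1)) (b.r g a a')).trans ((congrArg f.mapMatrix m).trans (map_one _))
  · rw [(b.unr l P g o m i).1, Matrix.map_one _ (map_zero _) (map_one _)]

namespace Tw

variable {b : Bs} {t : Tw b} {j : ℕ}

theorem gd (x : t.Es) (j : ℕ) : Gd ⊤ (b.S ∪ t.T j) (t.a j) := by
  refine ⟨isOpen_univ, inferInstance, fun l m => (Finset.mem_union.1 m).elim (b.pr l)
    Nat.prime_of_mem_primeFactors, map_one _, fun g _ h _ => map_mul _ g h,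
    ⟨(b.ρ (t.N j)).ker ⊓ Hm (x.M j), (b.lc _).inter (Hm_open ((x.gr j).pos _ (x.ad j))),
      fun g _ m => aa_eq_one m.1 (Gk.cd0 x j g m.2)⟩, fun g _ ⟨l, m, P, o, i⟩ => ?_⟩
  rw [Finset.mem_coe, Finset.mem_union, G0.mem_T o.1, not_or, not_or] at m
  rw [t.a_eq, t.hΨ, (b.unr l P g o m.1 i).1, (b.unr l P g o m.1 i).2, (t.tq j).ine o m.2.1 i]
  simp

theorem rk_cj (y : ℤ_[2]) : rk j (cj _ y) = PadicInt.toZMod y := by
  show rs (C y) = _
  simp [rs]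

theorem rk_Ψ (t : Tw b) (j : ℕ) (g : GQ) : rk j (t.Ψ j g) = 1 :=
  G0.f2 (((Group.isUnit g).map _).map _)

theorem res (t : Tw b) (j : ℕ) (g : GQ) : (t.a j g).map (rk j) = (b.r g).map PadicInt.toZMod := by
  rw [t.a_eq, Matrix.map_smul' _ _ _ (map_mul _), rk_Ψ, one_smul]
  exact Matrix.ext fun _ _ => rk_cj (j := j) _

theorem crd_T (t : Tw b) (j : ℕ) : (t.T j).card ≤ t.m + 1 := by
  rw [T, Nat.primeFactors_mul (t.tq j).sq.ne_zero (t.pq j).1.ne_zero, (t.pq j).1.primeFactors]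
  exact (Finset.card_union_le _ _).trans (Nat.succ_le_succ (t.crd j))

theorem a_c (t : Tw b) (j : ℕ) : t.a j b.c *ᵥ (cj _ ∘ b.gp) = cj _ ∘ b.gp := by
  rw [t.a_eq, t.hΨ, b.εc, (t.tq j).cj _ b.cc, ZMod.val_zero, pow_zero, map_one, one_mul, one_smul]
  exact funext fun i => ((cj _).map_mulVec _ b.gp i).symm.trans (by rw [b.fix]; rfl)

/-- minimal presentations at one level -/
theorem pn0 (x : t.Es) (j : ℕ) : ∃ r Q u, t.Pn j (r := r) Q u ∧ Q.map (rk j) = 0 ∧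
    Nat.card (Zq (ZMod 2) (b.S ∪ t.T j) (fun g => (b.r g).map PadicInt.toZMod) b.c) = 2 ^ (r + 2) := by
  obtain ⟨r, Q, u, h1, h2, h3⟩ := Pq.presq (π := rk j) (by simp) (gd x j)
    (Finset.mem_union_left _ b.two) b.cc (.inr ⟨t.q j, Finset.mem_union_right _
      ((G0.mem_T (t.pq j).1).2 (.inr dvd_rfl)), fun e => (t.pq j).2.1 (e ▸ b.two), _,
      b.pl.ov _ (t.pq j).1, fun g m => (t.res j g).trans (t.spl j g m)⟩)
  simp only [t.res] at h3
  exact ⟨r, Q, u, h2, h1, h3⟩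

/-- the columns -/
theorem Pn.pz {r : ℕ} {Q u} (h : t.Pn j (r := r) Q u) (x : t.Es) : ∃ V, Pz x j Q u V := by
  have G := gd x j
  have m := (x.gr j).pos _ (x.ad j)
  obtain ⟨K, k1, k2, k3, k4⟩ := Dr.kol1 (ι := t.ι j) (x.gr j) (x.eu j) (x.ad j) (Gk.cd0 x j)
    (fun g => Rg.rk_nil (by rw [map_sub, rk_Ψ, map_one, sub_self])) b.cc
  have i : Dr.Inj (∅ : Finset (Dr.Kp (b.ρ (t.N j)) (x.S j) (t.ι j) (t.Ψ j) (x.M j))) := by
    simp [Dr.Inj]
  have c := k1.cc0 k2 m (Gk.cd0 x j) (Gk.ug b _) i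
  obtain ⟨v, v1, v2⟩ := (h _).surjOn (show (fun g => (t.a j g - 1) *ᵥ (cj _ ∘ b.gp)) ∈ _ from
    ⟨fun g g' => by
      show _ *ᵥ _ = _ *ᵥ _ + t.a j g *ᵥ _ *ᵥ _
      rw [mulVec_mulVec, ← add_mulVec, map_mul, mul_sub_one, sub_add_sub_cancel'],
    G.lc.imp fun W e => ⟨e.1, fun w a => by simp [e.2 w trivial a]⟩,
    fun g a => by simp [G.unr g trivial a], by simp only [sub_mulVec, a_c, one_mulVec, sub_self]⟩)
  obtain ⟨w, w1, w2⟩ := (h _).surjOn (show K ∅ ∈ _ from ⟨fun g g' => c.coc g trivial g' trivial, c.lc,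
    fun g a => c.unr g (P022K.G2.In_anti (by
      simpa using Finset.coe_subset.2 (x.pf j)) a), k3 _ i⟩)
  refine ⟨(of ![v, w])ᵀ, h, Matrix.ext fun a k => ?_, congrFun v2, x.cl j b.c, fun g _ => ?_⟩
  · fin_cases k
    exacts [congrFun v1 a, congrFun w1 a]
  · exact (congrArg (· - _) ((congrFun w2 g).trans (k4 g))).trans (add_sub_cancel_left _ _)

/-- **presentations of bounded size** -/
theorem pnx (x : t.Es) : ∃ (r : ℕ) (Q : ∀ j, Matrix (Fin r) (Fin (r + 2)) (Rj (j + 1)))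
    (u : ∀ j, GQ → Matrix (Fin 2) (Fin (r + 2)) (Rj (j + 1))),
    ∀ᶠ j in U, t.Pn j (Q j) (u j) ∧ (Q j).map (rk j) = 0 := by
  obtain ⟨C, hC⟩ := Pq.bndq b.gd b.two
  choose r Q u h1 h2 h3 using pn0 x
  obtain ⟨n, -, hn⟩ := U_bdd r (C := C + 2 * (t.m + 1)) (.of_forall fun j => by
    have := (h3 j).ge.trans (hC (t.T j) _ b.cc fun l => Nat.prime_of_mem_primeFactors)
    rw [Nat.pow_le_pow_iff_right one_lt_two, Fintype.card_fin] at this
    have := t.crd_T j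
    omega)
  obtain ⟨y, hy⟩ := U_ch (α := fun j => Matrix (Fin n) (Fin (n + 2)) (Rj (j + 1)) ×
      (GQ → Matrix (Fin 2) (Fin (n + 2)) (Rj (j + 1))))
    (P := fun j y => t.Pn j y.1 y.2 ∧ y.1.map (rk j) = 0) (hn.mono fun j e => by
      subst e; exact ⟨(Q j, u j), h1 j, h2 j⟩)
  exact ⟨n, _, _, hy⟩

end Tw

/-- **the input of the export** -/
theorem pzx {b : Bs} {t : Tw b} (x : t.Es) : ∃ (r : ℕ)
    (Q : ∀ j, Matrix (Fin r) (Fin (r + 2)) (Rj (j + 1)))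
    (u : ∀ j, GQ → Matrix (Fin 2) (Fin (r + 2)) (Rj (j + 1)))
    (V : ∀ j, Matrix (Fin (r + 2)) (Fin 2) (Rj (j + 1))), ∀ᶠ j in U, Pz x j (Q j) (u j) (V j) := by
  obtain ⟨r, Q, u, h⟩ := Tw.pnx x
  obtain ⟨V, hV⟩ := U_ch (h.mono fun j a => a.1.pz x)
  exact ⟨r, Q, u, V, hV⟩

end Vale.Agent.P014T.Pp
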