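import Vale.Agent.P014T.Pp.Rn0
import Vale.Agent.P014T.Mu.Lmu

/-! # P014T, block PATQ: towers without `μ`-invariant -/

set_option linter.all false

open NumberField Matrix Filter PowerSeries Set

noncomputable section

namespace Vale.Agent.P014T.Pp

open Vale.Agent.P022 (Qb GQ IsConj)
open Vale.Agent.P004F (La Rj cj mj)
open Vale.Agent.P004F.Pr (ac)
open Vale.Agent.P004F.Pat (U Sy U_ge)
open Vale.Agent.P004F.En (Big Gq)
open Vale.Agent.P004S (Rp Rep Pl mt ep rb)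
open Vale.Agent.P004C.Mu.Lv (mq)
open Pq (Zq)
open Dr (Zn aa)

/-- `(Q, u)` presents the framed cocycles of the tower at level `j` -/
def Tw.Pn {b : Bs} (t : Tw b) (j : ℕ) {r : ℕ} (Q : Matrix (Fin r) (Fin (r + 2)) (Rj (j + 1)))
    (u : GQ → Matrix (Fin 2) (Fin (r + 2)) (Rj (j + 1))) : Prop :=
  ∀ (M : Type) [AddCommGroup M] [Module (Rj (j + 1)) M],
    BijOn (fun (v : Fin (r + 2) → M) g => ac (u g) v) {v | ac Q v = 0}
      (Zq M (b.S ∪ t.T j) (t.a j) b.c)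

/-- the presentations have no `μ`-invariant -/
def Tw.Mz {b : Bs} (t : Tw b) : Prop := ∀ (r : ℕ)
  (Q : ∀ j, Matrix (Fin r) (Fin (r + 2)) (Rj (j + 1)))
  (u : ∀ j, GQ → Matrix (Fin 2) (Fin (r + 2)) (Rj (j + 1))), (∀ᶠ j in U, t.Pn j (Q j) (u j)) →
  ∃ C : Matrix (Fin 2) (Fin (r + 2)) La,
    map PadicInt.toZMod (Ba.st finSumFinEquiv.symm (Sy.succ.um Q) C).det ≠ 0

theorem Bs.eps (b : Bs) (g : GQ) : b.ε g = 1 ∨ b.ε g = -1 := sq_eq_one_iff.1 (b.sq g)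

theorem Bs.eps_two (b : Bs) (g : GQ) : PadicInt.toZMod (b.ε g) = 1 := by
  rcases b.eps g with e | e <;> rw [e]
  exacts [map_one _, by rw [map_neg, map_one]; rfl]

theorem Bs.gq (b : Bs) {ρ : Rp} (hr : ∀ g, mt ρ g = (b.r g).map (algebraMap ℤ_[2] ℚ_[2])) {m : ℕ}
    {g : GQ} (h : Gq ρ m g) : ¬ 2 ^ (m + 1) ∣ (b.ε g • b.r g - 1).det := fun d => by
  have e := P004F.Pat.dvd_iff_norm.1 d
  have l : (2 : ℝ) ^ (-(m + 1 : ℕ) : ℤ) < (1 / 2) ^ m := by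
    rw [_root_.zpow_neg, zpow_natCast, ← inv_pow, one_div]
    exact pow_lt_pow_right_of_lt_one₀ (by norm_num) (by norm_num) m.lt_succ_self
  rw [Gq, ep, hr] at h
  rw [← PadicInt.padic_norm_e_of_padicInt] at e
  rcases b.eps g with a | a <;> rw [a] at e
  · refine (h.1.trans_eq (congrArg _ ?_)).not_gt (e.trans_lt l)
    simp [det_fin_two, trace_fin_two]; ring
  · refine (h.2.trans_eq (congrArg _ ?_)).not_gt (e.trans_lt l)
    simp [det_fin_two, trace_fin_two]; ring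

theorem Bs.rb (b : Bs) {ρ : Rp} (hr : ∀ g, mt ρ g = (b.r g).map (algebraMap ℤ_[2] ℚ_[2])) (g : GQ) :
    rb ρ g = (b.r g).map PadicInt.toZMod := by
  rw [P004S.rb, hr]
  exact Matrix.ext fun i j => P004S.rd_coe _

/-- **the towers**: one choice of primes serves all twists and all levels -/
theorem twx {ρ : Rp} {S : Finset ℕ} {k : GQ} (h : Rep ρ S) (pr : ∀ p ∈ S, p.Prime) (pl : Pl)
    (hk : IsConj k) (big : ∃ u, Big ρ u) : ∃ m : ℕ, ∀ F : ℕ → Finset ℕ,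
    ∃ (c q : ℕ → ℕ) (e e' : ∀ j, GQ → ZMod (2 ^ (2 * j + 4))),
      (∀ j, (c j * q j).primeFactors.card ≤ m ∧
        ∀ l ∈ (c j * q j).primeFactors, l ∉ F j ∧ l ∉ S ∧ Gq ρ m (pl.σ l)) ∧
      ∀ b : Bs, (∀ g, mt ρ g = (b.r g).map (algebraMap ℤ_[2] ℚ_[2])) → b.S = S → b.pl = pl →
        b.c = k → ∀ N : ℕ → ℕ, (∀ j, j + 1 ≤ N j) → ∃ t : Tw b, t.m = m + 1 ∧ t.c = c ∧ t.q = q ∧
          t.e = e ∧ t.e' = e' ∧ t.N = N ∧ t.Mz := by
  obtain ⟨m, B, a⟩ := Mu.muq3 h pr pl hk big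
  refine ⟨m, fun F => ?_⟩
  choose c q e e' a1 a2 a3 a4 a5 a6 a7 a8 a9 using fun j => a (2 * j + 4) (F j) (by omega)
  refine ⟨c, q, e, e', fun j => ⟨a3 j, a4 j⟩, ?_⟩
  rintro b hr rfl rfl rfl N le
  have sub j : (c j).primeFactors ⊆ (c j * q j).primeFactors := Nat.primeFactors_mono
    (dvd_mul_right _ _) (mul_ne_zero (a1 j).sq.ne_zero (a5 j).ne_zero)
  have ι j : Nonempty (Zn (N j) →+* Rj (j + 1)) := ex_io (pow_eq_zero_of_le (le j) Rg.two_mq)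
  let t : Tw b := ⟨m + 1, c, q, e, e', N, fun j => (ι j).some, fun j => (cj _).toMonoidHom.comp b.ε *
      Rg.ch (x := mj _ (1 + X)) (by rw [map_add, map_one]; exact Rg.X_ord (by omega))
        (by simpa using (a1 j).add 1 1) (a1 j).add, le, a1,
    fun j => (Finset.card_le_card (sub j)).trans ((a3 j).trans m.le_succ),
    fun j l d => b.gq hr (a4 j l (sub j d)).2.2, a2, fun j => ⟨a5 j, (a4 j _ (Nat.mem_primeFactors.2
      ⟨a5 j, dvd_mul_left _ _, mul_ne_zero (a1 j).sq.ne_zero (a5 j).ne_zero⟩)).2.1, a6 j⟩,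
    fun j g d => (b.rb hr g).symm.trans (h.tr_one_iff.1 fun x y =>
      (a7 j _ (b.pl.ov _ (a5 j)) g d x y).trans (by norm_num)), fun j g => rfl⟩
  refine ⟨t, rfl, rfl, rfl, rfl, rfl, rfl, fun r Q u hu => ?_⟩
  obtain ⟨j, ⟨b1, b2⟩, b3⟩ := ((hu.and (Mu.um_red Q (B + 1))).and (U_ge B)).exists
  obtain ⟨f, hf⟩ := Mu.ex_red (Nat.succ_le_succ b3)
  refine Mu.lmu0 (map PadicInt.toZMod) Mu.map_sur _ _ f (b2 f hf) (fun g => ?_) b1
    (a9 j _ ((Nat.lt_two_pow_self.le).trans' (by omega))).2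
  have c : ∀ x, f (cj _ x) = mq _ (C (PadicInt.toZMod x)) := fun x => (hf _).trans (by rw [map_C])
  rw [t.a_eq, t.hΨ, Matrix.map_smul' _ _ _ (map_mul _), map_mul, map_pow, c, b.eps_two, hf,
    map_one, map_one, one_mul, map_add (PowerSeries.map _), map_one, map_X, P004C.Mu.ab, b.rb hr]
  exact congrArg _ (Matrix.ext fun x y => c _)

end Vale.Agent.P014T.Pp
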