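import Vale.Agent.P004F.Pat.Lim
import Vale.Agent.P004F.Pat.Vec

/-! # P014T, block PATQ: limits of vectors along a ring homomorphism on sequences -/

set_option linter.all false

open Matrix Submodule Set Filter

noncomputable section

namespace Vale.Agent.P014T.Pp.Lv

open Vale.Agent.P004F.Pat

variable {R : ℕ → Type} [∀ j, CommRing (R j)] {O : Type} [CommRing O] {ψ : (∀ j, R j) →+* O}
  {α I : Type}

variable (ψ) in
/-- the limit of vectors -/
def lv (x : ∀ j, α → R j) : α → O := fun a => ψ fun j => x j a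

theorem lm_row (A : ∀ j, Matrix α I (R j)) (a : α) : lm ψ A a = lv ψ fun j => A j a := rfl

theorem lv_zero : lv ψ (fun j => (0 : α → R j)) = 0 := funext fun _ => ψ.map_zero

theorem lv_add (x y : ∀ j, α → R j) : lv ψ (fun j => x j + y j) = lv ψ x + lv ψ y :=
  funext fun _ => ψ.map_add _ _

theorem lv_neg (x : ∀ j, α → R j) : lv ψ (fun j => -x j) = -lv ψ x := funext fun _ => ψ.map_neg _

theorem lv_sub (x y : ∀ j, α → R j) : lv ψ (fun j => x j - y j) = lv ψ x - lv ψ y :=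
  funext fun _ => ψ.map_sub _ _

theorem lv_smul (c : ∀ j, R j) (x : ∀ j, α → R j) :
    lv ψ (fun j => c j • x j) = ψ c • lv ψ x := funext fun _ => ψ.map_mul _ _

theorem lv_dot [Fintype α] (x y : ∀ j, α → R j) :
    lv ψ x ⬝ᵥ lv ψ y = ψ fun j => x j ⬝ᵥ y j := by
  simp only [dotProduct, lv, ← map_mul, ← map_sum]
  exact congrArg _ (funext fun j => by simp [Finset.sum_apply])

theorem lv_vm [Fintype α] (x : ∀ j, α → R j) (A : ∀ j, Matrix α I (R j)) :
    lv ψ (fun j => x j ᵥ* A j) = lv ψ x ᵥ* lm ψ A := funext fun b => (lv_dot x fun j a => A j a b).symm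

theorem lv_mv [Fintype I] (A : ∀ j, Matrix α I (R j)) (x : ∀ j, I → R j) :
    lv ψ (fun j => A j *ᵥ x j) = lm ψ A *ᵥ lv ψ x := funext fun b => (lv_dot (fun j => A j b) x).symm

theorem lm_adj (A : ∀ j, Matrix (Fin 2) (Fin 2) (R j)) :
    lm ψ (fun j => (A j).adjugate) = (lm ψ A).adjugate := by
  have e : lm ψ A = ψ.mapMatrix (Matrix.of fun a b j => A j a b) := rfl
  rw [e, ← RingHom.map_adjugate]
  exact Matrix.ext fun a b => congrArg ψ (funext fun j =>
    (congrFun (congrFun ((Pi.evalRingHom R j).map_adjugate (Matrix.of fun a b j => A j a b)) a) b).symm)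

theorem lm_trace [Fintype α] (A : ∀ j, Matrix α α (R j)) :
    (lm ψ A).trace = ψ fun j => (A j).trace := by
  simp only [Matrix.trace, Matrix.diag, lm_apply, ← map_sum]
  exact congrArg _ (funext fun j => by simp [Finset.sum_apply])

theorem lm_cols {m n : Type} (A : ∀ j, Matrix α m (R j)) (B : ∀ j, Matrix α n (R j)) :
    lm ψ (fun j => fromCols (A j) (B j)) = fromCols (lm ψ A) (lm ψ B) :=
  Matrix.ext fun a b => b.rec (fun _ => rfl) fun _ => rfl

theorem sp_rows {R I ρ ρ' : Type} [CommRing R] (M : Matrix ρ I R) (N : Matrix ρ' I R) :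
    span R (range (fromRows M N)) = span R (range M) ⊔ span R (range N) := by
  rw [← span_union]
  exact congrArg _ (Sum.range_eq _)

theorem mem_sp {R I ρ : Type} [CommRing R] [Fintype ρ] {M : Matrix ρ I R} {v : I → R} :
    v ∈ span R (range M) ↔ ∃ β, v = β ᵥ* M := by
  exact (mem_span_range_iff_exists_fun R (v := fun i => M i)).trans
    (exists_congr fun β => by rw [vecMul_eq_sum, eq_comm])

theorem dot_zero {R I ρ : Type} [CommRing R] [Fintype I] [Fintype ρ] {M : Matrix ρ I R} {v y : I → R}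
    (h : v ∈ span R (range M)) (hy : M *ᵥ y = 0) : v ⬝ᵥ y = 0 := by
  obtain ⟨β, rfl⟩ := mem_sp.1 h
  rw [← dotProduct_mulVec, hy, dotProduct_zero]

theorem ker_iff {R I I' ρ ρ' : Type} [CommRing R] [Fintype I] [Fintype I'] [DecidableEq I']
    [Fintype ρ] [Fintype ρ'] {M : Matrix ρ I R} {M' : Matrix ρ' I' R} {A : Matrix I' I R}
    {A' : Matrix I I' R} (h1 : ∀ i, (M' * A) i ∈ span R (range M))
    (h2 : ∀ i, (M * A') i ∈ span R (range M'))
    (h3 : ∀ i, (A * A' - 1 : Matrix I' I' R) i ∈ span R (range M'))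
    (v : I' → R) : v ᵥ* A ∈ span R (range M) ↔ v ∈ span R (range M') := by
  refine ⟨fun a => ?_, fun a => ?_⟩
  · obtain ⟨β, hβ⟩ := mem_sp.1 a
    have e1 : v = β ᵥ* (M * A') - v ᵥ* (A * A' - 1) := by
      rw [← vecMul_vecMul, ← hβ, vecMul_sub, vecMul_vecMul, vecMul_one, sub_sub_cancel]
    rw [e1]
    exact sub_mem (vm_mem h2 _) (vm_mem h3 _)
  · obtain ⟨β, rfl⟩ := mem_sp.1 a
    rw [vecMul_vecMul]
    exact vm_mem h1 _

variable (hψ : Ae ψ)
include hψ

theorem lv_ae {x y : ∀ j, α → R j} (h : ∀ᶠ j in U, x j = y j) : lv ψ x = lv ψ y :=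
  funext fun a => hψ _ _ (h.mono fun j e => by rw [e])

/-- membership in the span of finitely many vectors passes to the limit -/
theorem lv_mem [Fintype α] {B : ∀ j, Matrix α I (R j)} {v : ∀ j, I → R j}
    (h : ∀ᶠ j in U, v j ∈ span (R j) (range (B j))) : lv ψ v ∈ span O (range (lm ψ B)) := by
  obtain ⟨β, hβ⟩ := U_ch (h.mono fun j e => mem_sp.1 e)
  exact mem_sp.2 ⟨lv ψ β, (lv_ae hψ hβ).trans (lv_vm _ _)⟩

theorem ps_dvd {a b : ∀ j, R j} (h : ∀ᶠ j in U, a j ∣ b j) : ψ a ∣ ψ b := by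
  obtain ⟨c, hc⟩ := U_ch h
  exact ⟨ψ c, (hψ _ _ hc).trans (ψ.map_mul a c)⟩

theorem ps_unit {a : ∀ j, R j} (h : ∀ᶠ j in U, IsUnit (a j)) : IsUnit (ψ a) :=
  isUnit_of_dvd_one (by
    rw [← ψ.map_one]
    exact ps_dvd hψ (h.mono fun j e => isUnit_iff_dvd_one.1 e))

theorem ker_lim {I' ρ ρ' : Type} [Fintype I] [Fintype I'] [DecidableEq I'] [Fintype ρ] [Fintype ρ']
    {M : ∀ j, Matrix ρ I (R j)} {M' : ∀ j, Matrix ρ' I' (R j)}
    {A : ∀ j, Matrix I' I (R j)} {A' : ∀ j, Matrix I I' (R j)}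
    (h : ∀ᶠ j in U, (∀ v ∈ span (R j) (range (M' j)), v ᵥ* A j ∈ span (R j) (range (M j))) ∧
      (∀ v ∈ span (R j) (range (M j)), v ᵥ* A' j ∈ span (R j) (range (M' j))) ∧
      ∀ v, v ᵥ* A j ᵥ* A' j - v ∈ span (R j) (range (M' j))) (v : I' → O) :
    v ᵥ* lm ψ A ∈ span O (range (lm ψ M)) ↔ v ∈ span O (range (lm ψ M')) := by
  refine ker_iff (A' := lm ψ A') (fun i => ?_) (fun i => ?_) (fun i => ?_) v
  · rw [← lm_mul]
    exact lv_mem hψ (h.mono fun j a => a.1 _ (subset_span ⟨i, rfl⟩))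
  · rw [← lm_mul]
    exact lv_mem hψ (h.mono fun j a => a.2.1 _ (subset_span ⟨i, rfl⟩))
  · rw [← lm_mul, ← lm_one (ψ := ψ), ← lm_sub]
    exact lv_mem hψ (h.mono fun j a => by
      have := a.2.2 ((1 : Matrix I' I' _) i)
      rwa [vecMul_vecMul, show (1 : Matrix I' I' _) i ᵥ* (A j * A' j) =
        (1 * (A j * A' j) : Matrix I' I' _) i from rfl, Matrix.one_mul] at this)

end Vale.Agent.P014T.Pp.Lv
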