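import Vale.Agent.P004F.St
import Vale.Agent.P014T.Pp.Rng
import Vale.Agent.P014T.Pp.Lv

/-! # P014T, block PATQ, row GL2: algebra of the local factors -/

set_option linter.all false

open Matrix PowerSeries Filter nonZeroDivisors

noncomputable section

namespace Vale.Agent.P014T.Pp.G2

open Vale.Agent.P004F (Nt)
open Vale.Agent.P004F.Pat
open Kq (M2 F4 Rq)
open Rg (qz pw_mem)

section gen

variable {R S : Type} [CommRing R] [CommRing S] {l : ℕ}

theorem nt_map (f : R →+* S) (A V : M2 R) (l : ℕ) :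
    (Nt A V l).map f = Nt (A.map f) (V.map f) l := by
  rw [Nt, Nt, fromCols_map]
  simp only [← RingHom.mapMatrix_apply, map_sub, map_one, map_pow, map_sum]

theorem det_l (A B : M2 R) : (fromCols A B * fromRows (1 : M2 R) (0 : M2 R)).det = A.det := by
  rw [fromCols_mul_fromRows, Matrix.mul_one, Matrix.mul_zero, add_zero]

theorem det_r (A B : M2 R) : (fromCols A B * fromRows (0 : M2 R) (1 : M2 R)).det = B.det := by
  rw [fromCols_mul_fromRows, Matrix.mul_one, Matrix.mul_zero, zero_add]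

theorem det_u (A B : M2 R) : (fromCols (1 : M2 R) (0 : M2 R) * fromRows A B).det = A.det := by
  rw [fromCols_mul_fromRows, Matrix.one_mul, Matrix.zero_mul, add_zero]

theorem det_d (A B : M2 R) : (fromCols (0 : M2 R) (1 : M2 R) * fromRows A B).det = B.det := by
  rw [fromCols_mul_fromRows, Matrix.one_mul, Matrix.zero_mul, zero_add]

theorem det_sc (u : R) : (u • (1 : M2 R) - 1).det = (u - 1) ^ 2 := by
  simp [det_fin_two, sq]

theorem det_sc' (u : R) : (1 - u • (1 : M2 R)).det = (u - 1) ^ 2 := by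
  simp [det_fin_two]
  ring

/-- the ideal of the minors -/
def I2 (N : Matrix (Fin 2) F4 R) : Ideal R :=
  Ideal.span (Set.range fun D : Matrix F4 (Fin 2) R => (N * D).det)

theorem mem_I2 (N : Matrix (Fin 2) F4 R) (D : Matrix F4 (Fin 2) R) : (N * D).det ∈ I2 N :=
  Ideal.subset_span ⟨D, rfl⟩

theorem I2_map (f : R →+* S) {N : Matrix (Fin 2) F4 R} {x : R} (h : x ∈ I2 N) :
    f x ∈ I2 (N.map f) :=
  (Ideal.span_le (I := (I2 (N.map f)).comap f)).2 (by
    rintro _ ⟨D, rfl⟩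
    have := mem_I2 (N.map f) (D.map f)
    rwa [← Matrix.map_mul, ← RingHom.mapMatrix_apply, ← RingHom.map_det] at this) h

theorem hom_ext {k : ℕ} (h : (2 : R) ^ k = 0) (f g : ℤ_[2] →+* R) : f = g := RingHom.ext fun x => by
  obtain ⟨y, e⟩ := Ideal.mem_span_singleton.1 (x.appr_spec k)
  rw [sub_eq_iff_eq_add.1 e]
  simp [map_ofNat, h]

theorem geom_mem {I : Ideal R} (h2 : (2 : R) ∈ I) {x : R} (h : x - 1 ∈ I) (n : ℕ) :
    ∑ i ∈ Finset.range (2 ^ n), x ^ i ∈ I ^ n := by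
  induction n with
  | zero => simp
  | succ n ih =>
    rw [pow_succ 2, mul_two, Finset.sum_range_add, pow_succ I]
    simp only [pow_add]
    rw [← Finset.mul_sum, ← one_add_mul, mul_comm (1 + _),
      show 1 + x ^ 2 ^ n = x ^ 2 ^ n - 1 + 2 by ring]
    exact Ideal.mul_mem_mul ih (I.add_mem (Ideal.pow_le_self n.succ_ne_zero (pw_mem h2 h n)) h2)

theorem geom_zero {y u : R} {k n : ℕ} (h2 : (2 : R) ^ k = 0) (hy : y ^ k = 0) (hu : y ∣ u - 1)
    (hn : 2 * k ≤ n) : ∑ i ∈ Finset.range (2 ^ n), u ^ i = 0 := by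
  have h := geom_mem (I := Ideal.span {2} ⊔ Ideal.span {y})
    (Ideal.mem_sup_left (Ideal.mem_span_singleton_self _))
    (Ideal.mem_sup_right (Ideal.mem_span_singleton.2 hu)) n
  have k1 := Ideal.sup_pow_add_le_pow_sup_pow (I := Ideal.span {(2 : R)}) (J := Ideal.span {y})
    (n := k) (m := k) (Ideal.pow_le_pow_right (by omega) h)
  rwa [Ideal.span_singleton_pow, Ideal.span_singleton_pow, h2, hy, sup_idem,
    Ideal.mem_span_singleton, zero_dvd_iff] at k1

theorem geom_per {u : R} {n : ℕ} (h : ∑ i ∈ Finset.range n, u ^ i = 0) (hl : l % n = 1) :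
    u ^ l = u ∧ ∑ i ∈ Finset.range l, u ^ i = 1 := by
  have a : u ^ n = 1 := by rw [← sub_eq_zero, ← geom_sum_mul, h, zero_mul]
  have b : ∀ m, ∑ i ∈ Finset.range (n * m), u ^ i = 0 := fun m => by
    induction m with
    | zero => simp
    | succ m ih =>
      rw [Nat.mul_succ, Finset.sum_range_add, ih]
      simp only [pow_add]
      rw [← Finset.mul_sum, h, mul_zero, zero_add]
  rw [← Nat.div_add_mod l n, hl, pow_succ, pow_mul, a, one_pow, one_mul, Finset.sum_range_succ, b,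
    pow_mul, a, one_pow, zero_add]
  exact ⟨rfl, rfl⟩

theorem nt_sc {u : R} (A : M2 R) (h : u ^ l = u ∧ ∑ i ∈ Finset.range l, u ^ i = 1) :
    Nt A (u • 1) l = fromCols (1 - u • 1) (A - 1) := by
  simp only [Nt, smul_pow, one_pow]
  rw [← Finset.sum_smul, h.1, h.2, one_smul]

variable {R : ℕ → Type} [∀ j, CommRing (R j)] {ψ : (∀ j, R j) →+* S}

theorem lm_nt (A V : ∀ j, M2 (R j)) (l : ℕ) :
    lm ψ (fun j => Nt (A j) (V j) l) = Nt (lm ψ A) (lm ψ V) l := by
  have a : ∀ n, lm ψ (fun j => V j ^ n) = lm ψ V ^ n := fun n => by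
    induction n with
    | zero => exact lm_one
    | succ n ih => simp only [pow_succ]; rw [lm_mul, ih]
  simp only [Nt]
  rw [Lv.lm_cols, lm_sub, lm_sub, lm_one, a, lm_sum]
  simp only [a]

end gen

/-- different from one, with constant term one -/
def Tc (y : (ZMod 2)⟦X⟧) : Prop := y ≠ 1 ∧ constantCoeff y = 1

theorem Tc.inv {y z : (ZMod 2)⟦X⟧} (h : Tc y) (e : y * z = 1) : Tc z :=
  ⟨fun k => h.1 (by rwa [k, mul_one] at e), by simpa [h.2] using congrArg constantCoeff e⟩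

theorem Tc.ev {y : (ZMod 2)⟦X⟧} (h : Tc y) {q : Polynomial (ZMod 2)} (h0 : q ≠ 0) :
    q.eval₂ C y ≠ 0 := by
  obtain ⟨r, e, k⟩ := q.exists_eq_pow_rootMultiplicity_mul_and_not_dvd h0 1
  rw [e, Polynomial.eval₂_mul, Polynomial.eval₂_pow, Polynomial.eval₂_sub, Polynomial.eval₂_X,
    Polynomial.eval₂_C, map_one]
  refine mul_ne_zero (pow_ne_zero _ (sub_ne_zero.2 h.1)) fun a => k (Polynomial.dvd_iff_isRoot.2 ?_)
  have := congrArg constantCoeff a
  rwa [Polynomial.hom_eval₂, h.2, map_zero, constantCoeff_comp_C] at this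

theorem co_pow {A : Type} [CommRing A] (n i : ℕ) : coeff i ((1 + X : A⟦X⟧) ^ n) = n.choose i := by
  rw [← Polynomial.coeff_one_add_X_pow A n i, ← Polynomial.coeff_coe]
  simp

theorem tc_of {y : (ZMod 2)⟦X⟧} {n : ℕ} (h : X ^ 3 ∣ (1 + X) ^ n - y) (hn : n % 4 ≠ 0) : Tc y := by
  have a := fun i hi => sub_eq_zero.1 ((map_sub _ _ _).symm.trans (X_pow_dvd_iff.1 h i hi))
  simp only [co_pow] at a
  refine ⟨fun e => hn ?_, by simpa using (a 0 (by omega)).symm⟩
  have b := a 1 (by omega)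
  have c := a 2 (by omega)
  simp only [e, coeff_one, one_ne_zero, OfNat.ofNat_ne_zero, if_false, ZMod.natCast_eq_zero_iff,
    Nat.choose_one_right] at b c
  obtain ⟨m, rfl⟩ := b
  rw [Nat.choose_two_right, mul_assoc, Nat.mul_div_cancel_left _ two_pos] at c
  rcases (Nat.prime_two.dvd_mul).1 c with c | c <;> omega

variable {w : ℤ_[2]}

theorem tz (h : 2 ∣ w) : PadicInt.toZMod w = 0 := by
  obtain ⟨y, rfl⟩ := h
  simp [map_ofNat, CharTwo.two_eq_zero]

/-- the reduction modulo two and the root -/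
def pi2 (h : 2 ∣ w) : Rq (-w) (-w) →+* (ZMod 2)⟦X⟧ :=
  qz (PowerSeries.map PadicInt.toZMod) (by simp [tz h])

theorem nzd (h : 2 ∣ w) {x : Rq (-w) (-w)} (k : pi2 h x ≠ 0) : x ∈ (Rq (-w) (-w))⁰ := by
  refine QuadraticAlgebra.norm_mem_nonZeroDivisors_iff.1 (mem_nonZeroDivisors_of_ne_zero fun e => k ?_)
  have := congrArg (PowerSeries.map PadicInt.toZMod) e
  show PowerSeries.map PadicInt.toZMod x.re = 0
  simpa [QuadraticAlgebra.norm_def, tz h] using this

theorem Im_X {k : ℕ} {f : La} (h : f ∈ Im (k + 1)) :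
    X ^ (k + 1) ∣ PowerSeries.map PadicInt.toZMod f := X_pow_dvd_iff.2 fun i hi => by
  obtain ⟨y, e⟩ := mem_Im.1 h i hi
  simp [e, map_ofNat, CharTwo.two_eq_zero]

theorem dvd_iff {n : ℕ} {x : ℤ_[2]} : (2 : ℤ_[2]) ^ n ∣ x ↔ PadicInt.toZModPow n x = 0 := by
  rw [← RingHom.mem_ker, PadicInt.ker_toZModPow, Ideal.mem_span_singleton]
  rfl

/-- the reduction modulo `2 ^ m`, `X` and the root -/
def th (m : ℕ) (h : 2 ^ m ∣ w) : Rq (-w) (-w) →+* ZMod (2 ^ m) :=
  qz ((PadicInt.toZModPow m).comp constantCoeff) (by simp [dvd_iff.1 h])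

/-- a power of two in the ideal -/
theorem two_mem {m : ℕ} (h : 2 ^ m ∣ w) (h4 : 4 ^ m ∣ w) {I : Ideal (Rq (-w) (-w))}
    {d : Rq (-w) (-w)} (hd : d ∈ I) (d0 : th m h d ≠ 0) (hX : algebraMap La _ (X ^ 2) ∈ I) :
    ∃ e : ℕ, 2 ^ e ∈ I := by
  have a : constantCoeff d.norm ≠ 0 := fun e => d0 (dvd_iff.1 ((IsIntegrallyClosed.pow_dvd_pow_iff two_ne_zero).1 (by
    obtain ⟨y, hy⟩ := h4
    simp only [QuadraticAlgebra.norm_def, map_sub, map_add, map_mul, constantCoeff_C] at e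
    exact ⟨y * (constantCoeff d.re * constantCoeff d.im - constantCoeff d.im ^ 2), by
      rw [← pow_mul, mul_comm m, pow_mul]
      linear_combination e + (constantCoeff d.re * constantCoeff d.im - constantCoeff d.im ^ 2) * hy⟩)))
  obtain ⟨g, hg⟩ := X_dvd_iff.2 (show constantCoeff (d.norm - C (constantCoeff d.norm)) = 0 by simp)
  obtain ⟨e, u, hu⟩ := IsDiscreteValuationRing.associated_pow_irreducible
    (pow_ne_zero 2 a) PadicInt.irreducible_p
  have b : (C (constantCoeff d.norm ^ 2) : La) ∈ I.comap (algebraMap La _) := by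
    rw [show (C (constantCoeff d.norm ^ 2) : La) = d.norm * (d.norm - 2 * X * g) + X ^ 2 * g ^ 2 by
      rw [map_pow, eq_sub_of_add_eq' (eq_add_of_sub_eq hg).symm]; ring]
    exact add_mem (Ideal.mul_mem_right _ _ (I.mem_of_dvd (Rg.dvd_norm d) hd))
      (Ideal.mul_mem_right _ _ hX)
  have c := Ideal.mul_mem_right (C (u : ℤ_[2])) _ b
  rw [← map_mul, hu, Ideal.mem_comap] at c
  exact ⟨e, by simpa [map_ofNat] using c⟩

/-- the limit of odd powers -/
theorem odd_lim {n : ℕ → ℕ} (h : ∀ᶠ j in U, Odd (n j)) :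
    ∃ v : La, IsUnit v ∧ (ul fun j => (1 + X) ^ n j) - 1 = X * v := by
  have a : ul ((fun j => (1 + X) ^ n j) - 1) ∈ Ideal.span {X} :=
    ul_mem _ fun k => .of_forall fun j => Ideal.mem_sup_left
      (Ideal.mem_span_singleton.2 (X_dvd_iff.2 (by simp)))
  rw [map_sub, map_one] at a
  obtain ⟨v, e⟩ := Ideal.mem_span_singleton.1 a
  refine ⟨v, rs_unit.2 fun k => ?_, e⟩
  obtain ⟨j, b, c⟩ := (h.and (ul_spec (fun j => (1 + X) ^ n j) 2)).exists
  have d := X_pow_dvd_iff.1 (Im_X c) 1 (by omega)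
  rw [eq_add_of_sub_eq e] at d
  simp only [coeff_map, map_sub, map_add, co_pow, coeff_succ_X_mul, coeff_zero_eq_constantCoeff,
    Nat.choose_one_right, map_natCast] at d
  rw [show PadicInt.toZMod (constantCoeff v) = 0 from k, coeff_one, if_neg one_ne_zero, map_zero,
    add_zero, sub_zero, ZMod.natCast_eq_zero_iff_even] at d
  exact Nat.not_even_iff_odd.2 b d

end Vale.Agent.P014T.Pp.G2
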