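import Vale.Agent.P014T.Pp.G2a
import Vale.Agent.P014T.Pg.Bas

/-! # P014T, block PATQ: unipotent inertia and the local factors -/

set_option linter.all false

open NumberField Matrix Polynomial

noncomputable section

namespace Vale.Agent.P014T.Pp.B0

open Vale.Agent.P022 (Qb GQ)
open Vale.Agent.P022.H443 (inP)
open Vale.Agent.P027M.S (Inert)
open Vale.Agent.P022E.GW (Ov Fb Gn)
open Vale.Agent.P004F (Nt)
open Kq (M2 F4)
open G2 (I2 mem_I2 det_r)
open Pg (Kr mem_Kr)

section alg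

variable {R G : Type} [CommRing R] [Group G]

theorem nil_mul [IsReduced R] {X Y : M2 R} (a : X.trace = 0) (b : X.det = 0) (c : Y.trace = 0)
    (d : Y.det = 0) (e : (X * Y).trace = 0) : X * Y = 0 := by
  simp only [trace_fin_two, det_fin_two, mul_apply, Fin.sum_univ_two] at a b c d e
  rw [eq_neg_of_add_eq_zero_right a] at b e
  rw [eq_neg_of_add_eq_zero_right c] at d e
  ext i j
  refine pow_eq_zero_iff (n := 2) two_ne_zero |>.1 ?_
  fin_cases i <;> fin_cases j <;> simp only [mul_apply, Fin.sum_univ_two, Fin.zero_eta, Fin.mk_one,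
    Fin.isValue, eq_neg_of_add_eq_zero_right a, eq_neg_of_add_eq_zero_right c]
  · linear_combination X 0 1 * Y 1 0 * e - Y 0 0 ^ 2 * b + X 0 1 * X 1 0 * d
  · linear_combination -X 0 1 * Y 0 1 * e - Y 0 1 ^ 2 * b - X 0 1 ^ 2 * d
  · linear_combination -X 1 0 * Y 1 0 * e - Y 1 0 ^ 2 * b - X 1 0 ^ 2 * d
  · linear_combination X 1 0 * Y 0 1 * e - Y 0 0 ^ 2 * b + X 0 1 * X 1 0 * d

theorem tr_two {A : M2 R} (d : A.det = 1) (h : (A - 1).det = 0) : A.trace = 2 := by
  simp [det_fin_two, trace_fin_two] at d h ⊢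
  linear_combination d - h

variable {ρ : G →* M2 R} {I : Subgroup G}

theorem prod_zero [IsReduced R] (d : ∀ g ∈ I, (ρ g).det = 1) (h : ∀ g ∈ I, (ρ g - 1).det = 0) {g k : G}
    (a : g ∈ I) (b : k ∈ I) : (ρ g - 1) * (ρ k - 1) = 0 := by
  have t := fun g m => tr_two (d g m) (h g m)
  refine nil_mul ?_ (h g a) ?_ (h k b) ?_
  · rw [trace_sub, t g a]; simp
  · rw [trace_sub, t k b]; simp
  · simp only [mul_sub, sub_mul, trace_sub, mul_one, one_mul, ← map_mul]
    rw [t g a, t k b, t _ (mul_mem a b)]; simp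

/-- a group of unipotent matrices fixes a vector -/
theorem kol [IsDomain R] (d : ∀ g ∈ I, (ρ g).det = 1) (h : ∀ g ∈ I, (ρ g - 1).det = 0) :
    ∃ v : Fin 2 → R, v ≠ 0 ∧ ∀ g ∈ I, ρ g *ᵥ v = v := by
  by_cases c : ∀ g ∈ I, ρ g - 1 = 0
  · exact ⟨1, one_ne_zero, fun g m => by rw [sub_eq_zero.1 (c g m), one_mulVec]⟩
  push Not at c
  obtain ⟨k, m, c⟩ := c
  obtain ⟨j, c⟩ := Function.ne_iff.1 (mt transpose_eq_zero.1 c)
  refine ⟨_, c, fun g a => sub_eq_zero.1 (funext fun i => ?_)⟩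
  have := prod_zero d h a m
  rw [sub_mul, one_mul] at this
  exact congrFun₂ this i j

theorem det_fix [IsDomain R] {A : M2 R} {v : Fin 2 → R} (v0 : v ≠ 0) (h : A *ᵥ v = v) :
    (A - 1).det = 0 :=
  exists_mulVec_eq_zero_iff.1 ⟨v, v0, by rw [sub_mulVec, h, one_mulVec, sub_self]⟩

theorem uni_pow {n : M2 R} (h : n * n = 0) (m : ℕ) : (1 + n) ^ m = 1 + (m : R) • n := by
  induction m with
  | zero => simp
  | succ m i =>
    rw [pow_succ, i, add_mul, mul_add, mul_add, smul_mul_assoc, smul_mul_assoc, h]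
    simp [add_smul, add_assoc, add_comm n]

theorem minor {A n : M2 R} {t p c : R} (a : n.trace = 0) (d : n.det = 0) (h : n * A = t • n) (i j) :
    p * (p - t) * n i j ∈ I2 (fromCols (-(p • n)) (A - (p • 1 + c • n))) := by
  have e := fun i j => congrFun₂ h i j
  simp only [trace_fin_two, det_fin_two, mul_apply, Fin.sum_univ_two, Matrix.smul_apply,
    smul_eq_mul] at a d e
  have k := fun k => mem_I2 (fromCols (-(p • n)) (A - (p • 1 + c • n)))
    (fromRows (single j 0 1) (single k 1 1))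
  simp only [fromCols_mul_fromRows] at k
  fin_cases i
  · convert k 1 using 1
    fin_cases j <;> simp [det_fin_two, mul_apply, single_apply]
    · linear_combination -p * c * d + p * A 1 1 * a - p * e 1 1 - p * t * a
    · linear_combination p * e 0 1 - p * A 0 1 * a
  · rw [← neg_mem_iff]
    convert k 0 using 1
    fin_cases j <;> simp [det_fin_two, mul_apply, single_apply]
    · linear_combination p * A 1 0 * a - p * e 1 0
    · linear_combination p * c * d + p * e 0 0 - p * A 0 0 * a + p * t * a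

end alg

theorem odd_unit {p : ℕ} (hp : p.Prime) (h2 : p ≠ 2) : IsUnit (p : ℤ_[2]) :=
  PadicInt.isUnit_iff.2 (PadicInt.norm_natCast_eq_one_iff.2
    ((Nat.coprime_primes Nat.prime_two hp).2 h2.symm))

/-- the good factor -/
theorem eul_g {A : M2 ℤ_[2]} {p : ℕ} (u : IsUnit (p : ℤ_[2])) (d : A.det = p) :
    C (p : ℤ_[2]) - C A.trace * X + X ^ 2 ∈ I2 (Nt ((X : ℤ_[2][X]) • A.map C) 1 p) := by
  rw [← Ideal.unit_mul_mem_iff_mem _ (u.map C)]
  convert mem_I2 _ (fromRows (0 : M2 _) (1 : M2 _)) using 1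
  have := congrArg C d
  rw [Nt, det_r]
  simp [det_fin_two, trace_fin_two, Matrix.natCast_apply] at this ⊢
  linear_combination -X ^ 2 * this

/-- the multiplicative factor -/
theorem eul_m {A n : M2 ℤ_[2]} {t : ℤ_[2]} {p : ℕ} (u : IsUnit (p : ℤ_[2])) (n0 : n ≠ 0)
    (a : n.trace = 0) (d : n.det = 0) (n2 : n * n = 0) (h1 : A * n = (t * p) • n)
    (h2 : A * (1 + n) = (1 + n) ^ p * A) : ∃ e : ℕ, 2 ^ e * (C (p : ℤ_[2]) - C t * X) ∈
      I2 (Nt ((X : ℤ_[2][X]) • A.map C) ((1 + n).map C) p) := by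
  have h : n * A = t • n := by
    rw [uni_pow n2, mul_add, add_mul, mul_one, one_mul, add_right_inj, h1, mul_comm t, mul_smul,
      smul_mul_assoc] at h2
    exact (u.smul_left_cancel.1 h2).symm
  obtain ⟨i, n0⟩ := Function.ne_iff.1 n0
  obtain ⟨j, n0⟩ := Function.ne_iff.1 n0
  obtain ⟨e, y, hy⟩ := Pg.un_ne n0
  let f := (C : ℤ_[2] →+* ℤ_[2][X]).mapMatrix (m := Fin 2)
  have k := minor (A := (X : ℤ_[2][X]) • f A) (n := f n) (t := C t * X) (p := p)
    (c := ∑ i ∈ Finset.range p, (i : ℤ_[2][X])) ((AddMonoidHom.map_trace C n).symm.trans (by rw [a, map_zero]))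
    ((RingHom.map_det C n).symm.trans (by rw [d, map_zero])) (by
      rw [mul_smul_comm, ← map_mul, h, mul_comm (C t), mul_smul]
      exact congrArg _ (Matrix.map_smul' _ _ _ (map_mul _))) i j
  have w : ∀ m : ℕ, f (1 + n) ^ m = 1 + (m : ℤ_[2][X]) • f n := fun m => by
    rw [map_add, map_one, uni_pow (by rw [← map_mul, n2, map_zero])]
  refine ⟨e, (Ideal.unit_mul_mem_iff_mem _ (u.map C)).1 ?_⟩
  convert Ideal.mul_mem_right (C y) _ k using 1
  · rw [Nt, show (1 + n).map C = f (1 + n) from rfl]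
    simp only [w, Finset.sum_add_distrib, Finset.sum_smul, Finset.sum_const, Finset.card_range,
      sub_add_cancel_left, Nat.cast_smul_eq_nsmul]
    rfl
  · have := congrArg C hy
    simp only [map_pow, map_ofNat, map_mul, map_natCast] at this ⊢
    rw [this]
    show _ = _ * C _ * _
    ring

variable {r : GQ →* M2 ℤ_[2]} {l : ℕ} {P : Ideal (𝓞 Qb)} {φ τ : GQ}

theorem zero_of {X : M2 ℤ_[2]} (h : ∀ k i j, (2 : ℤ_[2]) ^ k ∣ X i j) : X = 0 :=
  Matrix.ext fun i j => PadicInt.ext_of_toZModPow.1 fun k => (Pg.dvd_iff.1 (h k i j)).trans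
    (map_zero _).symm

/-- unipotent inertia is generated by the tame generator -/
theorem tame (lc : ∀ n, IsOpen (Kr r n : Set GQ)) (o : Ov l P) (l2 : l ≠ 2) (f : Fb l P φ)
    (t : Gn l P τ) (z : ∀ g k, Inert P g → Inert P k → (r g - 1) * (r k - 1) = 0) :
    (r τ = 1 → ∀ g, Inert P g → r g = 1) ∧ r φ * r τ = r τ ^ l * r φ := by
  refine ⟨fun e g i => sub_eq_zero.1 (zero_of fun k a b => ?_), ?_⟩
  · obtain ⟨j, hj⟩ := (P004S.lt l P o).1 τ k g l2 t i _ (lc k)
    rw [Pg.dvd_iff, hj _ (fun g => PadicInt.toZModPow k ((r g - 1) a b)) (fun x => by simp)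
      (fun g _ m => Pg.dvd_iff.1 (mem_Kr.1 m a b)) fun g h x y => by
        rw [← map_add, ← Matrix.add_apply, ← add_zero (r g - 1 + _), ← z g h x y, map_mul,
          show r g - 1 + (r h - 1) + (r g - 1) * (r h - 1) = r g * r h - 1 by noncomm_ring], e]
    simp
  have m : φ * τ * φ⁻¹ * (τ ^ l)⁻¹ ∈ inP P := mul_mem (P022D.W.conj_inP
    (P022D.W.phi_mem o.1 o.2.1 f) t.1) (inv_mem (pow_mem t.1 l))
  have : r (φ * τ * φ⁻¹ * (τ ^ l)⁻¹) = 1 := sub_eq_zero.1 (zero_of fun k a b => by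
    obtain ⟨_, _, _, _, -, -, h1⟩ := P022K.CH.Loc.chi_data (Kr r k) (lc k) o
    obtain ⟨n, e⟩ := h1 φ f τ t.1
    have := mem_Kr.1 e a b
    rwa [map_pow, ← add_sub_cancel 1 (r _), uni_pow (z _ _ m m), add_sub_cancel_left,
      Matrix.smul_apply, smul_eq_mul, Nat.cast_pow, ((odd_unit o.1 l2).pow n).dvd_mul_left] at this)
  rw [← map_pow, ← map_mul, ← map_mul, show φ * τ = φ * τ * φ⁻¹ * (τ ^ l)⁻¹ * (τ ^ l * φ) by group,
    map_mul, this, one_mul]

end Vale.Agent.P014T.Pp.B0
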