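import Vale.Agent.P014T.Kq.Sy
import Vale.Agent.P014T.Pp.Lv
import Vale.Agent.P004F.Ch.Irr

/-! # P014T, block PATQ, row GL1: algebra (units away from two, Burnside, the dual side) -/

set_option linter.all false

open Matrix Submodule Set

noncomputable section

namespace Vale.Agent.P014T.Pp.G1

open Kq (M2 Un)

variable {R G : Type} [CommRing R] [Group G] {x y : R}

theorem un_mul (a : Un x) (b : Un y) : Un (x * y) :=
  a.elim fun c a => b.elim fun d b => ⟨c + d, pow_add (2 : R) c d ▸ mul_dvd_mul a b⟩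

theorem un_dvd (a : x ∣ y) (b : Un y) : Un x := b.imp fun _ => a.trans

theorem un_unit (a : IsUnit x) : Un x := ⟨0, a.dvd⟩

theorem un_map {O : Type} [CommRing O] (f : R →+* O) (a : Un x) : Un (f x) :=
  a.imp fun c a => by simpa only [map_pow, map_ofNat] using map_dvd f a

theorem un_int {x : ℤ_[2]} (h : x ≠ 0) : Un x :=
  ⟨x.valuation, ((PadicInt.unitCoeff h)⁻¹ : ℤ_[2]ˣ), (Units.eq_mul_inv_iff_mul_eq _).2
    ((mul_comm _ _).trans (PadicInt.unitCoeff_spec h).symm)⟩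

/-- the saturation at two -/
def Sa {M : Type} [AddCommGroup M] [Module R M] (N : Submodule R M) : Submodule R M where
  carrier := {x | ∃ e : ℕ, (2 : R) ^ e • x ∈ N}
  add_mem' := fun ⟨a, ha⟩ ⟨b, hb⟩ => ⟨a + b, by
    rw [smul_add, pow_add, mul_smul _ _ (_ : M), ← smul_comm]
    exact add_mem (N.smul_mem _ ha) (by rw [mul_smul]; exact N.smul_mem _ hb)⟩
  zero_mem' := ⟨0, by simp⟩
  smul_mem' c x := fun ⟨a, ha⟩ => ⟨a, by rw [smul_comm]; exact N.smul_mem _ ha⟩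

/-- **Burnside, integral form** -/
theorem burnz (r : G →* M2 ℤ_[2]) (irr : ∀ w : Fin 2 → ℚ_[2], w ≠ 0 → ∃ x, ∀ a : ℚ_[2],
    (r x).map (algebraMap ℤ_[2] ℚ_[2]) *ᵥ w ≠ a • w) {c : G} (c1 : c * c = 1) (c2 : (r c).det = -1)
    (B : M2 ℤ_[2]) : B ∈ Sa (span ℤ_[2] (range r)) := by
  let f := algebraMap ℤ_[2] ℚ_[2]
  have h := P004F.Ch.burn (f.mapMatrix.toMonoidHom.comp r) two_ne_zero irr c1
    ((f.map_det _).symm.trans (by rw [c2, map_neg, map_one]))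
  obtain ⟨⟨t, t0⟩, m⟩ := multiple_mem_span_of_mem_localization_span (nonZeroDivisors ℤ_[2]) ℚ_[2] _
    (B.map f) (h ▸ mem_top)
  obtain ⟨e, d, hd⟩ := un_int (nonZeroDivisors.ne_zero t0)
  let F : M2 ℤ_[2] →ₗ[ℤ_[2]] M2 ℚ_[2] := (Algebra.linearMap ℤ_[2] ℚ_[2]).mapMatrix
  rw [show range (f.mapMatrix.toMonoidHom.comp r) = F '' range r from range_comp F r, ← map_span] at m
  obtain ⟨Y, m, k⟩ := m
  refine ⟨e, ?_⟩
  rw [hd, mul_comm, mul_smul, ← Matrix.map_injective (IsFractionRing.injective ℤ_[2] ℚ_[2])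
    (k.trans (F.map_smul t B).symm)]
  exact smul_mem _ _ m

/-- the field `spn` -/
theorem spn {G' : Type} (ι : ℤ_[2] →+* R) {r : G → M2 ℤ_[2]} (h : ∀ B, B ∈ Sa (span ℤ_[2] (range r)))
    {ρ : G' → M2 R} (k : ∀ g, ∃ g', ∃ u : R, IsUnit u ∧ ρ g' = u • (r g).map ι) (B : M2 R) :
    ∃ e : ℕ, (2 : R) ^ e • B ∈ span R (range ρ) := by
  have a : ∀ A ∈ span ℤ_[2] (range r), A.map ι ∈ span R (range ρ) := fun A hA => by
    induction hA using span_induction with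
    | mem _ m =>
      obtain ⟨g, rfl⟩ := m
      obtain ⟨g', u, hu, e⟩ := k g
      exact (smul_mem_iff_of_isUnit _ hu).1 (subset_span ⟨g', e⟩)
    | zero => rw [Matrix.map_zero _ (map_zero _)]; exact zero_mem _
    | add _ _ _ _ x y => rw [Matrix.map_add _ (map_add _)]; exact add_mem x y
    | smul r _ _ x => rw [Matrix.map_smul' _ _ _ (map_mul _)]; exact smul_mem _ _ x
  show B ∈ Sa _
  rw [matrix_eq_sum_single B]
  refine sum_mem fun i _ => sum_mem fun j _ => ?_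
  obtain ⟨e, m⟩ := h (single i j 1)
  have := a _ m
  rw [Matrix.map_smul' _ _ _ (map_mul _), map_single, map_one, map_pow, map_ofNat] at this
  simpa using (Sa _).smul_mem (B i j) ⟨e, this⟩

/-- a root of `v ^ 2 - (2 - w) v + 1` -/
theorem quad {v w : R} (h : v ^ 2 - (2 - w) * v + 1 = 0) (a : Un w) (b : Un (4 - w)) {A : M2 R}
    (d : A.det = 1) (t : A.trace = 2 - w) :
    Un (v - 1) ∧ (v • A - 1).det = 0 ∧ Un (v • A - 1).trace := by
  have a1 : Un (v - 1) := un_dvd ⟨(v - 1) * (v + w - 2), by linear_combination (2 - v) * h⟩ a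
  have a2 : Un (v + 1) := un_dvd ⟨(v + 1) * (2 - w - v), by linear_combination (2 + v) * h⟩ b
  rw [det_fin_two] at d
  rw [trace_fin_two] at t
  refine ⟨a1, ?_, ?_⟩
  · simp [det_fin_two]
    linear_combination h + v ^ 2 * d - v * t
  · convert un_mul a1 a2 using 1
    simp [trace_fin_two]
    linear_combination v * t - h

open P004F.Pat Filter

variable {R : ℕ → Type} [∀ j, CommRing (R j)] {O : Type} [CommRing O] {ψ : (∀ j, R j) →+* O}
  {ι : ∀ j, ℤ_[2] →+* R j} {ι' : ℤ_[2] →+* O} {r : G →* M2 ℤ_[2]} {Ψ : ∀ j, G →* R j}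

theorem lm_tw (hψ : Ae ψ) (hι : ∀ x, ψ (fun j => ι j x) = ι' x) {g : ℕ → G} {A : M2 ℤ_[2]}
    (h : ∀ᶠ j in U, r (g j) = A) : (lm ψ fun j => Ψ j (g j) • (r (g j)).map (ι j)) =
      ψ (fun j => Ψ j (g j)) • A.map ι' := by
  rw [hψ.lm (B := fun j => Ψ j (g j) • A.map (ι j)) (h.mono fun j e => by rw [e]), lm_smul]
  exact congrArg _ (Matrix.ext fun a b => hι _)

/-- **the global conditions on one side** -/
theorem ok {σ : Type} (hψ : Ae ψ) (hι : ∀ x, ψ (fun j => ι j x) = ι' x)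
    (ab : ∀ B, B ∈ Sa (span ℤ_[2] (range r))) {γ : Kq.Gl O (ℕ → G) σ}
    (hρ : ∀ g, γ.ρ g = lm ψ fun j => Ψ j (g j) • (r (g j)).map (ι j)) {H : Subgroup (ℕ → G)}
    (h1 : ∀ h ∈ H, ∀ᶠ j in U, Ψ j (h j) • (r (h j)).map (ι j) = 1) {t τ c : ℕ → G} {A : M2 ℤ_[2]}
    (h2 : ∀ g, t * g * t⁻¹ * g⁻¹ ∈ H) (ht : ∀ᶠ j in U, r (t j) = 1 ∧ r (τ j) = A ∧
      Ψ j (τ j) = Ψ j (t j)) {w : ℤ_[2]} (w0 : w ≠ 0) (w4 : w ≠ 4) (d : A.det = 1)
    (tr : A.trace = 2 - w)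
    (hv : ∀ᶠ j in U, Ψ j (t j) ^ 2 - (2 - ι j w) * Ψ j (t j) + 1 = 0) {C : M2 ℤ_[2]} {ε : ℤ_[2]}
    (hc : ∀ᶠ j in U, r (c j) = C ∧ Ψ j (c j) = ι j ε) {p q : Fin 2 → ℤ_[2]}
    (cj : 1 + ε • C = vecMulVec p q) (gp : γ.gp = ι' ∘ p) : γ.Ok H τ c := by
  have e : γ.ρ τ = ψ (fun j => Ψ j (t j)) • A.map ι' := by
    rw [hρ, lm_tw hψ hι (ht.mono fun j a => a.2.1), hψ _ _ (ht.mono fun j a => a.2.2)]
  obtain ⟨a1, a2, a3⟩ := quad (v := ψ fun j => Ψ j (t j)) (w := ι' w) (A := A.map ι') (by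
      rw [← hι, ← map_ofNat ψ 2, ← map_one ψ, ← map_sub, ← map_mul, ← map_pow, ← map_sub, ← map_add]
      exact (hψ _ 0 hv).trans ψ.map_zero) (un_map _ (un_int w0))
    (by simpa only [map_sub, map_ofNat] using un_map ι' (un_int (sub_ne_zero.2 w4.symm)))
    ((ι'.map_det A).symm.trans (by rw [d, map_one]))
    ((AddMonoidHom.map_trace ι' A).symm.trans (by rw [tr, map_sub, map_ofNat]))
  refine ⟨fun h m => (hρ h).trans ((hψ.lm (h1 h m)).trans lm_one), ⟨t, _, ?_, a1, h2⟩,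
    spn ι' ab fun g => ⟨fun _ => g, _, Lv.ps_unit hψ (.of_forall fun j => (Group.isUnit g).map _),
      (hρ _).trans (lm_tw hψ hι (.of_forall fun _ => rfl))⟩, e ▸ a2, e ▸ a3, ι' ∘ q, ?_⟩
  · rw [hρ, lm_tw hψ hι (ht.mono fun j a => a.1), Matrix.map_one _ (map_zero _) (map_one _)]
  · rw [hρ, lm_tw hψ hι (hc.mono fun j a => a.1), hψ _ _ (hc.mono fun j a => a.2), hι, gp]
    ext i j
    simpa [vecMulVec_apply, one_apply, apply_ite ι'] using congrArg ι' (congrFun₂ cj i j)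

end Vale.Agent.P014T.Pp.G1
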