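import Vale.Agent.P014T.Pp.St
import Vale.Agent.P014T.Pp.Gl0
import Vale.Agent.P014T.Mu.Add

/-! # P014T, block PATQ, row GL1: the group theory of the limit -/

set_option linter.all false

open NumberField Matrix Filter PowerSeries Submodule Set

noncomputable section

namespace Vale.Agent.P014T.Pp

open Vale.Agent.P022 (Qb GQ IsConj)
open Vale.Agent.P027M.S (Inert)
open Vale.Agent.P022E.GW (Ov)
open Vale.Agent.P004F.Pat (U Ae lm Im ul_const two_Im)
open Vale.Agent.P004S.Aq (cz)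
open Dr (Hm Zn aa am)
open Kq (M2 Un Rq)

namespace G1

theorem hom_eq {R : Type} [CommRing R] {m : ℕ} (h : (2 : R) ^ m = 0) (f g : ℤ_[2] →+* R) : f = g :=
  RingHom.ext fun x => by
    obtain ⟨y, e⟩ := Ideal.mem_span_singleton.1 (PadicInt.appr_spec m x)
    rw [eq_add_of_sub_eq e]
    simp [map_ofNat, h]

theorem comm_Hm (n : ℕ) (x g : GQ) : x * g * x⁻¹ * g⁻¹ ∈ Hm (2 ^ n) := by
  obtain ⟨-, χ, -, -, h, -⟩ := Dr.ex_cy (2 ^ n)
  rw [h, map_mul, map_mul, map_mul, map_inv, map_inv, mul_inv_cancel_comm, mul_inv_cancel]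

variable {w : ℤ_[2]} (n : Rn w) {j : ℕ}

theorem two_n : (2 : n.R j) ^ (j + 1) = 0 := by
  have := (n.ker j (algebraMap P004F.La _ (2 ^ (j + 1)))).2 ⟨two_Im _, zero_mem _⟩
  simpa only [map_pow, map_ofNat] using this

theorem ps_i (y : Rq (-w) (-w)) : n.ψ (fun j => n.i j y) = y := by
  rw [n.lim fun _ => y, ul_const, ul_const]

theorem om_eq : (1 + QuadraticAlgebra.omega : Rq (-w) (-w)) ^ 2 -
    (2 - kq w w) * (1 + QuadraticAlgebra.omega) + 1 = 0 := by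
  have : (QuadraticAlgebra.omega : Rq (-w) (-w)) * QuadraticAlgebra.omega =
      -kq w w - kq w w * QuadraticAlgebra.omega := by ext1 <;> simp [kq]
  linear_combination this

variable {b : Bs} {t : Tw b} {k : ℕ} (p : Pe t k)

/-- the constants at level `j` -/
abbrev io (j : ℕ) : ℤ_[2] →+* p.n.R j := (p.n.i j).comp (kq p.w)

theorem aa_eq (Φ : GQ →* p.n.R j) (g : GQ) :
    aa (b.ρ (t.N j)) (p.f j) Φ g = Φ g • (b.r g).map (io p j) := by
  rw [hom_eq (two_n p.n) (io p j) ((p.f j).comp (PadicInt.toZModPow _))]; rfl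

theorem ps_zero {g : GQ} (h : t.e j g = 0) (h' : t.e' j g = 0) :
    p.Ψ j g = io p j (b.ε g * (cz g : ℤ_[2]) ^ p.M) := by
  rw [p.hΨ, h, h', ch, ZMod.val_zero, pow_zero, pow_zero, mul_one, mul_one]; rfl

theorem ps_one {g : GQ} (h : t.e j g = 0) (h' : t.e' j g = 1) (e : b.ε g = 1) (d : (b.r g).det = 1) :
    p.Ψ j g = p.n.i j (1 + QuadraticAlgebra.omega) := by
  have : Fact (1 < 2 ^ (2 * j + 4)) := ⟨Nat.one_lt_two_pow (by omega)⟩
  rw [p.hΨ, h, h', e, ← b.det, d, ch, ZMod.val_zero, ZMod.val_one]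
  simp

theorem side (Φ : ∀ j, GQ →* p.n.R j) {z : ℕ → GQ} (h1 : ∀ j, b.r (z j) = 1)
    (h2 : ∀ h ∈ p.fr.H, ∀ᶠ j in U, aa (b.ρ (t.N j)) (p.f j) (Φ j) (h j) = 1)
    (h3 : ∀ j, Φ j (p.τ j) = Φ j (z j))
    (h4 : ∀ j, Φ j (z j) ^ 2 - (2 - io p j p.w) * Φ j (z j) + 1 = 0) (h5 : ∀ j, Φ j b.c = 1) :
    (lg p.n.ψ fun j => p.gl j (Φ j)).Ok p.fr.H p.τ fun _ => b.c := by
  obtain ⟨q, hq⟩ := b.cj
  have cm : ∀ j (Φ : GQ →* p.n.R j) g, am (b.ρ (t.N j)) (p.f j) Φ (z j * g * (z j)⁻¹ * g⁻¹) = 1 :=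
    fun j Φ g => by
      have : z j * g * (z j)⁻¹ * g⁻¹ ∈ b.r.ker := by
        rw [mul_assoc, mul_assoc, ← mul_assoc g]
        exact mul_mem (h1 j) (b.r.normal_ker.conj_mem _ (inv_mem (h1 j)) g)
      refine (aa_eq p _ _).trans ?_
      rw [this, map_mul, map_mul, map_mul, mul_right_comm (Φ _), ← map_mul, mul_inv_cancel, map_one,
        one_mul, ← map_mul, mul_inv_cancel, map_one, one_smul,
        Matrix.map_one _ (map_zero _) (map_one _)]
  refine ok (ι := io p) (ι' := kq p.w) (Ψ := Φ) (t := z) (ε := 1) p.n.ae (fun x => ps_i p.n _) b.spn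
    (fun g => congrArg (lm _) (funext fun j => aa_eq p _ _))
    (fun h m => (h2 h m).mono fun j e => (aa_eq p _ _).symm.trans e)
    (fun g => .of_forall fun j => ⟨cm j _ _, cm j _ _, comm_Hm _ _ _⟩)
    (.of_forall fun j => ⟨h1 j, (p.hτ j).1, h3 j⟩) p.w0 (fun e => ?_) p.du (by rw [p.hw]; ring)
    (.of_forall h4) (.of_forall fun j => ⟨rfl, (h5 j).trans (map_one _).symm⟩)
    (by rwa [one_smul]) (funext fun i => ps_i p.n _)
  have := map_dvd (PadicInt.toZModPow 4) ((pow_dvd_pow _ (by have := p.km; omega : 2 ≤ k)).trans p.wk)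
  rw [e, map_pow, map_ofNat] at this
  exact absurd this (by decide)

end G1

open G1 in
/-- **the row `GL1`** -/
theorem gl1 : GL1 := fun b t _ k p => by
  have o j := b.pl.ov _ (t.pq j).1
  choose z z1 z2 using fun j => (t.tq' j).ram _ _ (o j) dvd_rfl
  have u j := b.unr _ _ _ (o j) (t.pq j).2.1 (z1 j)
  have a j := ps_one p ((t.tq j).ine (o j) (t.pq j).2.2 (z1 j)) (z2 j) (u j).2 (by rw [(u j).1, det_one])
  have a' j := ps_one p (p.hτ j).2.2.1 (p.hτ j).2.2.2 (p.hτ j).2.1 (by rw [(p.hτ j).1, p.du])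
  have v j : p.Ψ j (z j) ^ 2 - (2 - io p j p.w) * p.Ψ j (z j) + 1 = 0 := by
    simpa only [a, map_add _ (_ - _), map_sub, map_mul, map_pow, map_one, map_ofNat, map_zero,
      RingHom.comp_apply] using
      congrArg (p.n.i j) (om_eq (w := p.w))
  have c j : p.Ψ j b.c = 1 := by
    obtain ⟨m, e⟩ := (dvd_pow_self 2 (by have := p.km; omega)).trans p.Mk
    rw [ps_zero p ((t.tq j).cj _ b.cc) ((t.tq' j).cj _ b.cc), b.εc, e, pow_mul, sq, ← Units.val_mul,
      ← map_mul, P004R.Mu.kk b.cc]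
    simp
  have iv j {g h} (e : p.Ψ j g = p.Ψ j h) : p.Ψ' j g = p.Ψ' j h := by
    linear_combination p.Ψ' j h * p.inv j g - p.Ψ' j g * p.Ψ' j h * e - p.Ψ' j g * p.inv j h
  refine ⟨side p p.Ψ (fun j => (u j).1) (fun h m => m.mono fun j e => e.1)
      (fun j => (a' j).trans (a j).symm) v c,
    side p p.Ψ' (fun j => (u j).1) (fun h m => m.mono fun j e => e.2.1)
      (fun j => iv j ((a' j).trans (a j).symm)) (fun j => ?_)
      fun j => (iv j ((c j).trans (map_one _).symm)).trans (map_one _),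
    fun _ => p.g₀, fun _ => P022D.W.inP_le_dec p.ine, ?_⟩
  · linear_combination p.Ψ' j (z j) ^ 2 * v j + ((2 - io p j p.w) * p.Ψ' j (z j) -
      p.Ψ j (z j) * p.Ψ' j (z j) - 1) * p.inv j (z j)
  have n2 {S n c e} (t : Mu.Tq S n c e) : e p.g₀ = 0 := t.ine p.ov (fun d => by
    have := (t.cy 2 Nat.prime_two d).1
    rw [pow_succ'] at this
    have := congrArg (· % 2) this
    simp at this) p.ine
  obtain ⟨y, hy⟩ : ∃ y : ℤ_[2], (cz p.g₀ : ℤ_[2]) ^ p.M * y = 1 := ((cz _).isUnit.pow _).exists_right_inv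
  have e j : p.Ψ' j p.g₀ = io p j (b.ε p.g₀ * y) := by
    have h1 := p.inv j p.g₀
    have h2 := congrArg (io p j) hy
    have h3 := congrArg (io p j) (b.sq p.g₀)
    rw [ps_zero p (n2 (t.tq j)) (n2 (t.tq' j))] at h1
    simp only [map_mul, map_one, sq] at h1 h2 h3 ⊢
    linear_combination io p j (b.ε p.g₀) * io p j y * h1 - p.Ψ' j p.g₀ * h2 -
      p.Ψ' j p.g₀ * io p j ((cz p.g₀ : ℤ_[2]) ^ p.M) * io p j y * h3
  have : p.fr.G'.ρ (fun _ => p.g₀) - 1 = (kq p.w).mapMatrix ((b.ε p.g₀ * y) • b.r p.g₀ - 1) := by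
    rw [map_sub, map_one, RingHom.mapMatrix_apply, Matrix.map_smul' _ _ _ (map_mul _), ← ps_i p.n (kq _ _)]
    exact congrArg (· - 1) ((congrArg (lm _) (funext fun j => aa_eq p _ _)).trans ((lm_tw (ι := io p)
      p.n.ae (fun x => ps_i p.n _) (.of_forall fun _ => rfl)).trans (by simp only [e]; rfl)))
  rw [this, ← RingHom.map_det]
  refine un_map _ (un_int fun d => p.ne ?_)
  rw [show b.ε p.g₀ • b.r p.g₀ - (cz p.g₀ : ℤ_[2]) ^ p.M • 1 = (cz p.g₀ : ℤ_[2]) ^ p.M •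
    ((b.ε p.g₀ * y) • b.r p.g₀ - 1) by rw [smul_sub, smul_smul, mul_left_comm, hy, mul_one],
    det_smul, d, mul_zero]

end Vale.Agent.P014T.Pp
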