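import Vale.Agent.P014T.Pp.St
import Vale.Agent.P014T.Pp.G2a
import Vale.Agent.P004F.Pt.Pert

/-! # P014T, block PATQ, row GL2: the local factors of the perturbed tower -/

set_option linter.all false

open NumberField Matrix Filter PowerSeries Sum nonZeroDivisors

noncomputable section

namespace Vale.Agent.P014T.Pp

open Vale.Agent.P022 (GQ)
open Vale.Agent.P004F (Nt La)
open Vale.Agent.P004F.Pat (U lm Im ul ul_const ul_spec two_Im X_Im lm_smul lm_sub lm_one mem_Im)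
open Vale.Agent.P004S.Aq (cz cy_in)
open Dr (aa)
open Kq (M2 F4 Rq)

namespace G2

variable {w : ℤ_[2]} (n : Rn w)

theorem cst (x : Rq (-w) (-w)) : n.ψ (fun j => n.i j x) = x := by
  rw [n.lim, ul_const, ul_const]

theorem alg (x : ℕ → La) :
    n.ψ (fun j => n.i j (algebraMap La _ (x j))) = algebraMap La _ (ul x) :=
  (n.lim _).trans (QuadraticAlgebra.ext rfl (ul_const 0))

theorem alg0 {j : ℕ} {x : La} (h : x ∈ Im (j + 1)) : n.i j (algebraMap La _ x) = 0 :=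
  (n.ker j _).2 ⟨h, zero_mem _⟩

theorem two0 (j : ℕ) : (2 : n.R j) ^ (j + 1) = 0 := by
  simpa [map_ofNat] using alg0 n (two_Im (j + 1))

theorem X0 (j : ℕ) : n.i j (algebraMap La _ X) ^ (j + 1) = 0 := by
  rw [← map_pow, ← map_pow]
  exact alg0 n (X_Im _)

theorem spec (y : ℕ → Rq (-w) (-w)) (k : ℕ) :
    ∀ᶠ j in U, (y j - n.ψ fun j => n.i j (y j)).re ∈ Im k := by
  rw [n.lim]
  exact ul_spec _ k

theorem lm_cst (A : M2 ℤ_[2]) :
    lm n.ψ (fun j => A.map ((n.i j).comp (kq w))) = A.map (kq w) := Matrix.ext fun _ _ => cst n _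

theorem pi_kq (h : 2 ∣ w) : (pi2 h).comp (kq w) = C.comp PadicInt.toZMod :=
  RingHom.ext fun x => map_C PadicInt.toZMod x

theorem pi_ch (h : 2 ∣ w) {x : ℤ_[2]} (hx : IsUnit x) (a a' : ℕ) :
    pi2 h (ch w x a a') = (1 + X) ^ a := by
  have e : ∀ z : ZMod 2, IsUnit z → z = 1 := by decide
  have a1 : pi2 h (kq w x) = 1 := (map_C PadicInt.toZMod x).trans (by rw [e _ (hx.map _), map_one])
  have a2 : pi2 h (algebraMap La _ (1 + X)) = 1 + X := by
    rw [map_add, map_add, map_one, map_one]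
    exact congrArg _ (map_X (PadicInt.toZMod (p := 2)))
  have a3 : pi2 h QuadraticAlgebra.omega = 0 := map_zero (PowerSeries.map (PadicInt.toZMod (p := 2)))
  simp only [ch, map_mul, map_pow, a1, a2, map_add (pi2 h), map_one, a3, add_zero, one_pow, one_mul,
    mul_one]

theorem tc_ch (h : 2 ∣ w) {x : ℕ → ℤ_[2]} (hx : ∀ j, IsUnit (x j)) {a : ℕ → ℕ} (a' : ℕ → ℕ)
    (ha : ∀ᶠ j in U, a j % 4 ≠ 0) :
    Tc (pi2 h (n.ψ fun j => n.i j (ch w (x j) (a j) (a' j)))) := by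
  obtain ⟨j, b, c⟩ := (ha.and (spec n (fun j => ch w (x j) (a j) (a' j)) 3)).exists
  refine tc_of ?_ b
  rw [← pi_ch h (hx j) _ (a' j), ← map_sub]
  exact Im_X c

variable {h : 2 ∣ w} {t : Rq (-w) (-w)}

theorem ev_nzd (T : Tc (pi2 h t)) {E : Polynomial ℤ_[2]} (e : E.map PadicInt.toZMod ≠ 0) :
    E.eval₂ (kq w) t ∈ (Rq (-w) (-w))⁰ :=
  nzd h (by rw [Polynomial.hom_eval₂, pi_kq, ← Polynomial.eval₂_map]; exact T.ev e)

theorem det_nzd (T : Tc (pi2 h t)) {A : M2 ℤ_[2]} (hA : IsUnit A.det) (S : M2 ℤ_[2]) :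
    (t • A.map (kq w) - S.map (kq w)).det ∈ (Rq (-w) (-w))⁰ := by
  have := ev_nzd T (E := .monomial 2 A.det + .monomial 0 S.det -
    .monomial 1 (A 0 0 * S 1 1 + A 1 1 * S 0 0 - A 0 1 * S 1 0 - A 1 0 * S 0 1)) fun e =>
      (hA.map PadicInt.toZMod).ne_zero (by
        simpa [Polynomial.coeff_monomial] using congrArg (Polynomial.coeff · 2) e)
  refine Eq.mp (congrArg (· ∈ _) ?_) this
  simp [Polynomial.eval₂_sub, Polynomial.eval₂_add, det_fin_two]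
  ring

theorem sq_nzd (T : Tc (pi2 h t)) : (t - 1) ^ 2 ∈ (Rq (-w) (-w))⁰ :=
  pow_mem (nzd h (by rw [map_sub, map_one]; exact sub_ne_zero.2 T.1)) 2

theorem th_kq {m : ℕ} (h : 2 ^ m ∣ w) (x : ℤ_[2]) : th m h (kq w x) = PadicInt.toZModPow m x :=
  congrArg (PadicInt.toZModPow m) (constantCoeff_C x)

theorem th_ch {m : ℕ} (h : 2 ^ m ∣ w) (x : ℤ_[2]) (a a' : ℕ) :
    th m h (ch w x a a') = PadicInt.toZModPow m x := by
  have a1 := th_kq h x
  have a2 : th m h (algebraMap La _ (1 + X)) = 1 := by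
    show PadicInt.toZModPow m (constantCoeff (1 + X)) = _
    simp
  have a3 : th m h QuadraticAlgebra.omega = 0 := map_zero ((PadicInt.toZModPow m).comp constantCoeff)
  simp only [ch, map_mul, map_pow, a1, a2, map_add (th m h), map_one, a3, add_zero, one_pow, mul_one]

theorem cz_pow {m M : ℕ} (h : 2 ^ m ∣ M) (x : ℤ_[2]ˣ) :
    PadicInt.toZModPow m ((x : ℤ_[2]) ^ M) = 1 := by
  obtain ⟨c, rfl⟩ := h
  have e : ∀ z : ZMod 2, IsUnit z → z = 1 := by decide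
  have a := Rg.pw_mem (I := Ideal.span {(2 : ℤ_[2])}) (Ideal.mem_span_singleton_self _) (x := x) (by
    have := PadicInt.ker_toZMod (p := 2)
    rw [PadicInt.maximalIdeal_eq_span_p, Nat.cast_ofNat] at this
    rw [← this, RingHom.mem_ker, map_sub, e _ (x.isUnit.map _), map_one, sub_self]) m
  rw [Ideal.span_singleton_pow, Ideal.mem_span_singleton] at a
  have b := dvd_iff.1 ((pow_dvd_pow _ m.le_succ).trans a)
  rw [map_sub, map_one, sub_eq_zero] at b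
  rw [pow_mul, map_pow, b, one_pow]

variable {b : Bs} {t : Tw b} {k : ℕ} (p : Pe t k)

/-- the constants at level `j` -/
abbrev io (j : ℕ) : ℤ_[2] →+* p.n.R j := (p.n.i j).comp (kq p.w)

theorem aa_eq (j : ℕ) (Φ : GQ →* p.n.R j) (g : GQ) :
    aa (b.ρ (t.N j)) (p.f j) Φ g = Φ g • (b.r g).map (io p j) := by
  rw [hom_ext (two0 p.n j) (io p j) ((p.f j).comp (PadicInt.toZModPow _))]
  rfl

theorem dvd_w {m : ℕ} (h : m ≤ k) : 4 ^ m ∣ p.w := (pow_dvd_pow _ h).trans p.wk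

theorem two_w {m : ℕ} (h : m ≤ k) : 2 ^ m ∣ p.w :=
  (pow_dvd_pow_of_dvd ⟨2, by norm_num⟩ m).trans (dvd_w p h)

theorem w2 : 2 ∣ p.w := by simpa using two_w p (m := 1) (by have := p.km; omega)

theorem un_e (g : GQ) : IsUnit (b.ε g) := .of_mul_eq_one _ ((sq _).symm.trans (b.sq g))

/-- the values on the inertia group -/
theorem in_val {l j : ℕ} (hl : l.Prime) (l2 : l ≠ 2) (hq : l ≠ t.q j) :
    p.Ψ j (b.pl.τ l) = p.n.i j (kq p.w (b.ε (b.pl.τ l)) *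
      algebraMap La _ ((1 + X) ^ (t.e j (b.pl.τ l)).val)) := by
  have o := b.pl.ov l hl
  have g := (b.pl.gn l hl l2).1
  rw [p.hΨ, ch, (t.tq' j).ker _ (P004F.Pt.fx_in o g fun e =>
    hq ((Nat.prime_dvd_prime_iff_eq hl (t.pq j).1).1 e)),
    show (cz (b.pl.τ l) : ℤ_[2]) = 1 from Subtype.ext (cy_in o l2 g), one_pow, mul_one,
    ZMod.val_zero, pow_zero, mul_one, map_pow (algebraMap La _)]

theorem bad_val (y : b.σ) (j : ℕ) : p.Ψ j (b.pl.τ y) = io p j (b.ε (b.pl.τ y)) ∧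
    p.Ψ' j (b.pl.τ y) = io p j (b.ε (b.pl.τ y)) := by
  obtain ⟨s, l2⟩ := b.sub y y.2
  have hl := b.pr y s
  have a : p.Ψ j (b.pl.τ y) = io p j (b.ε (b.pl.τ y)) := by
    rw [in_val p hl l2 fun e => (t.pq j).2.1 (e ▸ s), (t.tq j).ker _ (P004F.Pt.fx_in (b.pl.ov y hl)
      (b.pl.gn y hl l2).1 fun e => ((t.tq j).cy y hl e).2 s), ZMod.val_zero, pow_zero, map_one,
      mul_one]
    rfl
  have c := p.inv j (b.pl.τ y)
  have d := congrArg (io p j) (b.sq (b.pl.τ y))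
  rw [a] at c
  rw [map_pow, map_one] at d
  exact ⟨a, by linear_combination io p j (b.ε (b.pl.τ y)) * c - p.Ψ' j (b.pl.τ y) * d⟩

theorem rho_cst (Φ : ∀ j, GQ →* p.n.R j) (g : GQ) :
    lm p.n.ψ (fun j => aa (b.ρ (t.N j)) (p.f j) (Φ j) g) =
      p.n.ψ (fun j => Φ j g) • (b.r g).map (kq p.w) := by
  simp only [aa_eq]
  rw [lm_smul, lm_cst]

theorem N_inl (Φ : ∀ j, GQ →* p.n.R j) (y : b.σ)
    (h : ∀ j, Φ j (b.pl.τ y) = io p j (b.ε (b.pl.τ y))) :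
    (lg p.n.ψ fun j => p.gl j (Φ j)).N (inl y) =
      Nt (p.n.ψ (fun j => Φ j (b.pl.σ y)) • (b.r (b.pl.σ y)).map (kq p.w))
        ((b.ε (b.pl.τ y) • b.r (b.pl.τ y)).map (kq p.w)) y := by
  refine (lm_nt (fun j => aa (b.ρ (t.N j)) (p.f j) (Φ j) (b.pl.σ y))
    (fun j => aa (b.ρ (t.N j)) (p.f j) (Φ j) (b.pl.τ y)) y).trans ?_
  rw [rho_cst, rho_cst, funext h, show p.n.ψ (fun j => io p j _) = _ from cst p.n _,
    Matrix.map_smul' _ _ _ (map_mul _)]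

theorem tc_bad (y : b.σ) {x : ℤ_[2]} (hx : IsUnit x) : Tc (pi2 (w2 p) (p.n.ψ fun j => p.n.i j
    (ch p.w x (t.e j (b.pl.σ y)).val (t.e' j (b.pl.σ y)).val))) :=
  tc_ch p.n _ (fun _ => hx) _ (.of_forall fun j => by
    have s := (b.sub y y.2).1
    rw [(t.tq j).fro y s _ _ (b.pl.ov y (b.pr y s)) (b.pl.fb y (b.pr y s))]
    omega)

theorem tc_psi (y : b.σ) : Tc (pi2 (w2 p) (p.n.ψ fun j => p.Ψ j (b.pl.σ y))) := by
  simp only [p.hΨ]
  exact tc_bad p y ((un_e _).mul ((cz _).isUnit.pow _))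

theorem tc_inv {g : ℕ → GQ} (T : Tc (pi2 (w2 p) (p.n.ψ fun j => p.Ψ j (g j)))) :
    Tc (pi2 (w2 p) (p.n.ψ fun j => p.Ψ' j (g j))) :=
  T.inv (by
    rw [← map_mul, ← map_mul, ← map_one (pi2 (w2 p)), ← map_one p.n.ψ]
    exact congrArg _ (congrArg _ (funext fun j => p.inv j _)))

theorem un_det (g : GQ) : IsUnit (b.r g).det := b.det g ▸ (cz g).isUnit

/-- the facts at a prime of the tower -/
theorem twr (i : Fin p.d) : ∀ᶠ j in U, b.r (b.pl.τ (p.en j i)) = 1 ∧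
    p.Ψ j (b.pl.τ (p.en j i)) =
      p.n.i j (algebraMap La _ ((1 + X) ^ (t.e j (b.pl.τ (p.en j i))).val)) ∧
    Odd (t.e j (b.pl.τ (p.en j i))).val ∧ p.en j i % 2 ^ (2 * j + 4 + 1) = 1 ∧
    ¬ 2 ^ t.m ∣ (b.ε (b.pl.σ (p.en j i)) • b.r (b.pl.σ (p.en j i)) - 1).det :=
  p.hen.mono fun j h => by
    have m := (h.2 _).2 ⟨i, rfl⟩
    have hl := Nat.prime_of_mem_primeFactors m
    have d := Nat.dvd_of_mem_primeFactors m
    obtain ⟨c1, c2⟩ := (t.tq j).cy _ hl d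
    have l2 : p.en j i ≠ 2 := fun e => c2 (e ▸ b.two)
    have o := b.pl.ov _ hl
    have g := b.pl.gn _ hl l2
    obtain ⟨u1, u2⟩ := b.unr _ _ _ o c2 g.1
    refine ⟨u1, ?_, ZMod.natCast_eq_one_iff_odd.1 (((t.tq j).par _).trans (P004S.nu_tau o l2
      (Int.squarefree_natCast.2 (t.tq j).sq) (Int.natCast_dvd_natCast.2 d) g)), c1, t.gq j _ m⟩
    rw [in_val p hl l2 fun e => (t.pq j).2.2 (e ▸ d), u2, map_one, one_mul]

theorem N_inr (Φ : ∀ j, GQ →* p.n.R j) (i : Fin p.d)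
    (h : ∀ᶠ j in U, p.n.i j (algebraMap La _ X) ∣ Φ j (b.pl.τ (p.en j i)) - 1) :
    (lg p.n.ψ fun j => p.gl j (Φ j)).ρ (fun j => b.pl.τ (p.en j i)) =
      p.n.ψ (fun j => Φ j (b.pl.τ (p.en j i))) • 1 ∧
    (lg p.n.ψ fun j => p.gl j (Φ j)).N (inr i) =
      fromCols (1 - p.n.ψ (fun j => Φ j (b.pl.τ (p.en j i))) • 1)
        ((lg p.n.ψ fun j => p.gl j (Φ j)).ρ (fun j => b.pl.σ (p.en j i)) - 1) := by
  have a : ∀ᶠ j in U, aa (b.ρ (t.N j)) (p.f j) (Φ j) (b.pl.τ (p.en j i)) =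
      Φ j (b.pl.τ (p.en j i)) • 1 := (twr p i).mono fun j e => by
    rw [aa_eq, e.1, Matrix.map_one _ (map_zero _) (map_one _)]
  refine ⟨(p.n.ae.lm a).trans (by rw [lm_smul, lm_one]), (p.n.ae.lm
    (B := fun j => fromCols (1 - Φ j (b.pl.τ (p.en j i)) • 1)
      (aa (b.ρ (t.N j)) (p.f j) (Φ j) (b.pl.σ (p.en j i)) - 1))
    ((a.and (h.and (twr p i))).mono fun j e => ?_)).trans ?_⟩
  · refine Eq.trans ?_ (nt_sc _ (geom_per (geom_zero (two0 p.n j) (X0 p.n j) e.2.1 (by omega))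
      e.2.2.2.2.2.1))
    rw [← e.1]
    rfl
  · rw [Lv.lm_cols, lm_sub, lm_sub, lm_smul, lm_one]
    rfl

theorem X_psi (i : Fin p.d) :
    ∀ᶠ j in U, p.n.i j (algebraMap La _ X) ∣ p.Ψ j (b.pl.τ (p.en j i)) - 1 :=
  (twr p i).mono fun j e => by
    have := map_dvd ((p.n.i j).comp (algebraMap La _)) (X_dvd_iff.2 (by simp) :
      (X : La) ∣ (1 + X) ^ (t.e j (b.pl.τ (p.en j i))).val - 1)
    rw [map_sub, map_one] at this
    exact e.2.1 ▸ this

theorem X_psi' (i : Fin p.d) :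
    ∀ᶠ j in U, p.n.i j (algebraMap La _ X) ∣ p.Ψ' j (b.pl.τ (p.en j i)) - 1 :=
  (X_psi p i).mono fun j e => e.trans ⟨-p.Ψ' j (b.pl.τ (p.en j i)), by
    linear_combination p.inv j (b.pl.τ (p.en j i))⟩

theorem tc_twr (i : Fin p.d) : Tc (pi2 (w2 p) (p.n.ψ fun j => p.Ψ j (b.pl.τ (p.en j i)))) := by
  simp only [p.hΨ]
  exact tc_ch p.n _ (fun _ => (un_e _).mul ((cz _).isUnit.pow _)) _ ((twr p i).mono fun j e => by
    have := Nat.odd_iff.1 e.2.2.1
    omega)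

theorem PN_inr (i : Fin p.d) : ∃ e : ℕ, 2 ^ e ∈ I2 (p.fr.G.N (inr i)) := by
  have km : t.m ≤ k := by have := p.km; omega
  rw [show p.fr.G.N (inr i) = _ from (N_inr p p.Ψ i (X_psi p i)).2]
  obtain ⟨v, hv, ev⟩ := odd_lim ((twr p i).mono fun j e => e.2.2.1)
  refine two_mem (two_w p km) (dvd_w p km) (d := (p.fr.G.ρ (fun j => b.pl.σ (p.en j i)) - 1).det)
    (Eq.mp (congrArg (· ∈ _) (det_r _ _)) (mem_I2 _ _)) (fun z => ?_)
    (Ideal.mem_of_dvd _ ?_ (Eq.mp (congrArg (· ∈ _) (det_l _ _)) (mem_I2 _ _)))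
  · let y : ℕ → Rq (-p.w) (-p.w) := fun j => (ch p.w (b.ε (b.pl.σ (p.en j i)) *
      (cz (b.pl.σ (p.en j i)) : ℤ_[2]) ^ p.M) (t.e j (b.pl.σ (p.en j i))).val
      (t.e' j (b.pl.σ (p.en j i))).val • (b.r (b.pl.σ (p.en j i))).map (kq p.w) - 1).det
    have a : (p.fr.G.ρ (fun j => b.pl.σ (p.en j i)) - 1).det = p.n.ψ fun j => p.n.i j (y j) := by
      show (lm p.n.ψ (fun j => aa (b.ρ (t.N j)) (p.f j) (p.Ψ j) (b.pl.σ (p.en j i))) - 1).det = _
      rw [← lm_one (ψ := p.n.ψ), ← lm_sub, P004F.Pat.lm_det]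
      refine congrArg _ (funext fun j => ?_)
      rw [aa_eq, p.hΨ, RingHom.map_det, map_sub, map_one, RingHom.mapMatrix_apply,
        Matrix.map_smul' _ _ _ (map_mul _)]
      rfl
    obtain ⟨j, c, d⟩ := ((twr p i).and (spec p.n y (t.m + 1))).exists
    have f : th t.m (two_w p km) (y j - p.n.ψ fun j => p.n.i j (y j)) = 0 :=
      dvd_iff.1 ((pow_dvd_pow _ t.m.le_succ).trans
        (coeff_zero_eq_constantCoeff_apply (R := ℤ_[2]) _ ▸ mem_Im.1 d 0 t.m.succ_pos))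
    rw [map_sub, ← a, z, sub_zero, RingHom.map_det, map_sub, map_one, RingHom.mapMatrix_apply,
      Matrix.map_smul' _ _ _ (map_mul _), th_ch, map_mul,
      cz_pow ((pow_dvd_pow _ km).trans p.Mk), mul_one] at f
    refine c.2.2.2.2 (dvd_iff.2 ?_)
    rw [RingHom.map_det, map_sub, map_one, RingHom.mapMatrix_apply,
      Matrix.map_smul' _ _ _ (map_mul _), ← f, Matrix.map_map,
      show _ ∘ _ = _ from funext (th_kq _)]
  · rw [det_sc', p.n.ae _ _ ((twr p i).mono fun j e => e.2.1), alg, eq_add_of_sub_eq ev, map_add,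
      map_one, add_sub_cancel_right, map_mul, mul_pow, ((hv.map _).pow 2).mul_right_dvd, map_pow]

theorem PN_inl (y : b.σ) : ∃ e : ℕ, 2 ^ e * p.P (inl y) ∈ I2 (p.fr.G.N (inl y)) := by
  obtain ⟨e, h⟩ := b.eul y y.2
  have a := I2_map (Polynomial.eval₂RingHom (kq p.w) (p.n.ψ fun j => p.n.i j (ch p.w
    ((cz (b.pl.σ y) : ℤ_[2]) ^ p.M) (t.e j (b.pl.σ y)).val (t.e' j (b.pl.σ y)).val))) h
  rw [map_mul, map_pow, map_ofNat, nt_map] at a
  refine ⟨e, ?_⟩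
  rw [show p.fr.G.N (inl y) = _ from N_inl p p.Ψ y fun j => (bad_val p y j).1]
  have c : (p.n.ψ fun j => p.Ψ j (b.pl.σ y)) = (p.n.ψ fun j => p.n.i j (ch p.w
      ((cz (b.pl.σ y) : ℤ_[2]) ^ p.M) (t.e j (b.pl.σ y)).val (t.e' j (b.pl.σ y)).val)) *
      kq p.w (b.ε (b.pl.σ y)) := by
    rw [← cst p.n (kq _ _), ← map_mul]
    refine congrArg _ (funext fun j => ?_)
    simp only [p.hΨ, ch, Pi.mul_apply, map_mul]
    ring
  rw [c]
  refine Eq.mp (congrArg (fun N => _ ∈ I2 N) (congrArg₂ (fun A V => Nt A V y) ?_ ?_)) a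
  · exact Matrix.ext fun r s => by simp [mul_assoc]
  · exact Matrix.ext fun r s => by simp

end G2

open G2 in
theorem gl2 : GL2 := fun b t _ k p =>
  { P0 := fun y => by
      rcases y with y | i
      · exact ev_nzd (tc_bad p y ((cz _).isUnit.pow _)) (b.e0 y y.2)
      · exact one_mem _
    PN := fun y => by
      rcases y with y | i
      · exact PN_inl p y
      · exact (PN_inr p i).imp fun e h => Ideal.mul_mem_right _ _ h
    N0 := fun y => by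
      rcases y with y | i
      · refine ⟨fromRows (0 : M2 _) (1 : M2 _), ?_⟩
        rw [show p.fr.G'.N (inl y) = _ from N_inl p p.Ψ' y fun j => (bad_val p y j).2, Nt, det_r]
        simp only [← RingHom.mapMatrix_apply (kq p.w) (_ • _), ← map_pow, ← map_sum]
        exact det_nzd (tc_inv p (tc_psi p y)) (un_det _) _
      · refine ⟨fromRows (1 : M2 _) (0 : M2 _), ?_⟩
        rw [show p.fr.G'.N (inr i) = _ from (N_inr p p.Ψ' i (X_psi' p i)).2, det_l, det_sc']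
        exact sq_nzd (tc_inv p (tc_twr p i))
    cb := fun y => by
      rcases y with y | i
      · refine ⟨fromCols (1 : M2 _) (0 : M2 _), ?_⟩
        rw [det_u, show p.fr.G.ρ (fun j => (p.fr.q j).φ (inl y)) = _ from rho_cst p p.Ψ (b.pl.σ y),
          ← Matrix.map_one _ (map_zero (kq p.w)) (map_one _)]
        exact det_nzd (tc_psi p y) (un_det _) _
      · refine ⟨fromCols (0 : M2 _) (1 : M2 _), ?_⟩
        rw [det_d, show p.fr.G.ρ (fun j => (p.fr.q j).t (inr i)) = _ from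
          (N_inr p p.Ψ i (X_psi p i)).1, det_sc]
        exact sq_nzd (tc_twr p i) }

end Vale.Agent.P014T.Pp
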