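import Vale.Agent.P014T.Pq.Lev
import Vale.Agent.P014T.Dr.Unr
import Vale.Agent.P014T.Mu.St
import Vale.Agent.P014T.Ba.Min
import Vale.Agent.P004F.Pa.Ps
import Vale.Agent.P004F.Pat.Lim
import Vale.Agent.P004S.A.Defs

/-! # P014T, block PATQ: from the finite levels to the patched system (words, rows, glue) -/

set_option linter.all false

open NumberField Matrix Filter PowerSeries Submodule Set Sum nonZeroDivisors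
open scoped Classical

noncomputable section

namespace Vale.Agent.P014T.Pp

open Vale.Agent.P022 (Qb GQ IsConj)
open Vale.Agent.P027M.S (Inert)
open Vale.Agent.P022D.W (dec)
open Vale.Agent.P022E.GW (Ov Fb Gn)
open Vale.Agent.P022K.G2 (In)
open Vale.Agent.P004F (Nt La Rj cj mj)
open Vale.Agent.P004F.Pr (ac F2)
open Vale.Agent.P004F.Pat (U Ae lm Sy Im ul rs)
open Vale.Agent.P004S (Pl)
open Vale.Agent.P004S.Aq (cz)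
open Pq (Zq Gd Ps Tm Lu)
open Dr (Hm Zn aa am Kp Ks Inj Gr Eu Fm Cd Ch)
open Kq (M2 F4 Un Gl Pk Sg SyQ Rq KQ)
open Mu (Tq)

/-! ### one level -/

section level

variable {R σ ι : Type} [CommRing R]

/-- the cyclotomic character modulo `2 ^ N` -/
def ec (N : ℕ) : GQ →* Zn N :=
  (PadicInt.toZModPow N).toMonoidHom.comp ((Units.coeHom ℤ_[2]).comp cz)

/-- the symplectic form -/
def Jm (R : Type) [CommRing R] : M2 R := !![0, 1; -1, 0]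

/-- the local pairing of tame cocycles in terms of their values at `φ` and `τ` -/
def Bt (t φ' t' : M2 R) (l : ℕ) : Matrix F4 F4 R :=
  fromBlocks 0 (Jm R * φ') (-((∑ i ∈ Finset.range l, t ^ i)ᵀ * Jm R * t' ^ l))
    (-∑ n ∈ Finset.range l, (∑ i ∈ Finset.range n, t ^ i)ᵀ * Jm R * t' ^ n)

/-- places side by side -/
def ps (q : Ps σ) (k : Ps ι) : Ps (σ ⊕ ι) :=
  ⟨Sum.elim q.l k.l, Sum.elim q.P k.P, Sum.elim q.φ k.φ, Sum.elim q.t k.t⟩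

/-- the places of Kolyvagin primes -/
def kp {N M : ℕ} {ρ : GQ →* M2 (Zn N)} {S : Finset ℕ} {f : Zn N →+* R} {ψ : GQ →* R}
    (n : ι → Kp ρ S f ψ M) : Ps ι :=
  ⟨fun i => (n i).l, fun i => (n i).P, fun i => (n i).φ, fun i => (n i).τ⟩

/-- `η` kills the local classes at `P` -/
def Vn (a : GQ → M2 R) (η : R) (P : Ideal (𝓞 Qb)) : Prop :=
  ∀ (M : Type) [AddCommGroup M] [Module R M] (T : Finset ℕ) (c : GQ), ∀ x ∈ Zq M T a c,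
    ∃ m, ∀ g ∈ dec P, η • x g = ac (a g - 1) m

end level

/-- odd weights -/
def Wt (w : ℕ → GQ → ℕ) : Prop := ∀ l P τ, Ov l P → l ≠ 2 → Gn l P τ → Odd (w l τ)

/-- **reciprocity for the universal classes** -/
def ISL : Prop := ∀ N : ℕ, ∃ w, Wt w ∧
  ∀ (R : Type) [CommRing R] (f : Zn N →+* R) (σ ι : Type) [Fintype σ] [Fintype ι]
    (γ γ' : Gl R GQ σ) (τ c : GQ) (T : Finset ℕ) (P : Ideal (𝓞 Qb)) (q : Ps (σ ⊕ ι))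
    (X Y : Pk R GQ σ ι) (m : Matrix (Fin 2) (Fin Y.g) R) (η : R),
    Gd ⊤ T γ.ρ → Gd ⊤ T γ'.ρ → IsConj c → Ov 2 P → q.Ok γ τ → q.Ok γ' τ →
    (∀ x, q.l (inr x) % 2 ^ (N + 2) = 1) → (∀ g, (γ.ρ g)ᵀ * Jm R * γ'.ρ g = f (ec N g) • Jm R) →
    Lu γ τ T c (fun _ : Empty => dec P) q X (fun _ => 0) →
    Lu γ' τ T c (fun _ : Unit => dec P) q Y (fun _ => m) →
    (∀ l ∈ T, l ≠ 2 → (∀ x, q.l x ≠ l) → ∃ Q, Ov l Q ∧ Vn γ.ρ η Q) →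
    ∃ (Z : Matrix (Fin X.r ⊕ (σ ⊕ ι) × Fin 2) (Fin Y.g) R)
      (Z' : Matrix (Fin X.g) (Fin Y.r ⊕ (σ ⊕ ι) × Fin 2) R),
      ∑ x, ((η * w (q.l (inr x)) (q.t (inr x))) • ((X.F x)ᵀ * Jm R * Y.S x) +
        (-(η * w (q.l (inr x)) (q.t (inr x)))) • ((X.S x)ᵀ * Jm R * Y.F x)) +
      η • ∑ y, (X.l y)ᵀ * ((w (q.l (inl y)) (q.t (inl y)) : R) • Bt (γ.ρ (q.t (inl y)))
        (γ'.ρ (q.φ (inl y))) (γ'.ρ (q.t (inl y))) (q.l (inl y))) * Y.l y =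
      (X.Rm γ τ)ᵀ * Z + Z' * Y.Rm γ' τ

/-- coboundaries are cocycles, and they are killed by the local pairing -/
def BTL : Prop := ∀ (R : Type) [CommRing R] (a a' : GQ →* M2 R) (l : ℕ) (P : Ideal (𝓞 Qb))
  (φ t : GQ) (T : Finset ℕ), Gd ⊤ T a → Tm a l P φ t →
  (a φ)ᵀ * Jm R * a' φ = (l : R) • Jm R → (a t)ᵀ * Jm R * a' t = Jm R →
  Nt (a φ) (a t) l * fromRows (a φ - 1) (a t - 1) = 0 ∧
  (fromRows (a φ - 1) (a t - 1))ᵀ * Bt (a t) (a' φ) (a' t) l = -Jm R * Nt (a' φ) (a' t) l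

/-! ### sequences -/

section lim

variable {R : ℕ → Type} [∀ j, CommRing (R j)] {O σ ι : Type} [CommRing O] (ψ : (∀ j, R j) →+* O)

/-- the limit of representations -/
def lr (a : ∀ j, GQ →* M2 (R j)) : (ℕ → GQ) →* M2 O where
  toFun g := lm ψ fun j => a j (g j)
  map_one' := by simp only [Pi.one_apply, map_one]; exact P004F.Pat.lm_one
  map_mul' g h := by simp only [Pi.mul_apply, map_mul]; exact P004F.Pat.lm_mul _ _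

/-- the limit of the global data -/
def lg (γ : ∀ j, Gl (R j) GQ σ) : Gl O (ℕ → GQ) σ :=
  ⟨lr ψ fun j => (γ j).ρ, fun i => ψ fun j => (γ j).gp i, fun y => lm ψ fun j => (γ j).N y⟩

variable (R σ ι) in
/-- a sequence of presentations of the same size -/
structure Rs where
  g : ℕ
  r : ℕ
  Q : ∀ j, Matrix (Fin r) (Fin g) (R j)
  l : ∀ j, σ → Matrix F4 (Fin g) (R j)
  F : ∀ j, ι → Matrix (Fin 2) (Fin g) (R j)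
  S : ∀ j, ι → Matrix (Fin 2) (Fin g) (R j)
  u : ∀ j, GQ → Matrix (Fin 2) (Fin g) (R j)

/-- its members -/
abbrev Rs.pk (p : Rs R σ ι) (j : ℕ) : Pk (R j) GQ σ ι :=
  ⟨p.g, p.r, p.Q j, p.l j, p.F j, p.S j, p.u j⟩

/-- its limit -/
abbrev Rs.lim (p : Rs R σ ι) : Pk O (ℕ → GQ) σ ι :=
  ⟨p.g, p.r, lm ψ p.Q, fun y => lm ψ fun j => p.l j y, fun x => lm ψ fun j => p.F j x,
    fun x => lm ψ fun j => p.S j x, fun γ => lm ψ fun j => p.u j (γ j)⟩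

/-- the sequences which act trivially at almost all levels -/
def Hs (N : ℕ → ℕ) (a a' : ∀ j, GQ →* M2 (R j)) : Subgroup (ℕ → GQ) where
  carrier := {h | ∀ᶠ j in U, a j (h j) = 1 ∧ a' j (h j) = 1 ∧ h j ∈ Hm (2 ^ (N j + 2))}
  mul_mem' {g h} a b := (Eventually.and a b).mono fun j e =>
    ⟨by rw [Pi.mul_apply, map_mul, e.1.1, e.2.1, mul_one],
      by rw [Pi.mul_apply, map_mul, e.1.2.1, e.2.2.1, mul_one], mul_mem e.1.2.2 e.2.2.2⟩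
  one_mem' := .of_forall fun j => ⟨map_one _, map_one _, one_mem _⟩
  inv_mem' {g} a := Eventually.mono a fun j e =>
    ⟨MonoidHom.mem_ker.1 (inv_mem (MonoidHom.mem_ker.2 e.1)),
      MonoidHom.mem_ker.1 (inv_mem (MonoidHom.mem_ker.2 e.2.1)), inv_mem e.2.2⟩

end lim

/-- the frame of a sequence: rings, representations, places -/
structure Fr (O : Type) [CommRing O] where
  R : ℕ → Type
  [cR : ∀ j, CommRing (R j)]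
  [lR : ∀ j, IsLocalRing (R j)]
  [fR : ∀ j, Finite (R j)]
  ψ : (∀ j, R j) →+* O
  ae : Ae ψ
  π : ∀ j, R j →+* F2
  N : ℕ → ℕ
  f : ∀ j, Zn (N j) →+* R j
  ρ : ∀ j, GQ →* M2 (Zn (N j))
  Ψ : ∀ j, GQ →* R j
  σ : Type
  [fσ : Fintype σ]
  γ : ∀ j, Gl (R j) GQ σ
  γ' : ∀ j, Gl (R j) GQ σ
  q : ℕ → Ps σ
  S₀ : Finset ℕ
  T : ℕ → Finset ℕ
  c : GQ
  τ : ℕ → GQ
  P₂ : Ideal (𝓞 Qb)

attribute [instance] Fr.cR Fr.lR Fr.fR Fr.fσ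

namespace Fr

variable {O : Type} [CommRing O] (s : Fr O)

abbrev G : Gl O (ℕ → GQ) s.σ := lg s.ψ s.γ

abbrev G' : Gl O (ℕ → GQ) s.σ := lg s.ψ s.γ'

abbrev H : Subgroup (ℕ → GQ) := Hs s.N (fun j => (s.γ j).ρ) fun j => (s.γ' j).ρ

/-- the conditions at one level -/
structure Lv (j : ℕ) : Prop where
  eq : (s.γ j).ρ = am (s.ρ j) (s.f j) (s.Ψ j)
  gd : Gd ⊤ (s.S₀ ∪ s.T j) (s.γ j).ρ
  gd' : Gd ⊤ (s.S₀ ∪ s.T j) (s.γ' j).ρ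
  dual : ∀ g, ((s.γ j).ρ g)ᵀ * Jm _ * (s.γ' j).ρ g = s.f j (ec (s.N j) g) • Jm _
  fix : (s.γ j).ρ s.c *ᵥ (s.γ j).gp = (s.γ j).gp
  mem : ∀ y, (s.q j).l y ∈ s.S₀ ∪ s.T j
  inj : Function.Injective (s.q j).l
  tm : ∀ y, Tm (s.γ j).ρ ((s.q j).l y) ((s.q j).P y) ((s.q j).φ y) ((s.q j).t y)
  tm' : ∀ y, Tm (s.γ' j).ρ ((s.q j).l y) ((s.q j).P y) ((s.q j).φ y) ((s.q j).t y)
  hN : ∀ y, (s.γ j).N y = Nt ((s.γ j).ρ ((s.q j).φ y)) ((s.γ j).ρ ((s.q j).t y)) ((s.q j).l y)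
  hN' : ∀ y, (s.γ' j).N y = Nt ((s.γ' j).ρ ((s.q j).φ y)) ((s.γ' j).ρ ((s.q j).t y)) ((s.q j).l y)
  hτ : s.τ j ∈ Hm (2 ^ (s.N j + 2))
  det : (1 - (s.γ j).ρ (s.τ j)).det = 0

/-- the level data are good, with bounded ramification and constant residual action -/
structure Gs : Prop where
  lv : ∀ᶠ j in U, s.Lv j
  two : 2 ∈ s.S₀
  cc : IsConj s.c
  ov : Ov 2 s.P₂
  bd : ∃ n, ∀ j, (s.T j).card ≤ n
  res : ∃ a₀ : GQ → M2 F2, Gd ⊤ s.S₀ a₀ ∧ ∀ᶠ j in U, (∀ g, ((s.γ j).ρ g).map (s.π j) = a₀ g ∧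
    ((s.γ' j).ρ g).map (s.π j) = a₀ g) ∧ ∃ l ∈ s.S₀ ∪ s.T j, l ≠ 2 ∧ (∀ y, (s.q j).l y ≠ l) ∧
      ∃ Q, Ov l Q ∧ ∀ g ∈ dec Q, a₀ g = 1

/-- the group theory of the limit -/
structure G1 : Prop where
  g1 : s.G.Ok s.H s.τ fun _ => s.c
  g2 : s.G'.Ok s.H s.τ fun _ => s.c
  g0 : ∃ g : ℕ → GQ, (∀ j, g j ∈ dec s.P₂) ∧ Un (s.G'.ρ g - 1).det

/-- the local factors -/
structure G2 (P : s.σ → O) : Prop where
  P0 : ∀ y, P y ∈ O⁰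
  PN : ∀ y, ∃ e : ℕ, 2 ^ e * P y ∈ Ideal.span (range fun D : Matrix F4 (Fin 2) O => (s.G.N y * D).det)
  N0 : ∀ y, ∃ D : Matrix F4 (Fin 2) O, (s.G'.N y * D).det ∈ O⁰
  cb : ∀ y, ∃ D : Matrix (Fin 2) F4 O, (D * fromRows (s.G.ρ (fun j => (s.q j).φ y) - 1)
    (s.G.ρ (fun j => (s.q j).t y) - 1)).det ∈ O⁰

/-- the remaining places -/
def G3 : Prop := ∃ η : ∀ j, s.R j, Un (s.ψ η) ∧ ∀ᶠ j in U, ∀ l ∈ s.S₀ ∪ s.T j, l ≠ 2 →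
  (∀ y, (s.q j).l y ≠ l) → ∃ Q, Ov l Q ∧ Vn (s.γ j).ρ (η j) Q

end Fr

/-- a good sequence with its Kolyvagin classes -/
structure Sq (O : Type) [CommRing O] extends Fr O where
  gs : toFr.Gs
  g1 : toFr.G1
  P : σ → O
  g2 : toFr.G2 P
  g3 : toFr.G3
  S : ℕ → Finset ℕ
  M : ℕ → ℕ
  K : ∀ j, Finset (Kp (ρ j) (S j) (f j) (Ψ j) (M j)) → GQ → Fin 2 → R j
  ks : ∀ᶠ j in U, M j ≠ 0 ∧ Ks (K j) ∧
    ∀ n, Inj n → K j n ∈ Zq (R j) (S₀ ∪ T j ∪ n.image (·.l)) (γ j).ρ c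

namespace Sq

variable {O : Type} [CommRing O] (s : Sq O)

abbrev Kq (j : ℕ) : Type := Kp (s.ρ j) (s.S j) (s.f j) (s.Ψ j) (s.M j)

variable {ι : Type} [Fintype ι]

/-- admissible families of Kolyvagin primes -/
structure Ad (j : ℕ) (n : ι → s.Kq j) : Prop where
  inj : Function.Injective fun i => (n i).l
  out : ∀ i, (n i).l ∉ s.S₀ ∪ s.T j
  fr : ∀ i, (s.γ j).ρ (n i).φ = (s.γ j).ρ (s.τ j)
  fr' : ∀ i, (s.γ' j).ρ (n i).φ = (s.γ' j).ρ (s.τ j)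

/-- the bad primes of a stage -/
def Tn (j : ℕ) (n : ι → s.Kq j) : Finset ℕ := s.S₀ ∪ s.T j ∪ (Finset.univ.image n).image (·.l)

/-- a stage at one level -/
structure Ls (j : ℕ) (n : ι → s.Kq j) (X Y : Pk (s.R j) GQ s.σ ι)
    (m : Matrix (Fin 2) (Fin Y.g) (s.R j)) (κ dg : Fin X.g → s.R j) : Prop where
  ad : s.Ad j n
  hX : Lu (s.γ j) (s.τ j) (s.Tn j n) s.c (fun _ : Empty => dec s.P₂) (ps (s.q j) (kp n)) X fun _ => 0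
  hY : Lu (s.γ' j) (s.τ j) (s.Tn j n) s.c (fun _ : Unit => dec s.P₂) (ps (s.q j) (kp n)) Y fun _ => m
  kr : X.Rm (s.γ j) (s.τ j) *ᵥ κ = 0
  ku : ∀ g, X.u g *ᵥ κ = s.K j (Finset.univ.image n) g
  dr : X.Rm (s.γ j) (s.τ j) *ᵥ dg = 0
  du : ∀ g, X.u g *ᵥ dg = ((s.γ j).ρ g - 1) *ᵥ (s.γ j).gp

/-- a sequence of stages -/
structure Lm where
  ι : Type
  [fι : Fintype ι]
  n : ∀ j, Option (ι → s.Kq j)
  X : Rs s.R s.σ ι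
  Y : Rs s.R s.σ ι
  m : ∀ j, Matrix (Fin 2) (Fin Y.g) (s.R j)
  κ : ∀ j, Fin X.g → s.R j
  dg : ∀ j, Fin X.g → s.R j
  cX : X.r + 2 * (Fintype.card s.σ + Fintype.card ι) + 2 = X.g
  cY : Y.r + 2 * (Fintype.card s.σ + Fintype.card ι) = Y.g
  un : ∀ᶠ j in U, ∃ k, n j = some k ∧ s.Ls j k (X.pk j) (Y.pk j) (m j) (κ j) (dg j)

attribute [instance] Lm.fι

/-- the local pairings -/
def B (w : ℕ → ℕ → GQ → ℕ) (y : s.σ) : Matrix F4 F4 O := lm s.ψ fun j =>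
  (w (s.N j) ((s.q j).l y) ((s.q j).t y) : s.R j) • Bt ((s.γ j).ρ ((s.q j).t y))
    ((s.γ' j).ρ ((s.q j).φ y)) ((s.γ' j).ρ ((s.q j).t y)) ((s.q j).l y)

variable {s}

/-- the limit stage -/
def Lm.sg (L : s.Lm) : Sg O (ℕ → GQ) s.σ :=
  { ι := L.ι, X := L.X.lim s.ψ, Y := L.Y.lim s.ψ, κ := fun i => s.ψ fun j => L.κ j i
    dg := fun i => s.ψ fun j => L.dg j i }

end Sq

/-- every sequence of families has a stage -/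
def LMX : Prop := ∀ (O : Type) [CommRing O] (s : Sq O) (ι : Type) [Fintype ι]
  (n : ∀ j, Option (ι → s.Kq j)), (∀ᶠ j in U, ∃ k, n j = some k ∧ s.Ad j k) →
  ∃ X Y m κ dg a b c, (⟨ι, n, X, Y, m, κ, dg, a, b, c⟩ : s.Lm).n = n

def LOK : Prop := ∃ w, ∀ (O : Type) [CommRing O] (s : Sq O) (L : s.Lm),
  L.sg.Ok s.G s.G' s.τ s.H (fun _ => s.c) (Jm O) (s.B w)

def LEX : Prop := ∀ (O : Type) [CommRing O] (s : Sq O) (L : s.Lm), ∀ h ∈ s.H,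
  ∃ L' : s.Lm, Nonempty (L.sg.Ext s.G s.G' s.τ L'.sg (s.τ * h))

/-- the algebra of the limit -/
def LCB : Prop := ∀ w (O : Type) [CommRing O] (s : Sq O), s.H.Normal ∧
  (s.G.ρ s.τ)ᵀ * Jm O * s.G'.ρ s.τ = Jm O ∧ ∀ y, ∃ (Cb : Matrix F4 (Fin 2) O)
    (D : Matrix (Fin 2) F4 O) (Z : M2 O), (D * Cb).det ∈ O⁰ ∧ s.G.N y * Cb = 0 ∧
      Cbᵀ * s.B w y = Z * s.G'.N y

/-- the patched system of a sequence -/
def Sq.sy {O : Type} [CommRing O] (s : Sq O) (h2 : LOK) (h3 : LEX) (h4 : LCB) (L : s.Lm)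
    (e : IsEmpty L.ι) : SyQ O :=
  { G := ℕ → GQ, σ := s.σ, γ := s.G, γ' := s.G', H := s.H, τ := s.τ, c := fun _ => s.c, J := Jm O
    B := s.B h2.choose, P := s.P, nH := (h4 h2.choose O s).1, g1 := s.g1.g1, g2 := s.g1.g2
    uJ := ⟨0, by simp [Jm]⟩, τJ := (h4 h2.choose O s).2.1, P0 := s.g2.P0, PN := s.g2.PN
    N0 := s.g2.N0, cb := (h4 h2.choose O s).2.2, 𝒮 := range Sq.Lm.sg
    ok := by rintro _ ⟨L, rfl⟩; exact h2.choose_spec O s L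
    ext := by
      rintro _ ⟨L, rfl⟩ h m
      obtain ⟨L', k⟩ := h3 O s L h m
      exact ⟨_, ⟨L', rfl⟩, k⟩
    o := L.sg, mem := ⟨L, rfl⟩, emp := e }

/-! ### the data of the export -/

/-- the representation, a quadratic twist, the bad primes, the local factors -/
structure Bs where
  r : GQ →* M2 ℤ_[2]
  ε : GQ →* ℤ_[2]
  S : Finset ℕ
  σ : Finset ℕ
  pl : Pl
  c : GQ
  gp : Fin 2 → ℤ_[2]
  E : ℕ → Polynomial ℤ_[2]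
  lc : ∀ n, IsOpen {g | (r g).map (PadicInt.toZModPow n) = 1}
  det : ∀ g, (r g).det = cz g
  two : 2 ∈ S
  pr : ∀ p ∈ S, p.Prime
  unr : ∀ l P i, Ov l P → l ∉ S → Inert P i → r i = 1 ∧ ε i = 1
  sq : ∀ g, ε g ^ 2 = 1
  cc : IsConj c
  εc : ε c = 1
  fix : r c *ᵥ gp = gp
  cj : ∃ w, 1 + r c = vecMulVec gp w
  spn : ∀ B, ∃ e : ℕ, (2 : ℤ_[2]) ^ e • B ∈ span ℤ_[2] (range r)
  big : ∀ k : ℕ, ∃ u ∈ Dr.Ha, (r u).det = 1 ∧ 4 ^ k ∣ 2 - (r u).trace ∧ (r u).trace ≠ 2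
  sub : ∀ p ∈ σ, p ∈ S ∧ p ≠ 2
  uni : ∀ p ∈ σ, ∀ g, Inert (pl.P p) g → (ε g • r g - 1) ^ 2 = 0
  add : ∀ p ∈ S, p ≠ 2 → p ∉ σ → ∃ g, Inert (pl.P p) g ∧ (ε g • r g - 1).det ≠ 0
  e0 : ∀ p ∈ σ, (E p).map PadicInt.toZMod ≠ 0
  eul : ∀ p ∈ σ, ∃ e : ℕ, 2 ^ e * E p ∈ Ideal.span (range fun D : Matrix F4 (Fin 2) (Polynomial ℤ_[2]) =>
    (Nt ((Polynomial.X : Polynomial ℤ_[2]) • (ε (pl.σ p) • r (pl.σ p)).map Polynomial.C)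
      ((ε (pl.τ p) • r (pl.τ p)).map Polynomial.C) p * D).det)

/-- the reduction -/
def Bs.ρ (b : Bs) (N : ℕ) : GQ →* M2 (Zn N) :=
  (PadicInt.toZModPow N).mapMatrix.toMonoidHom.comp b.r

/-- the tower, the second prime -/
structure Tw (b : Bs) where
  m : ℕ
  c : ℕ → ℕ
  q : ℕ → ℕ
  e : ∀ j, GQ → ZMod (2 ^ (2 * j + 4))
  e' : ∀ j, GQ → ZMod (2 ^ (2 * j + 4))
  N : ℕ → ℕ
  ι : ∀ j, Zn (N j) →+* Rj (j + 1)
  Ψ : ∀ j, GQ →* Rj (j + 1)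
  le : ∀ j, j + 1 ≤ N j
  tq : ∀ j, Tq b.S (2 * j + 4) (c j) (e j)
  crd : ∀ j, (c j).primeFactors.card ≤ m
  gq : ∀ j, ∀ l ∈ (c j).primeFactors, ¬ 2 ^ m ∣ (b.ε (b.pl.σ l) • b.r (b.pl.σ l) - 1).det
  tq' : ∀ j, Tq ∅ (2 * j + 4) (q j) (e' j)
  pq : ∀ j, (q j).Prime ∧ q j ∉ b.S ∧ ¬ q j ∣ c j
  spl : ∀ j, ∀ g ∈ dec (b.pl.P (q j)), (b.r g).map PadicInt.toZMod = 1
  hΨ : ∀ j g, Ψ j g = cj _ (b.ε g) * mj _ (1 + X) ^ (e j g).val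

namespace Tw

variable {b : Bs} (t : Tw b)

/-- the new bad primes -/
def T (j : ℕ) : Finset ℕ := (t.c j * t.q j).primeFactors

/-- the action at level `j` -/
def a (j : ℕ) : GQ →* M2 (Rj (j + 1)) := am (b.ρ (t.N j)) (t.ι j) (t.Ψ j)

/-- the product of the local factors -/
def E : La := ∏ p ∈ b.σ, (b.E p).eval₂ C
  (Sy.succ.ur fun j => mj (j + 1) (1 + X) ^ (t.e j (b.pl.σ p)).val)

/-- Euler systems at all levels -/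
structure Es where
  S : ℕ → Finset ℕ
  a : ℕ → ℤ
  Ad : ℕ → ℕ → Prop
  z : ∀ j, Fm (t.N j)
  M : ℕ → ℕ
  gr : ∀ j, Gr (b.ρ (t.N j)) (S j) a (Ad j)
  eu : ∀ j, Eu (b.ρ (t.N j)) (S j) a (Ad j) (z j)
  ad : ∀ j, Ad j (M j)
  dv : ∀ j, t.c j * t.q j ∣ M j
  cd : ∀ j, Cd (M j) b.ε
  pf : ∀ j, (M j).primeFactors ⊆ b.S ∪ t.T j

variable {t}

/-- the class at level `j` -/
def Es.cl (x : t.Es) (j : ℕ) : GQ → Fin 2 → Rj (j + 1) := x.z j (x.M j) _ (t.ι j) (t.Ψ j)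

/-- the perturbed sequence reduces to the tower modulo `(s, 2 ^ k, X ^ k)` -/
structure Cp (x : t.Es) (k : ℕ) {a a' : ℤ_[2]} (s : Sq (Rq a a')) : Prop where
  hT : ∀ j, s.S₀ ∪ s.T j = b.S ∪ t.T j
  hc : s.c = b.c
  hP : mj k (∏ y, s.P y).re = mj k t.E
  red : ∃ f : ∀ j, s.R j → Rj k, (∀ y : ∀ j, s.R j, ∀ᶠ j in U, f j (y j) = mj k (s.ψ y).re) ∧
    ∀ᶠ j in U, ∃ F : s.R j →+* Rj k, ⇑F = f j ∧ ∀ p : Rj (j + 1) →+* Rj k,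
      (∀ y, p (mj _ y) = mj _ y) → (∀ g, ((s.γ j).ρ g).map F = (t.a j g).map p) ∧
      (∀ i, F ((s.γ j).gp i) = cj k (b.gp i)) ∧
      Ch ⊤ (fun g => (t.a j g).map p) (fun g => F ∘ s.K j ∅ g) fun g => p ∘ (2 • x.cl j g)

end Tw

/-! ### the perturbed tower -/

/-- the finite levels of the coefficient ring -/
structure Rn (w : ℤ_[2]) where
  R : ℕ → Type
  [cR : ∀ j, CommRing (R j)]
  [lR : ∀ j, IsLocalRing (R j)]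
  [fR : ∀ j, Finite (R j)]
  ψ : (∀ j, R j) →+* Rq (-w) (-w)
  i : ∀ j, Rq (-w) (-w) →+* R j
  π : ∀ j, R j →+* F2
  ae : Ae ψ
  sur : ∀ j, Function.Surjective (i j)
  ker : ∀ j y, i j y = 0 ↔ y.re ∈ Im (j + 1) ∧ y.im ∈ Im (j + 1)
  lim : ∀ y : ℕ → Rq (-w) (-w),
    ψ (fun j => i j (y j)) = ⟨ul fun j => (y j).re, ul fun j => (y j).im⟩
  res : ∀ j y, π j (i j y) = rs y.re

attribute [instance] Rn.cR Rn.lR Rn.fR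

/-- constants -/
def kq (w : ℤ_[2]) : ℤ_[2] →+* Rq (-w) (-w) := (algebraMap La _).comp C

/-- `x (1 + X) ^ n (1 + s) ^ n'` -/
def ch (w x : ℤ_[2]) (n n' : ℕ) : Rq (-w) (-w) :=
  kq w x * algebraMap La _ (1 + X) ^ n * (1 + QuadraticAlgebra.omega) ^ n'

/-- the perturbation -/
structure Pe {b : Bs} (t : Tw b) (k : ℕ) where
  w : ℤ_[2]
  n : Rn w
  f : ∀ j, Zn (t.N j) →+* n.R j
  u : GQ
  M : ℕ
  P₂ : Ideal (𝓞 Qb)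
  g₀ : GQ
  d : ℕ
  en : ℕ → Fin d → ℕ
  τ : ℕ → GQ
  Ψ : ∀ j, GQ →* n.R j
  Ψ' : ∀ j, GQ →* n.R j
  km : t.m + 1 < k
  hw : w = 2 - (b.r u).trace
  w0 : w ≠ 0
  wk : 4 ^ k ∣ w
  du : (b.r u).det = 1
  Mk : 2 ^ k ∣ M
  ov : Ov 2 P₂
  ine : Inert P₂ g₀
  ne : (b.ε g₀ • b.r g₀ - (cz g₀ : ℤ_[2]) ^ M • 1).det ≠ 0
  hen : ∀ᶠ j in U, Function.Injective (en j) ∧ ∀ l, l ∈ (t.c j).primeFactors ↔ ∃ i, en j i = l
  hτ : ∀ j, b.r (τ j) = b.r u ∧ b.ε (τ j) = 1 ∧ t.e j (τ j) = 0 ∧ t.e' j (τ j) = 1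
  hΨ : ∀ j g, Ψ j g = n.i j (ch w (b.ε g * (cz g : ℤ_[2]) ^ M) (t.e j g).val (t.e' j g).val)
  inv : ∀ j g, Ψ j g * Ψ' j g = 1

namespace Pe

variable {b : Bs} {t : Tw b} {k : ℕ} (p : Pe t k)

/-- the tame places -/
def q (j : ℕ) : Ps (b.σ ⊕ Fin p.d) :=
  ⟨Sum.elim Subtype.val (p.en j), fun y => b.pl.P (Sum.elim Subtype.val (p.en j) y),
    fun y => b.pl.σ (Sum.elim Subtype.val (p.en j) y),
    fun y => b.pl.τ (Sum.elim Subtype.val (p.en j) y)⟩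

/-- one side -/
def gl (j : ℕ) (Φ : GQ →* p.n.R j) : Gl (p.n.R j) GQ (b.σ ⊕ Fin p.d) :=
  ⟨am (b.ρ (t.N j)) (p.f j) Φ, fun i => p.n.i j (kq p.w (b.gp i)), fun y =>
    Nt (aa (b.ρ (t.N j)) (p.f j) Φ ((p.q j).φ y)) (aa (b.ρ (t.N j)) (p.f j) Φ ((p.q j).t y))
      ((p.q j).l y)⟩

/-- the frame -/
def fr : Fr (Rq (-p.w) (-p.w)) :=
  { R := p.n.R, ψ := p.n.ψ, ae := p.n.ae, π := p.n.π, N := t.N, f := p.f
    ρ := fun j => b.ρ (t.N j)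
    Ψ := p.Ψ, σ := b.σ ⊕ Fin p.d, γ := fun j => p.gl j (p.Ψ j), γ' := fun j => p.gl j (p.Ψ' j)
    q := p.q, S₀ := b.S, T := t.T, c := b.c, τ := p.τ, P₂ := p.P₂ }

/-- the local factors -/
def P : b.σ ⊕ Fin p.d → Rq (-p.w) (-p.w) := Sum.elim (fun y => (b.E y).eval₂ (kq p.w)
  (p.n.ψ fun j => p.n.i j (ch p.w ((cz (b.pl.σ y) : ℤ_[2]) ^ p.M) (t.e j (b.pl.σ y)).val
    (t.e' j (b.pl.σ y)).val))) fun _ => 1

end Pe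

def RNG : Prop := ∀ w : ℤ_[2], 2 ∣ w → Nonempty (Rn w)

def PERT : Prop := ∀ (b : Bs) (t : Tw b) (_ : t.Es) (k : ℕ), t.m + 1 < k → Nonempty (Pe t k)

def GL0 : Prop := ∀ (b : Bs) (t : Tw b) (_ : t.Es) (k : ℕ) (p : Pe t k), p.fr.Gs

def GL1 : Prop := ∀ (b : Bs) (t : Tw b) (_ : t.Es) (k : ℕ) (p : Pe t k), p.fr.G1

def GL2 : Prop := ∀ (b : Bs) (t : Tw b) (_ : t.Es) (k : ℕ) (p : Pe t k), p.fr.G2 p.P

def VAN : Prop := ∀ (b : Bs) (t : Tw b) (_ : t.Es) (k : ℕ) (p : Pe t k), p.fr.G3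

/-- the classes and the reduction -/
def GLK : Prop := ∀ (b : Bs) (t : Tw b) (x : t.Es) (k : ℕ) (p : Pe t k) a₀ a₁ a₂ a₃,
  ∃ K a, Tw.Cp x k ⟨p.fr, a₀, a₁, p.P, a₂, a₃, x.S, fun j => x.M j * 2 ^ t.N j, K, a⟩

/-- the perturbed sequences exist -/
def SQX : Prop := ∀ (b : Bs) (t : Tw b) (x : t.Es) (k : ℕ), t.m + 1 < k → ∃ w : ℤ_[2],
  4 ^ k ∣ w ∧ ∃ s : Sq (Rq (-w) (-w)), Tw.Cp x k s

theorem sqx (h : PERT) (h0 : GL0) (h1 : GL1) (h2 : GL2) (h3 : VAN) (h4 : GLK) : SQX := by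
  intro b t x k hk
  obtain ⟨p⟩ := h b t x k hk
  obtain ⟨K, a, c⟩ := h4 b t x k p (h0 b t x k p) (h1 b t x k p) (h2 b t x k p) (h3 b t x k p)
  exact ⟨p.w, p.wk, _, c⟩

/-- `(Q, u)` presents the framed cocycles; the columns of `V` are `d gp` and the class `2 z` -/
structure Pz {b : Bs} {t : Tw b} (x : t.Es) (j : ℕ) {r : ℕ}
    (Q : Matrix (Fin r) (Fin (r + 2)) (Rj (j + 1)))
    (u : GQ → Matrix (Fin 2) (Fin (r + 2)) (Rj (j + 1)))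
    (V : Matrix (Fin (r + 2)) (Fin 2) (Rj (j + 1))) : Prop where
  bij : ∀ (M : Type) [AddCommGroup M] [Module (Rj (j + 1)) M],
    BijOn (fun (v : Fin (r + 2) → M) g => ac (u g) v) {v | ac Q v = 0}
      (Zq M (b.S ∪ t.T j) (t.a j) b.c)
  ker : Q * V = 0
  dg : ∀ g, u g *ᵥ Vᵀ 0 = (t.a j g - 1) *ᵥ (cj _ ∘ b.gp)
  cl : Ch ⊤ (t.a j) (fun g => u g *ᵥ Vᵀ 1) (2 • x.cl j)

/-- **the export** -/
def PATQ : Prop := ∀ (b : Bs) (t : Tw b) (x : t.Es) (r : ℕ)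
  (Q : ∀ j, Matrix (Fin r) (Fin (r + 2)) (Rj (j + 1)))
  (u : ∀ j, GQ → Matrix (Fin 2) (Fin (r + 2)) (Rj (j + 1)))
  (V : ∀ j, Matrix (Fin (r + 2)) (Fin 2) (Rj (j + 1))),
  (∀ᶠ j in U, Pz x j (Q j) (u j) (V j)) → ∀ C : Matrix (Fin 2) (Fin (r + 2)) La,
  map PadicInt.toZMod (Ba.st finSumFinEquiv.symm (Sy.succ.um Q) C).det ≠ 0 →
  (Ba.st finSumFinEquiv.symm (Sy.succ.um Q) C).det ∣ t.E * (C * Sy.succ.um V).det

/-- the comparison -/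
def CMP : Prop := KQ → LMX → LOK → LEX → LCB → SQX → PATQ

end Vale.Agent.P014T.Pp
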