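import Vale.Agent.P014T.Pp.Recq
import Vale.Agent.P014T.Pq.Ext
import Vale.Agent.P014T.Pp.St

/-! # P014T, block PATQ: reciprocity for the universal classes as an identity of matrices -/

set_option linter.all false

open NumberField Matrix Submodule Set Sum
open scoped Classical

noncomputable section

namespace Vale.Agent.P014T.Pp

open Vale.Agent.P022 Vale.Agent.P022K Vale.Agent.P022K.G2
open Vale.Agent.P027M.S (Inert)
open Vale.Agent.P022D.W (dec)
open Vale.Agent.P022E.GW (Ov Fb Gn)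
open Vale.Agent.P004F (Nt)
open Vale.Agent.P004F.Pr (ac mul_ac ac_zero one_ac ac_add add_ac ac_smul zero_ac)
open Vale.Agent.P004F.Ra (aH)
open Vale.Agent.P004F.Rc (Cy Co Tv Ur)
open Kq (M2 F4 Gl Pk)
open Pq (Ps Lu Gd Zq Tm)

variable {R : Type} [CommRing R]

namespace Is

/-- the matrix of the local pairing at a tame place -/
def BJ (J A' U U' : M2 R) (l : ℕ) : Matrix F4 F4 R :=
  fromBlocks 0 (J * A') (-((∑ j ∈ Finset.range l, U ^ j)ᵀ * J * U' ^ l))
    (-∑ i ∈ Finset.range l, (∑ j ∈ Finset.range i, U ^ j)ᵀ * J * U' ^ i)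

/-- the coboundaries -/
def Cb (A U : M2 R) : Matrix F4 (Fin 2) R := fromRows (A - 1) (U - 1)

/-- `J` is a pairing with values in the roots of unity -/
def Du (N : ℕ) (a a' : GQ → M2 R) (J : M2 R) : Prop :=
  ∀ g k, Cy N g k → (a g)ᵀ * J * a' g = (k : R) • J

section alg

variable {J A A' U U' : M2 R} {l : ℕ}

theorem n_cb (h : A * U = U ^ l * A) : Nt A U l * Cb A U = 0 := by
  rw [Nt, Cb, fromCols_mul_fromRows, sub_mul A, geom_sum_mul, mul_sub A, h]
  noncomm_ring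

theorem j_pow (h : Uᵀ * J * U' = J) (n : ℕ) : (U ^ n)ᵀ * J * U' ^ n = J := by
  induction n with
  | zero => simp
  | succ n ih =>
    rw [pow_succ', pow_succ', transpose_mul, ← Matrix.mul_assoc, Matrix.mul_assoc _ _ J,
      Matrix.mul_assoc _ _ U', h, ih]

/-- **the coboundaries are orthogonal to the cocycles** -/
theorem btl (h1 : Aᵀ * J * A' = (l : R) • J) (h2 : Uᵀ * J * U' = J) :
    (Cb A U)ᵀ * BJ J A' U U' l = -J * Nt A' U' l := by
  have e : ∀ n, (U - 1)ᵀ * ((∑ j ∈ Finset.range n, U ^ j)ᵀ * J * U' ^ n) = J - J * U' ^ n :=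
    fun n => by
      rw [← Matrix.mul_assoc, ← Matrix.mul_assoc, ← transpose_mul, geom_sum_mul, transpose_sub,
        transpose_one, sub_mul, sub_mul, j_pow h2, one_mul]
  rw [Cb, BJ, Nt, transpose_fromRows, fromCols_mul_fromBlocks, mul_fromCols, Matrix.mul_zero,
    zero_add, mul_neg, mul_neg, e, Finset.mul_sum, Finset.sum_congr rfl fun n _ => e n,
    Finset.sum_sub_distrib, Finset.sum_const, Finset.card_range, ← Finset.mul_sum, transpose_sub,
    transpose_one, sub_mul, ← Matrix.mul_assoc, h1, Nat.cast_smul_eq_nsmul]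
  refine congrArg₂ _ ?_ ?_ <;> noncomm_ring

theorem bt_kol (h : (l : R) = 1) (h' : ((∑ i ∈ Finset.range l, i : ℕ) : R) = 0) :
    BJ J A' 1 1 l = fromBlocks 0 (J * A') (-J) 0 := by
  simp only [BJ, one_pow, Finset.sum_const, Finset.card_range, transpose_smul, transpose_one, mul_one,
    smul_mul_assoc, one_mul, ← Finset.sum_smul]
  rw [← Nat.cast_smul_eq_nsmul R, ← Nat.cast_smul_eq_nsmul R, h, h', one_smul, zero_smul, neg_zero]

end alg

section

variable {M M' E : Type} [AddCommGroup M] [Module R M] [AddCommGroup M'] [Module R M']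
  [AddCommGroup E] [Module R E] (β : M →ₗ[R] M' →ₗ[R] E) {s s' t : Type} [Fintype s] [Fintype s']
  [Fintype t]

/-- the pairing with matrix `J` -/
def bj (u : s → M) (v : s' → M') : Matrix s s' R →ₗ[R] E where
  toFun J := ∑ i, ∑ j, J i j • β (u i) (v j)
  map_add' J J' := by simp only [Matrix.add_apply, add_smul, Finset.sum_add_distrib]
  map_smul' r J := by
    simp only [Matrix.smul_apply, smul_eq_mul, mul_smul, Finset.smul_sum, RingHom.id_apply]

theorem bj_eq (u : s → M) (v : s' → M') (J : Matrix s s' R) :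
    bj β u v J = ∑ i, ∑ j, J i j • β (u i) (v j) := rfl

theorem bj_r (u : s → M) (v : t → M') (J : Matrix s s' R) (C : Matrix s' t R) :
    bj β u (ac C v) J = bj β u v (J * C) := by
  simp only [bj_eq, ac, map_sum, map_smul, Finset.smul_sum, mul_apply, Finset.sum_smul, mul_smul]
  exact Finset.sum_congr rfl fun i _ => Finset.sum_comm

theorem bj_t (u : s → M) (v : s' → M') (J : Matrix s s' R) : bj β.flip v u Jᵀ = bj β u v J :=
  Finset.sum_comm

theorem bj_l (u : t → M) (v : s' → M') (J : Matrix s s' R) (C : Matrix s t R) :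
    bj β (ac C u) v J = bj β u v (Cᵀ * J) := by
  rw [← bj_t, bj_r, ← bj_t, transpose_mul, transpose_transpose]; rfl

/-- the same as a biadditive map -/
def bH (J : Matrix s s' R) : (s → M) →+ (s' → M') →+ E :=
  AddMonoidHom.mk' (fun u => AddMonoidHom.mk' (fun v => bj β u v J) fun v v' => by
    simp only [bj_eq, Pi.add_apply, map_add, smul_add, Finset.sum_add_distrib])
    fun u u' => AddMonoidHom.ext fun v => by
      simp only [bj_eq, Pi.add_apply, map_add, smul_add, Finset.sum_add_distrib, AddMonoidHom.mk'_apply,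
        AddMonoidHom.add_apply, LinearMap.add_apply]

theorem bj_bl (u u' : Fin 2 → M) (v v' : Fin 2 → M') (A B C D : M2 R) :
    bj β (Sum.elim u u') (Sum.elim v v') (fromBlocks A B C D) =
      bj β u v A + bj β u' v C + (bj β u v' B + bj β u' v' D) := by
  simp only [bj_eq, Fintype.sum_sum_type, Finset.sum_add_distrib]; rfl

theorem co_pow {a : GQ →* M2 R} {x : GQ → Fin 2 → M} (h : ∀ g g', x (g * g') = x g + ac (a g) (x g'))
    (τ : GQ) (n : ℕ) : x (τ ^ n) = ac (∑ j ∈ Finset.range n, a τ ^ j) (x τ) := by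
  induction n with
  | zero =>
    have := h 1 1
    rw [map_one, one_ac, mul_one, left_eq_add] at this
    rw [pow_zero, this, Finset.sum_range_zero, zero_ac]
  | succ n ih => rw [pow_succ, h, ih, Finset.sum_range_succ, add_ac, map_pow]

theorem df_bt {a a' : GQ →* M2 R} {x : GQ → Fin 2 → M} (y : GQ → Fin 2 → M')
    (h : ∀ g g', x (g * g') = x g + ac (a g) (x g')) (J : M2 R) (l : ℕ) (φ τ : GQ) :
    Df l φ τ (fun g g' => bH β J (x g) (aH (a' g) (y g'))) =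
      bj β (Sum.elim (x φ) (x τ)) (Sum.elim (y φ) (y τ)) (BJ J (a' φ) (a τ) (a' τ) l) := by
  have e : ∀ n g, bH β J (x (τ ^ n)) (aH (a' (τ ^ n)) (y g)) =
      bj β (x τ) (y g) ((∑ j ∈ Finset.range n, a τ ^ j)ᵀ * J * a' τ ^ n) := fun n g => by
    rw [co_pow h, map_pow a', ← bj_r, ← bj_l]; rfl
  rw [Df, BJ, bj_bl, map_zero, zero_add, map_neg, map_neg, map_sum, e,
    Finset.sum_congr rfl fun n _ => e n τ, ← bj_r β _ _ J, ← add_assoc, neg_add_eq_sub,
    ← sub_eq_add_neg]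
  rfl

theorem co_of {T : Finset ℕ} {a : GQ →* M2 R} {c : GQ} {x : GQ → Fin 2 → M} (G : Gd ⊤ T a)
    (h : x ∈ Zq M T a c) : Co ⊤ (fun g => aH (a g)) x where
  mul g _ g' _ v := (congrArg (ac · v) (map_mul a g g')).trans (mul_ac _ _ _)
  co g _ g' _ := h.1 g g'
  lc := by
    obtain ⟨W, o, w⟩ := G.lc
    obtain ⟨W', o', w'⟩ := h.2.1
    exact ⟨W ⊓ W', o.inter o', fun g t m => ⟨P004F.Ra.aH_one (w g t m.1), w' g m.2⟩⟩

theorem zq_smul {T : Finset ℕ} {a : GQ → M2 R} {c : GQ} {x : GQ → Fin 2 → M}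
    (h : x ∈ Zq M T a c) (η : R) : (fun g => η • x g) ∈ Zq M T a c :=
  have z : ∀ {g}, x g = 0 → η • x g = 0 := fun e => by rw [e, smul_zero]
  ⟨fun g g' => by beta_reduce; rw [h.1, smul_add, ac_smul],
    h.2.1.imp fun _ e => ⟨e.1, fun g m => z (e.2 g m)⟩, fun g m => z (h.2.2.1 g m), z h.2.2.2⟩

theorem bj_s (η : R) (u : s → M) (v : s' → M') (J : Matrix s s' R) :
    bj β (η • u) v J = η • bj β u v J := by
  simp only [bj_eq, Pi.smul_apply, map_smul, LinearMap.smul_apply, Finset.smul_sum, smul_comm η]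

theorem tv_of {a : GQ →* M2 R} {x : GQ → Fin 2 → M} {D : Subgroup GQ} {m : Fin 2 → M}
    (h : ∀ g ∈ D, x g = ac (a g - 1) m) : Tv D (fun g => aH (a g)) x :=
  ⟨m, fun g hg => eq_sub_of_add_eq (by
    have := add_ac (a g - 1) 1 m
    rw [sub_add_cancel, one_ac, ← h g hg] at this
    exact this.symm)⟩

variable {I I' ρ ρ' : Type} [Fintype I] [Fintype I'] [Fintype ρ] [Fintype ρ']
  (Q : Matrix ρ I R) (Q' : Matrix ρ' I' R)

/-- the matrices which vanish on the tensor product of the cokernels -/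
def Vt : Submodule R (Matrix I I' R) where
  carrier := {m | ∃ (Z : Matrix ρ I' R) (Z' : Matrix I ρ' R), m = Qᵀ * Z + Z' * Q'}
  add_mem' := by
    rintro _ _ ⟨a, b, rfl⟩ ⟨c, d, rfl⟩
    exact ⟨a + c, b + d, by rw [Matrix.mul_add, Matrix.add_mul]; abel⟩
  zero_mem' := ⟨0, 0, by simp⟩
  smul_mem' := by
    rintro r _ ⟨a, b, rfl⟩
    exact ⟨r • a, r • b, by rw [Matrix.mul_smul, Matrix.smul_mul, smul_add]⟩

theorem ex_b : ∃ β : ((I → R) ⧸ span R (range Q)) →ₗ[R] ((I' → R) ⧸ span R (range Q')) →ₗ[R]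
    (Matrix I I' R ⧸ Vt Q Q'), ∀ (s s' : Type) [Fintype s] [Fintype s'] (U : Matrix s I R)
      (U' : Matrix s' I' R) J, bj β (fun i => Submodule.mkQ _ (U i)) (fun i => Submodule.mkQ _ (U' i)) J =
        (Vt Q Q').mkQ (Uᵀ * J * U') := by
  let b : (I → R) →ₗ[R] (I' → R) →ₗ[R] (Matrix I I' R ⧸ Vt Q Q') :=
    LinearMap.mk₂ R (fun u v => (Vt Q Q').mkQ (vecMulVec u v))
      (fun _ _ _ => by rw [add_vecMulVec, map_add]) (fun _ _ _ => by rw [smul_vecMulVec, map_smul])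
      (fun _ _ _ => by rw [vecMulVec_add, map_add]) fun _ _ _ => by rw [vecMulVec_smul, map_smul]
  refine ⟨b.liftQ₂ _ _ (span_le.2 (range_subset_iff.2 fun k => LinearMap.ext fun v =>
    (Quotient.mk_eq_zero _).2 ⟨of (Pi.single k v), 0, ?_⟩)) (span_le.2 (range_subset_iff.2 fun k =>
      LinearMap.ext fun v => (Quotient.mk_eq_zero _).2 ⟨0, (of (Pi.single k v))ᵀ, ?_⟩)),
    fun s s' _ _ U U' J => ?_⟩
  · ext i j
    simp [vecMulVec_apply, Matrix.mul_apply, Pi.single_apply, ite_apply]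
  · ext i j
    simp [vecMulVec_apply, Matrix.mul_apply, Pi.single_apply, ite_apply]
  · show ∑ i, ∑ j, J i j • (Vt Q Q').mkQ (vecMulVec (U i) (U' j)) = _
    simp only [← map_smul, ← map_sum]
    refine congrArg _ (Matrix.ext fun a b => ?_)
    simp only [Matrix.sum_apply, Matrix.smul_apply, vecMulVec_apply, mul_apply, transpose_apply,
      smul_eq_mul, Finset.sum_mul]
    exact Finset.sum_comm.trans (Finset.sum_congr rfl fun j _ => Finset.sum_congr rfl fun i _ => by ring)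

end

variable {σ ι β β' : Type} [Fintype σ] [Fintype ι] {γ γ' : Gl R GQ σ} {τ c : GQ} {T : Finset ℕ}
  {D : β → Subgroup GQ} {D' : β' → Subgroup GQ} {q : Ps (σ ⊕ ι)} {p p' : Pk R GQ σ ι}
  {m : β → Matrix (Fin 2) (Fin p.g) R} {m' : β' → Matrix (Fin 2) (Fin p'.g) R} {J : M2 R} {N : ℕ}
  {a a' : GQ →* M2 R} {l : ℕ} {P : Ideal (𝓞 Qb)} {φ t : GQ}

theorem Du.fb (d : Du N a a' J) (h : Tm a l P φ t) : (a φ)ᵀ * J * a' φ = (l : R) • J :=
  d _ _ (P004F.Rc.cy_iff.2 (P004F.Rc.cy_fb h.ov h.ne h.fb N))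

theorem Du.gn (d : Du N a a' J) (h : Tm a l P φ t) : (a t)ᵀ * J * a' t = J :=
  (d _ 1 (P004F.Rc.cy_iff.2 (by
    rw [P004S.Aq.cy_in h.ov h.ne h.gn.1, Nat.cast_one, sub_self, mul_zero]
    exact zero_mem _))).trans (by rw [Nat.cast_one, one_smul])

/-- **BTL** at a tame place -/
theorem Du.btl (d : Du N a a' J) (h : Tm a l P φ t) :
    (Cb (a φ) (a t))ᵀ * BJ J (a' φ) (a t) (a' t) l = -J * Nt (a' φ) (a' t) l :=
  Is.btl (d.fb h) (d.gn h)

/-- the tame relation -/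
theorem rel (G : Gd ⊤ T a) (h : Tm a l P φ t) : a φ * a t = a t ^ l * a φ := by
  obtain ⟨W, o, w⟩ := G.lc
  obtain ⟨V, hV, le⟩ := ex_lv' o
  have := hV.nrm
  obtain ⟨k, _, _, χ, -, -, h1⟩ := CH.Loc.chi_data V hV.opn h.ov
  obtain ⟨n, e⟩ := h1 φ h.fb t h.gn.1
  obtain ⟨r, e'⟩ := h.ord _ (mul_mem (P022D.W.conj_inP (P022D.W.phi_mem h.ov.1 h.ov.2.1 h.fb) h.gn.1)
    (inv_mem (pow_mem h.gn.1 l)))
  have := (pow_eq_one_iff_of_coprime (((Nat.coprime_primes h.ov.1 Nat.prime_two).2 h.ne).pow n r)).1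
    ⟨(map_pow a _ _).symm.trans (w _ trivial (le e)), e'⟩
  rw [← map_pow, ← map_mul, ← map_mul, show φ * t = φ * t * φ⁻¹ * (t ^ l)⁻¹ * (t ^ l * φ) by group,
    map_mul, this, one_mul]

theorem ec_eq {g : GQ} {k : ℕ} (h : Cy N g k) : ec N g = k := by
  obtain ⟨ζ, z⟩ := P004S.Aq.ex_prim N
  have := (isOfFinOrder_iff_pow_eq_one.2 ⟨_, by positivity, z.pow_eq_one⟩).pow_eq_pow_iff_modEq.1
    ((P004S.Aq.cz_spec g z.pow_eq_one).symm.trans (h ζ z.pow_eq_one))
  rw [← z.eq_orderOf, ← ZMod.natCast_eq_natCast_iff, ZMod.natCast_zmod_val] at this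
  exact this

theorem sum_zero (h0 : (2 : R) ^ N = 0) (h : l % 2 ^ (N + 2) = 1) :
    ((∑ i ∈ Finset.range l, i : ℕ) : R) = 0 := by
  have e := Finset.sum_range_id_mul_two l
  obtain ⟨k, hk⟩ : ∃ k, l = 2 ^ (N + 2) * k + 1 := ⟨_, (h ▸ Nat.div_add_mod l _).symm⟩
  rw [show l * (l - 1) = 2 ^ N * (l * k * 2) * 2 by
    rw [hk, Nat.add_sub_cancel]; ring] at e
  rw [Nat.eq_of_mul_eq_mul_right two_pos e, Nat.cast_mul, Nat.cast_pow, Nat.cast_ofNat, h0, zero_mul]

/-- reciprocity for all bilinear maps -/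
theorem core (N : ℕ) : ∃ w : ℕ → GQ → ℕ, (∀ l P τ, Ov l P → l ≠ 2 → Gn l P τ → Odd (w l τ)) ∧
    ∀ (R M M' E κ : Type) [CommRing R] [AddCommGroup M] [Module R M] [AddCommGroup M'] [Module R M']
      [AddCommGroup E] [Module R E] [Fintype κ] (b : M →ₗ[R] M' →ₗ[R] E) (a a' : GQ →* M2 R)
      (J : M2 R) (T : Finset ℕ) (c : GQ) (q : Ps κ) x y, (2 : R) ^ N = 0 → Du N a a' J → IsConj c →
      Gd ⊤ T a → Gd ⊤ T a' → (∀ i, Tm a (q.l i) (q.P i) (q.φ i) (q.t i)) →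
      Function.Injective q.l → x ∈ Zq M T a c → y ∈ Zq M' T a' c →
      (∀ l, l ∈ T ∨ l = 2 → (∀ i, q.l i ≠ l) → ∃ Q, Ov l Q ∧
        ((∃ m, ∀ g ∈ dec Q, x g = ac (a g - 1) m) ∨
        ∃ m, ∀ g ∈ dec Q, y g = ac (a' g - 1) m)) →
      ∑ i, w (q.l i) (q.t i) • bj b (Sum.elim (x (q.φ i)) (x (q.t i)))
        (Sum.elim (y (q.φ i)) (y (q.t i))) (BJ J (a' (q.φ i)) (a (q.t i)) (a' (q.t i)) (q.l i)) = 0 := by
  obtain ⟨w, hw, H⟩ := recq N
  refine ⟨w, hw, fun R M M' E κ _ _ _ _ _ _ _ _ b a a' J T c q x y h0 d hc G G' o inj X Y vn => ?_⟩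
  have k := H _ _ _ (bH b J) _ _ _ _ (Finset.univ.image q.l) (Function.extend q.l q.P 0)
    (Function.extend q.l q.φ 1) (Function.extend q.l q.t 1) c (P004F.Ra.two_smul_zero h0)
    (co_of G X) (co_of G' Y) (fun g k e x y => by
      show bj b (ac _ x) (ac _ y) J = k • bj b x y J
      rw [bj_l, bj_r, d g k e, map_smul, Nat.cast_smul_eq_nsmul])
    hc (.inl X.2.2.2) (fun l hl => by
      obtain ⟨x, -, rfl⟩ := Finset.mem_image.1 hl
      simp only [inj.extend_apply]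
      have := o x
      exact ⟨this.ov, this.ne, this.fb, this.gn, fun i m => (this.ord i m).imp fun n e =>
        P004F.Ra.aH_one ((map_pow _ _ _).trans e)⟩)
    (fun l hl n => by
      by_cases t : l ∈ T ∨ l = 2
      · obtain ⟨Q, oq, ⟨_, e⟩ | ⟨_, e⟩⟩ := vn l t fun x e =>
          n (Finset.mem_image.2 ⟨x, Finset.mem_univ _, e⟩)
        exacts [⟨Q, oq, .inl (tv_of e)⟩, ⟨Q, oq, .inr (.inl (tv_of e))⟩]
      · obtain ⟨Q, oq⟩ := GW.Pl.ex_ov hl
        have u : ∀ g ∈ P022.H443.inP Q, g ∈ In T := fun g hg => ⟨l, fun m => t (.inl m), Q, oq, hg⟩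
        exact ⟨Q, oq, .inr (.inr ⟨fun e => t (.inr e), fun g hg =>
          ⟨P004F.Ra.aH_one (G.unr g trivial (u g hg)), X.2.2.1 g (u g hg)⟩, fun g hg =>
          ⟨P004F.Ra.aH_one (G'.unr g trivial (u g hg)), Y.2.2.1 g (u g hg)⟩⟩)⟩)
  rw [Finset.sum_image fun x _ y _ e => inj e] at k
  simpa only [inj.extend_apply, df_bt b _ X.1] using k

theorem kol {M M' E : Type} [AddCommGroup M] [Module R M] [AddCommGroup M'] [Module R M']
    [AddCommGroup E] [Module R E] (b : M →ₗ[R] M' →ₗ[R] E) (F S : Fin 2 → M) (F' S' : Fin 2 → M')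
    {A : M2 R} (h : ac A S' = S') (η : R) (n : ℕ) :
    n • bj b (Sum.elim (η • F) (η • S)) (Sum.elim F' S') (fromBlocks 0 (J * A) (-J) 0) =
      (η * n) • bj b F S' J + (-(η * n)) • bj b S F' J := by
  rw [bj_bl, map_zero, map_zero, zero_add, add_zero, ← bj_r, h, bj_s, bj_s, map_neg,
    ← Nat.cast_smul_eq_nsmul R]
  module

theorem mk_eq {I s : Type} {L : Submodule R (I → R)} {A B : s → I → R} (e : ∀ i, A i - B i ∈ L) :
    (fun i => L.mkQ (B i)) = fun i => L.mkQ (A i) :=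
  funext fun i => ((Submodule.Quotient.eq _).2 (e i)).symm

theorem fix (x : ι) : ac (γ.ρ τ) (fun i => (p.Rl γ τ).mkQ (p.S x i)) =
    fun i => (p.Rl γ τ).mkQ (p.S x i) :=
  (funext (P004F.Pa.ac_mk _ _ _)).trans (mk_eq fun i => by
    have : ((γ.ρ τ - 1) * p.S x : Matrix _ _ R) i ∈ p.Rl γ τ := subset_span ⟨inr (inr x, i), rfl⟩
    rw [Matrix.sub_mul, Matrix.one_mul] at this
    exact (neg_sub _ _).subst (motive := (· ∈ _)) (neg_mem this))

theorem el (h : Lu γ τ T c D q p m) (y : σ) :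
    Sum.elim (fun i => (p.Rl γ τ).mkQ (p.u (q.φ (inl y)) i))
      (fun i => (p.Rl γ τ).mkQ (p.u (q.t (inl y)) i)) = fun i => (p.Rl γ τ).mkQ (p.l y i) :=
  Eq.trans (funext fun i => i.rec (fun _ => rfl) fun _ => rfl) (mk_eq (h.hl y))

end Is

open Is

/-- **BTL** -/
theorem btl : BTL := fun _ _ _ _ _ _ _ _ _ G h h1 h2 => ⟨n_cb (rel G h), Is.btl h1 h2⟩

/-- **ISL** -/
theorem isl : ISL := fun N => by
  obtain ⟨w, hw, H⟩ := core N
  refine ⟨w, hw, fun R _ f σ ι _ _ γ γ' τ c T P q p p' m' η G G' hc o2 o o' kl d h h' vn => ?_⟩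
  have h0 : (2 : R) ^ N = 0 := by
    rw [← map_ofNat f, ← map_pow, ← map_zero f]
    exact congrArg f (by exact_mod_cast ZMod.natCast_self (2 ^ N))
  obtain ⟨b, hb⟩ := ex_b (p.Rm γ τ) (p'.Rm γ' τ)
  obtain ⟨X, -⟩ := h.un le_rfl
  obtain ⟨Y, Y'⟩ := h'.un le_rfl
  have k := H _ _ _ _ _ b _ _ (Jm R) T c q _ _ h0 (fun g k e => by rw [d, ec_eq e, map_natCast])
    hc G G' o.tm o.inj (zq_smul X η) Y fun l t n => by
      by_cases e : l = 2
      · exact ⟨P, e ▸ o2, .inr ⟨_, Y' ()⟩⟩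
      · exact (vn l (t.resolve_right e) e n).imp fun Q e => ⟨e.1, .inl (e.2 _ _ _ _ X)⟩
  rw [Fintype.sum_sum_type, add_comm] at k
  dsimp only at k
  refine (Quotient.mk_eq_zero (Vt (p.Rm γ τ) (p'.Rm γ' τ))).1 (Eq.trans ?_ k)
  rw [← mkQ_apply, map_add, map_sum, map_smul, map_sum, Finset.smul_sum]
  refine congrArg₂ (· + ·) (Finset.sum_congr rfl fun x _ => ?_) (Finset.sum_congr rfl fun y _ => ?_)
  · rw [o.kt x _ (o.tm _).gn.1, o'.kt x _ (o.tm _).gn.1, bt_kol (o.kl x) (sum_zero h0 (kl x)),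
      mk_eq (h.hF x), mk_eq (h.hS x), mk_eq (h'.hF x), mk_eq (h'.hS x), o'.kφ, map_add, map_smul,
      map_smul, ← hb, ← hb]
    exact (kol b _ _ _ _ (fix x) η _).symm
  · rw [← hb, map_smul, smul_comm η, Nat.cast_smul_eq_nsmul, ← bj_s]
    refine congrArg₂ (fun u v => _ • bj b u v _)
      ((congrArg (η • ·) (el h y).symm).trans (funext ?_)) (el h' y).symm
    rintro (i | i) <;> rfl

end Vale.Agent.P014T.Pp
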