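import Vale.Agent.P014T.Pp.St
import Vale.Agent.P014T.Pp.Ex
import Vale.Agent.P014T.Pg.Bas

/-! # P014T, block PATQ: the rows `LMX` and `LEX` -/

set_option linter.all false

open NumberField Matrix Filter Submodule Set Sum
open scoped Classical

noncomputable section

namespace Vale.Agent.P014T.Pp

open Vale.Agent.P022 (Qb GQ IsConj)
open Vale.Agent.P027M.S (Inert)
open Vale.Agent.P022D.W (dec)
open Vale.Agent.P022E.GW (Ov Fb Gn)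
open Vale.Agent.P022K.G2 (In In_anti)
open Vale.Agent.P004F.Pat (U Ae lm U_ch U_fin lm_mul lm_sub lm_one)
open Pq (Zq Gd Ps Tm Lu)
open Dr (Hm Zn aa am Kp Ks Inj)
open Kq (M2 F4 Un Gl Pk Sg)
open Ex Lv

namespace Lx

theorem two_zero {R : Type} [CommRing R] {N : ℕ} (f : Zn N →+* R) : (2 : R) ^ N = 0 := by
  have := congrArg f (ZMod.natCast_self (2 ^ N))
  rwa [map_natCast, map_zero, Nat.cast_pow, Nat.cast_ofNat] at this

theorem cast_one {R : Type} [CommRing R] {N l : ℕ} (f : Zn N →+* R) (h : l % 2 ^ (N + 2) = 1) :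
    (l : R) = 1 := by
  rw [← Nat.div_add_mod l (2 ^ (N + 2)), h]
  push_cast
  rw [pow_add, two_zero f, zero_mul, zero_mul, zero_add]

theorem gd_mono {R : Type} [CommRing R] {T T' : Finset ℕ} {a : GQ → M2 R} (G : Gd ⊤ T a) (h : T ⊆ T')
    (p : ∀ l ∈ T', l.Prime) : Gd ⊤ T' a :=
  ⟨G.opn, G.nrm, p, G.one, G.mul, G.lc, fun g m k => G.unr g m (In_anti h k)⟩

theorem adj_neg {R : Type} [CommRing R] (A : M2 R) : -(1 - A).adjugate = (A - 1).adjugate := by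
  simp [adjugate_fin_two]

variable {O : Type} [CommRing O] {s : Sq O} {ι : Type} [Fintype ι] {j : ℕ} {n : ι → s.Kq j}

theorem mem_Tn {x : ℕ} : x ∈ s.Tn j n ↔ x ∈ s.S₀ ∪ s.T j ∨ ∃ i, (n i).l = x := by
  simp only [Sq.Tn, Finset.mem_union (s := s.S₀ ∪ s.T j), Finset.mem_image, Finset.mem_univ, true_and,
    exists_exists_eq_and]

theorem inj_im (h : Function.Injective fun i => (n i).l) : Inj (Finset.univ.image n) := by
  intro x hx y hy a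
  obtain ⟨i, -, rfl⟩ := Finset.mem_image.1 hx
  obtain ⟨i', -, rfl⟩ := Finset.mem_image.1 hy
  rw [h a]

theorem gd_Tn {a : GQ → M2 (s.R j)} (G : Gd ⊤ (s.S₀ ∪ s.T j) a) : Gd ⊤ (s.Tn j n) a :=
  gd_mono G Finset.subset_union_left fun l m => (mem_Tn.1 m).elim (G.pr l) fun ⟨i, e⟩ => e ▸ (n i).ov.1

/-- the places of a stage are good -/
theorem ps_ok (A : s.Ad j n) (h2 : 2 ∈ s.S₀) (V : s.Lv j) {γ : Gl (s.R j) GQ s.σ}
    (G : Gd ⊤ (s.S₀ ∪ s.T j) γ.ρ)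
    (tm : ∀ y, Tm γ.ρ ((s.q j).l y) ((s.q j).P y) ((s.q j).φ y) ((s.q j).t y))
    (hN : ∀ y, γ.N y = P004F.Nt (γ.ρ ((s.q j).φ y)) (γ.ρ ((s.q j).t y)) ((s.q j).l y))
    (fr : ∀ i, γ.ρ (n i).φ = γ.ρ (s.τ j)) : (ps (s.q j) (kp n)).Ok γ (s.τ j) := by
  have u : ∀ i g, Inert (n i).P g → γ.ρ g = 1 := fun i g k =>
    G.unr g trivial ⟨_, A.out i, _, (n i).ov, k⟩
  refine ⟨?_, ?_, hN, fr, u, fun i => cast_one (s.f j) (n i).md⟩
  · rintro (y | i)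
    · exact tm y
    · exact ⟨(n i).ov, fun e => A.out i (Finset.mem_union_left _ ((show (n i).l = 2 from e) ▸ h2)),
        (n i).fb, (n i).gn, fun g k => ⟨0, by rw [pow_zero, pow_one]; exact u i g k⟩⟩
  · rintro (y | i) (y' | i') e
    · exact congrArg inl (V.inj e)
    · exact absurd ((show (s.q j).l y = (n i').l from e) ▸ V.mem y) (A.out i')
    · exact absurd ((show (n i).l = (s.q j).l y' from e).symm ▸ V.mem y') (A.out i)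
    · exact congrArg inr (A.inj e)

theorem ok1 (A : s.Ad j n) (V : s.Lv j) : (ps (s.q j) (kp n)).Ok (s.γ j) (s.τ j) :=
  ps_ok A s.gs.two V V.gd V.tm V.hN A.fr

theorem ok2 (A : s.Ad j n) (V : s.Lv j) : (ps (s.q j) (kp n)).Ok (s.γ' j) (s.τ j) :=
  ps_ok A s.gs.two V V.gd' V.tm' V.hN' A.fr'

end Lx

open Lx

/-- **row LMX** -/
theorem lmx : LMX := by
  intro O _ s ι _ n hn
  obtain ⟨a₀, G₀, res⟩ := s.gs.res
  obtain ⟨C, hC⟩ := Pq.levq G₀ s.gs.two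
  obtain ⟨b, hb⟩ := s.gs.bd
  let B := C + 2 * (b + Fintype.card ι) + 6 * (Fintype.card s.σ + Fintype.card ι) + 1
  let P : ∀ j, (x : Fin 4 → Fin B) → Rw (s.R j) s.σ ι (x 0) (x 1) → Rw (s.R j) s.σ ι (x 2) (x 3) →
      Matrix (Fin 2) (Fin (x 2)) (s.R j) → (Fin (x 0) → s.R j) → (Fin (x 0) → s.R j) → Prop :=
    fun j x X Y m κ dg => (x 1 + 2 * (Fintype.card s.σ + Fintype.card ι) + 2 = x 0 ∧
      x 3 + 2 * (Fintype.card s.σ + Fintype.card ι) = x 2) ∧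
      ∃ k, n j = some k ∧ s.Ls j k X.pk Y.pk m κ dg
  have h1 : ∀ᶠ j in U, ∃ x, ∃ X Y m κ dg, P j x X Y m κ dg := by
    filter_upwards [hn, s.gs.lv, res, s.ks] with j ⟨k, e, A⟩ V ⟨r1, l, l1, l2, l3, l4⟩ ⟨_, _, ks⟩
    have eT : s.S₀ ∪ (s.T j ∪ (Finset.univ.image k).image (·.l)) = s.Tn j k :=
      (Finset.union_assoc ..).symm
    have mem : ∀ x, (ps (s.q j) (kp k)).l x ∈ s.Tn j k := by
      rintro (y | i)
      exacts [mem_Tn.2 (.inl (V.mem y)), mem_Tn.2 (.inr ⟨i, rfl⟩)]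
    have rel : ∃ l ∈ s.Tn j k, l ≠ 2 ∧ (∀ x, (ps (s.q j) (kp k)).l x ≠ l) ∧
        ∃ Q, Ov l Q ∧ ∀ g ∈ dec Q, a₀ g = 1 := ⟨l, mem_Tn.2 (.inl l1), l2, by
      rintro (y | i)
      exacts [l3 y, fun e => A.out i ((show (k i).l = l from e) ▸ l1)], l4⟩
    have cd : (s.T j ∪ (Finset.univ.image k).image (·.l)).card ≤ b + Fintype.card ι :=
      (Finset.card_union_le ..).trans (Nat.add_le_add (hb j)
        (Finset.card_image_le.trans Finset.card_image_le))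
    obtain ⟨X, m₀, x1, -, x2, x3⟩ := hC (s.R j) (s.π j) (s.N j) s.σ ι Empty (s.γ j) (s.τ j) s.c _ _
      (fun _ => s.P₂) (two_zero (s.f j)) (fun g => (r1 g).1) (eT ▸ gd_Tn V.gd) s.gs.cc (ok1 A V)
      (eT ▸ mem) (fun _ => s.gs.ov) (.inr (eT ▸ rel))
    obtain ⟨Y, m, y1, -, y2, y3⟩ := hC (s.R j) (s.π j) (s.N j) s.σ ι Unit (s.γ' j) (s.τ j) s.c _ _
      (fun _ => s.P₂) (two_zero (s.f j)) (fun g => (r1 g).2) (eT ▸ gd_Tn V.gd') s.gs.cc (ok2 A V)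
      (eT ▸ mem) (fun _ => s.gs.ov) (.inr (eT ▸ rel))
    rw [eT] at x1 y1
    obtain rfl : m₀ = fun _ => 0 := funext fun b => b.elim
    obtain ⟨κ, k1, k2⟩ := x1.pt0 (ks _ (inj_im A.inj))
    obtain ⟨dg, d1, d2⟩ := x1.dg (gd_Tn V.gd) V.fix
    simp only [Fintype.card_eq_zero, Fintype.card_unique] at x3 y3
    exact ⟨![⟨X.g, by omega⟩, ⟨X.r, by omega⟩, ⟨Y.g, by omega⟩, ⟨Y.r, by omega⟩],
      ⟨X.Q, X.l, X.F, X.S, X.u⟩, ⟨Y.Q, Y.l, Y.F, Y.S, Y.u⟩, m (), κ, dg,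
      ⟨by show X.r + _ + 2 = X.g; omega, by show Y.r + _ = Y.g; omega⟩, k, e, A, x1, y1, k1, k2, d1, d2⟩
  have : Nonempty (Fin B) := ⟨⟨0, Nat.succ_pos _⟩⟩
  obtain ⟨x', h2⟩ := U_ch (α := fun _ => Fin 4 → Fin B) h1
  obtain ⟨x, hx⟩ := U_fin x'
  have h3 : ∀ᶠ j in U, ∃ X Y m κ dg, P j x X Y m κ dg := (h2.and hx).mono fun j a => a.2 ▸ a.1
  obtain ⟨X, h3⟩ := U_ch h3
  obtain ⟨Y, h3⟩ := U_ch h3
  obtain ⟨m, h3⟩ := U_ch h3
  obtain ⟨κ, h3⟩ := U_ch h3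
  obtain ⟨dg, h3⟩ := U_ch h3
  obtain ⟨_, c, -⟩ := h3.exists
  exact ⟨⟨_, _, fun j => (X j).Q, fun j => (X j).l, fun j => (X j).F, fun j => (X j).S, fun j => (X j).u⟩,
    ⟨_, _, fun j => (Y j).Q, fun j => (Y j).l, fun j => (Y j).F, fun j => (Y j).S, fun j => (Y j).u⟩,
    m, κ, dg, c.1, c.2, h3.mono fun j a => a.2, rfl⟩

/-- **row LEX** -/
theorem lex : LEX := by
  intro O _ s L h hh
  let p : ∀ j, (Option L.ι → s.Kq j) → Prop := fun j k =>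
    L.n j = some (fun i => k (some i)) ∧ s.Ad j k ∧
      (∀ i, L.X.u j (((s.τ * h) j)⁻¹ * (k none).φ) i ∈ (L.X.pk j).Rl (s.γ j) (s.τ j)) ∧
      ∀ i, L.Y.u j (((s.τ * h) j)⁻¹ * (k none).φ) i ∈ (L.Y.pk j).Rl (s.γ' j) (s.τ j)
  have ex : ∀ᶠ j in U, ∃ k, p j k := by
    filter_upwards [L.un, s.gs.lv, s.ks, hh] with j ⟨k, e0, u⟩ V ⟨m0, _⟩ ⟨c1, c2, c3⟩
    obtain ⟨W, hW, w⟩ := u.hX.lc
    obtain ⟨W', hW', w'⟩ := u.hY.lc
    obtain ⟨Z, hZ, z⟩ := V.gd.lc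
    obtain ⟨Z', hZ', z'⟩ := V.gd'.lc
    have ea : ∀ g, aa (s.ρ j) (s.f j) (s.Ψ j) g = (s.γ j).ρ g := fun g => by rw [V.eq]; rfl
    have e1 : (s.γ j).ρ (s.τ j * h j) = (s.γ j).ρ (s.τ j) := by rw [map_mul, c1, mul_one]
    obtain ⟨k₀, n0, ⟨⟨m1, m2⟩, m3⟩, m4⟩ := Pg.kpx (s.ρ j) (s.S j) (s.f j) (s.Ψ j) m0 hZ
      (fun g a => (ea g).trans (z g trivial a)) (mul_mem V.hτ c3) (by rw [ea, e1]; exact V.det)
      (W := W ⊓ W' ⊓ Z') ((hW.inter hW').inter hZ') (s.Tn j k)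
    refine ⟨fun o => o.elim k₀ k, e0, ⟨?_, ?_, ?_, ?_⟩, w _ m1, w' _ m2⟩
    · rintro (_ | x) (_ | y) q
      · rfl
      · exact absurd (mem_Tn.2 (.inr ⟨y, Eq.symm q⟩)) n0
      · exact absurd (mem_Tn.2 (.inr ⟨x, q⟩)) n0
      · exact congrArg some (u.ad.inj q)
    · rintro (_ | x)
      exacts [fun a => n0 (mem_Tn.2 (.inl a)), u.ad.out x]
    · rintro (_ | x)
      exacts [(ea _).symm.trans (m4.trans ((ea _).trans e1)), u.ad.fr x]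
    · rintro (_ | x)
      · show (s.γ' j).ρ k₀.φ = _
        rw [← mul_inv_cancel_left (s.τ j * h j) k₀.φ, map_mul, z' _ trivial m3, map_mul, c2, mul_one,
          mul_one]
      · exact u.ad.fr' x
  let K := fun j => if a : ∃ k, p j k then some a.choose else none
  obtain ⟨X, Y, m, κ, dg, a, b, un, -⟩ := lmx O s (Option L.ι) K (ex.mono fun j a =>
    ⟨a.choose, dif_pos a, a.choose_spec.2.1⟩)
  let L' : s.Lm := ⟨Option L.ι, K, X, Y, m, κ, dg, a, b, un⟩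
  have lv1 : ∀ᶠ j in U, ∃ k, p j k ∧ s.Lv j ∧ Ks (s.K j) ∧
      s.Ls j (fun i => k (some i)) (L.X.pk j) (L.Y.pk j) (L.m j) (L.κ j) (L.dg j) ∧
      s.Ls j k (X.pk j) (Y.pk j) (m j) (κ j) (dg j) := by
    filter_upwards [L.un, un, ex, s.gs.lv, s.ks] with j ⟨k1, e1, u1⟩ ⟨k, e2, u2⟩ a V ks
    obtain rfl : a.choose = k := Option.some.inj ((dif_pos a).symm.trans e2)
    obtain rfl : k1 = _ := Option.some.inj (e1.symm.trans a.choose_spec.1)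
    exact ⟨_, a.choose_spec, V, ks.2.1, u1, u2⟩
  have hT : ∀ {j} (k : Option L.ι → s.Kq j) x,
      x ∈ s.Tn j k ↔ x = (k none).l ∨ x ∈ s.Tn j fun i => k (some i) := fun k x => by
    rw [mem_Tn, mem_Tn, Option.exists, eq_comm]
    tauto
  have nT : ∀ {j} {k : Option L.ι → s.Kq j}, s.Ad j k → (k none).l ∉ s.Tn j fun i => k (some i) :=
    fun A a => (mem_Tn.1 a).elim (A.out none) fun ⟨i, e⟩ => by cases A.inj e
  obtain ⟨EX⟩ := ext_pl (ψ := s.ψ) (Γ := s.G) (γ := s.γ) (τ := s.τ) (fun _ => rfl) rfl s.ae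
    (d := fun j => ⟨L.X.Q j, L.X.l j, L.X.F j, L.X.S j, L.X.u j⟩)
    (d' := fun j => ⟨X.Q j, X.l j, X.F j, X.S j, X.u j⟩) (Equiv.refl _) (s.τ * h)
    (lv1.mono fun j ⟨k, q, V, _, u, u'⟩ => exl' (two_zero (s.f j)) (Equiv.refl _) u.hX u'.hX
      (ok1 u'.ad V) (hT k) (nT u'.ad) (by rintro (_ | _) <;> rfl) (by rintro (_ | _) <;> rfl) q.2.2.1)
  obtain ⟨EY⟩ := ext_pl (ψ := s.ψ) (Γ := s.G') (γ := s.γ') (τ := s.τ) (fun _ => rfl) rfl s.ae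
    (d := fun j => ⟨L.Y.Q j, L.Y.l j, L.Y.F j, L.Y.S j, L.Y.u j⟩)
    (d' := fun j => ⟨Y.Q j, Y.l j, Y.F j, Y.S j, Y.u j⟩) (Equiv.refl _) (s.τ * h)
    (lv1.mono fun j ⟨k, q, V, _, u, u'⟩ => exl' (two_zero (s.f j)) (Equiv.refl _) u.hY u'.hY
      (ok2 u'.ad V) (hT k) (nT u'.ad) (by rintro (_ | _) <;> rfl) (by rintro (_ | _) <;> rfl) q.2.2.2)
  refine ⟨L', ⟨⟨Equiv.refl _, EX, EY, 1, ⟨0, by simp⟩, ?_⟩⟩⟩
  show lm s.ψ (fun j => X.S j none) *ᵥ lv s.ψ κ = (1 : O) •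
    ((lm s.ψ (fun j => (s.γ j).ρ (s.τ j)) - 1).adjugate *ᵥ
      (lm s.ψ (fun j => L.X.u j ((s.τ * h) j)) *ᵥ lv s.ψ L.κ))
  rw [one_smul, ← lm_one (ψ := s.ψ), ← lm_sub, ← lm_adj, ← lv_mv, ← lv_mv, ← lv_mv]
  refine lv_ae s.ae (lv1.mono fun j ⟨k, q, V, ks, u, u'⟩ => ?_)
  have im : Finset.univ.image k = insert (k none) (Finset.univ.image fun i => k (some i)) := by
    ext x
    simp only [Finset.mem_image, Finset.mem_univ, true_and, Finset.mem_insert, Option.exists, eq_comm]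
  have f := ks.fs (Finset.univ.image fun i => k (some i)) (k none) (fun a => by
    obtain ⟨i, -, e⟩ := Finset.mem_image.1 a
    cases u'.ad.inj (congrArg Kp.l e)) (im ▸ inj_im u'.ad.inj)
  have e1 : aa (s.ρ j) (s.f j) (s.Ψ j) (k none).φ = (s.γ j).ρ (s.τ j) := by
    rw [← u'.ad.fr none, V.eq]; rfl
  have e2 := Lu.val u.kr (A := L.X.u j (k none).φ) (B := L.X.u j ((s.τ * h) j)) fun i => by
    have := u.hX.tr (g := (s.τ * h) j) q.2.2.1 i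
    rwa [mul_inv_cancel_left] at this
  refine (u'.hX.vS u'.kr none).trans ((u'.ku _).trans ?_)
  rw [im]
  refine f.trans ?_
  rw [e1, ← neg_mulVec, adj_neg, ← u.ku, ← e2]

end Vale.Agent.P014T.Pp
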