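import Vale.Agent.P014T.Pp.St
import Vale.Agent.P014T.Pp.Rng
import Vale.Agent.P014T.Pg.Qd
import Vale.Agent.P014T.Mu.Add
import Vale.Agent.P004F.Pat.Vec

/-! # P014T, block PATQ, row PERT (helper7) -/

set_option linter.all false

open NumberField Matrix Filter PowerSeries

noncomputable section

namespace Vale.Agent.P014T.Pp

open Vale.Agent.P022 (Qb GQ)
open Vale.Agent.P027M.S (Inert)
open Vale.Agent.P022E.GW (Ov)
open Vale.Agent.P004F (La)
open Vale.Agent.P004F.Pat (U Im)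
open Vale.Agent.P004S.Aq (cz)
open Dr (Hm Ha Zn)
open Kq (Rq)
open Mu (Tq)

namespace Pt

variable {w : ℤ_[2]} (n : Rn w) (j : ℕ)

theorem al_zero {y : La} (h : y ∈ Im (j + 1)) : n.i j (algebraMap La _ y) = 0 :=
  (n.ker j _).2 ⟨h, zero_mem _⟩

theorem two_pow : (2 : n.R j) ^ (j + 1) = 0 := by
  simpa only [map_pow, map_ofNat] using al_zero n j (P004F.Pat.two_Im _)

theorem X_ord : n.i j (algebraMap La _ (1 + X)) ^ 2 ^ (2 * j + 4) = 1 := by
  rw [map_add, map_add, map_one, map_one]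
  exact Rg.pw_one (two_pow n j) (by
    simpa only [map_pow] using al_zero n j (P004F.Pat.X_Im _)) (by omega)

theorem om_sq : (QuadraticAlgebra.omega : Rq (-w) (-w)) * QuadraticAlgebra.omega =
    -kq w w - kq w w * QuadraticAlgebra.omega := by
  ext <;> simp [kq]

theorem om_ord (h : 2 ∣ w) : n.i j (1 + QuadraticAlgebra.omega) ^ 2 ^ (2 * j + 4) = 1 := by
  obtain ⟨v, e⟩ := h
  have k : n.i j QuadraticAlgebra.omega * n.i j QuadraticAlgebra.omega =
      2 * n.i j (-kq w v - kq w v * QuadraticAlgebra.omega) := by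
    rw [← map_mul, om_sq, show kq w w = kq w (2 * v) from congrArg _ e, map_mul (kq w), map_ofNat,
      ← map_ofNat (n.i j) 2, ← map_mul]
    congr 1; ring
  rw [map_add, map_one]
  generalize n.i j QuadraticAlgebra.omega = s at *
  have l : (Ideal.span {2, s} : Ideal (n.R j)) ^ 2 ≤ Ideal.span {2} := by
    rw [sq, Ideal.span_pair_mul_span_pair, Ideal.span_le]
    rintro _ (rfl | rfl | rfl | rfl) <;> refine Ideal.mem_span_singleton.2 ?_
    exacts [⟨_, rfl⟩, ⟨_, rfl⟩, ⟨_, mul_comm _ _⟩, ⟨_, k⟩]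
  have h := Rg.pw_mem (I := Ideal.span {2, s}) (Ideal.subset_span (by simp)) (x := 1 + s)
    (Ideal.subset_span (by simp)) (2 * j + 4)
  have := Ideal.pow_right_mono l (j + 1) (by
    rw [← pow_mul]; exact Ideal.pow_le_pow_right (by omega) h)
  rwa [Ideal.span_singleton_pow, two_pow, Ideal.mem_span_singleton, zero_dvd_iff, sub_eq_zero] at this

theorem ex_f {A : Type} [CommRing A] {k N : ℕ} (h : (2 : A) ^ k = 0) (le : k ≤ N) :
    Nonempty (Zn N →+* A) :=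
  have := ringChar.charP A
  ⟨ZMod.castHom (ringChar.dvd (by simpa using pow_eq_zero_of_le le h)) A⟩

theorem tq_Ha {S : Finset ℕ} {m c : ℕ} {e : GQ → ZMod (2 ^ m)} (t : Tq S m c e) {g : GQ} (h : g ∈ Ha) :
    e g = 0 := t.ker g fun y hy => Dr.Ha_le t.sq.ne_zero h y hy

theorem tq_one {S : Finset ℕ} {m c : ℕ} {e : GQ → ZMod (2 ^ m)} (t : Tq S m c e) : e 1 = 0 :=
  tq_Ha t (one_mem _)

open Polynomial in
theorem ex_M (A : GQ → Kq.M2 ℤ_[2]) {P : Ideal (𝓞 Qb)} (o : Ov 2 P) (k : ℕ) :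
    ∃ g M, Inert P g ∧ 2 ^ k ∣ M ∧ (A g - (cz g : ℤ_[2]) ^ M • 1).det ≠ 0 := by
  obtain ⟨g, h1, h2⟩ := Pg.ex_in o
  obtain ⟨_, ⟨m, rfl⟩, hm⟩ := (Set.infinite_range_of_injective (h2.comp (mul_right_injective₀
    (a := 2 ^ k) (by positivity)))).exists_notMem_finite
    (finite_setOf_isRoot (A g).charpoly_monic.ne_zero)
  refine ⟨g, 2 ^ k * m, h1, ⟨m, rfl⟩, fun e => hm ?_⟩
  simp [det_fin_two, trace_fin_two, charpoly_fin_two] at e ⊢
  linear_combination e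

end Pt

open Pt in
/-- **row PERT** -/
theorem pert (h : RNG) : PERT := fun b t x k hk => by
  obtain ⟨u, u1, u2, u3, u4⟩ := b.big k
  have w2 : 2 ∣ 2 - (b.r u).trace :=
    (show (2 : ℤ_[2]) ∣ 4 from ⟨2, by norm_num⟩).trans ((dvd_pow_self 4 (by omega)).trans u3)
  obtain ⟨n⟩ := h _ w2
  have f j := (ex_f (two_pow n j) (t.le j)).some
  obtain ⟨P, o⟩ := P004R.Mu.ex_pl Nat.prime_two
  obtain ⟨g, M, g1, g2, g3⟩ := ex_M (fun g => b.ε g • b.r g) o k
  obtain ⟨d, -, hd⟩ := P004F.Pat.U_bdd (fun j => (t.c j).primeFactors.card) (.of_forall t.crd)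
  obtain ⟨en, hen⟩ := P004F.Pat.U_ch (α := fun _ => Fin d → ℕ) (P := fun j en =>
      Function.Injective en ∧ ∀ l, l ∈ (t.c j).primeFactors ↔ ∃ i, en i = l)
    (hd.mono fun j e => ⟨(t.c j).primeFactors.orderEmbOfFin e, RelEmbedding.injective _, fun l => by
      rw [← Finset.mem_coe, ← Finset.range_orderEmbOfFin _ e]; rfl⟩)
  have ex j : ∃ τ, b.r τ = b.r u ∧ b.ε τ = 1 ∧ t.e j τ = 0 ∧ t.e' j τ = 1 := by
    obtain ⟨Q, a⟩ := P004R.Mu.ex_pl (t.pq j).1
    obtain ⟨s, s1, s2⟩ := (t.tq' j).ram _ Q a dvd_rfl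
    have k := b.unr _ Q s a (t.pq j).2.1 s1
    exact ⟨u * s, by rw [map_mul, k.1, mul_one],
      by rw [map_mul, k.2, x.cd j u (Dr.Ha_le ((x.gr j).pos _ (x.ad j)) u1), mul_one],
      by rw [(t.tq j).add, tq_Ha (t.tq j) u1, (t.tq j).ine a (t.pq j).2.2 s1, add_zero],
      by rw [(t.tq' j).add, tq_Ha (t.tq' j) u1, s2, zero_add]⟩
  choose τ hτ using ex
  let Ψ (j) : GQ →* n.R j := ((n.i j).comp (kq _)).toMonoidHom.comp
      (b.ε * ((Units.coeHom _).comp cz) ^ M) * Rg.ch (X_ord n j) (tq_one (t.tq j)) (t.tq j).add *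
    Rg.ch (om_ord n j w2) (tq_one (t.tq' j)) (t.tq' j).add
  exact ⟨⟨_, n, f, u, M, P, g, d, en, τ, Ψ, fun j =>
    { toFun := fun g => Ψ j g⁻¹, map_one' := by rw [inv_one, map_one]
      map_mul' := fun a b => by rw [_root_.mul_inv_rev, map_mul, mul_comm] }, hk, rfl,
    sub_ne_zero.2 u4.symm, u3, u2, g2, o, g1, g3, hen, hτ,
    fun j g => by simp only [ch, map_mul (n.i j), map_pow (n.i j)]; rfl,
    fun j g => (map_mul (Ψ j) _ _).symm.trans (by rw [mul_inv_cancel, map_one])⟩⟩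

end Vale.Agent.P014T.Pp
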