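import Vale.Agent.P004F.Va.Van

/-! # P014T, block PATQ: the local cohomology at an odd prime is killed by `det (a s - 1) ^ 3` -/

set_option linter.all false

open NumberField Matrix

noncomputable section

namespace Vale.Agent.P014T.Pp.Vn

open Vale.Agent.P022 Vale.Agent.P004K Vale.Agent.P004F
open Vale.Agent.P022D.W (dec inP_le_dec conj_inP)
open Vale.Agent.P022.H443 (inP)
open Vale.Agent.P022E.GW (Ov)
open Pr (ac ac_add ac_smul ac_zero)
open En (Wd wd_comm)
open Ra (ac_mul ac_one ac_sm)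
open Va (Co ac_s1 ac_sub add_ac det_kill wd_mul f2 det_cj)

variable {R M : Type} [CommRing R] [AddCommGroup M] [Module R M] {l : ℕ} {P : Ideal (𝓞 Qb)}
  {π : R →+* ZMod 2} {a : GQ →* M2 R} {x y : GQ → Fin 2 → M} {g s w : GQ}

/-- the local data -/
structure Dt (l : ℕ) (P : Ideal (𝓞 Qb)) (π : R →+* ZMod 2) (a : GQ →* M2 R) : Prop where
  ov : Ov l P
  l2 : l ≠ 2
  un : ∀ r, π r ≠ 0 → IsUnit r
  lc : ∃ U : Subgroup GQ, IsOpen (U : Set GQ) ∧ ∀ g ∈ U, g ∈ inP P → a g = 1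

/-- the reduction -/
def br (π : R →+* ZMod 2) (a : GQ →* M2 R) : GQ →* M2 (ZMod 2) :=
  (RingHom.mapMatrix π).toMonoidHom.comp a

variable (D : Dt l P π a)
include D

theorem Dt.cob (m : Fin 2 → M) : Co P a fun g => ac (a g - 1) m :=
  ⟨fun g b h c => by simp only [ac_s1, map_mul, ac_mul, ac_sub, sub_add_sub_cancel'],
    D.lc.imp fun _ u => ⟨u.1, fun g b c => by rw [ac_s1, u.2 g b c, ac_one, sub_self]⟩⟩

theorem Dt.odd (n : ℕ) : Odd (l ^ n) := (D.ov.1.odd_of_ne_two D.l2).pow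

/-- wild elements which act trivially modulo the maximal ideal -/
theorem Dt.kill (z : Co P a x) (hw : w ∈ inP P) (k : Wd l w) (t : br π a w = 1) : x w = 0 := by
  have d := inP_le_dec hw
  have p : ∀ n : ℕ, ∃ N : M2 R, π.mapMatrix N = n ∧ x (w ^ n) = ac N (x w) := fun n => by
    induction n with
    | zero =>
      have := z.coc 1 (one_mem _) 1 (one_mem _)
      rw [map_one, ac_one, mul_one, left_eq_add] at this
      exact ⟨0, by simp, by rw [pow_zero, this]; funext i; simp [ac]⟩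
    | succ n ih =>
      obtain ⟨N, e, h⟩ := ih
      refine ⟨N + a (w ^ n), ?_, by rw [pow_succ, z.coc _ (pow_mem d n) _ d, h, add_ac]⟩
      rw [map_add, e, Nat.cast_succ]
      exact congrArg _ ((map_pow (br π a) w n).trans (by rw [t, one_pow]))
  obtain ⟨U, o, u⟩ := z.lc
  obtain ⟨n, h⟩ := Va.Wd.pow k o
  obtain ⟨N, e, c⟩ := p (l ^ n)
  have := det_kill (c.symm.trans (u _ h (pow_mem hw _)))
  refine (D.un _ ?_).smul_eq_zero.1 this
  rw [RingHom.map_det, e, ← nsmul_one, ← Nat.cast_smul_eq_nsmul (ZMod 2), (D.odd n).natCast_zmod_two]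
  simp

theorem Dt.red (z : Co P a x) (hs : s ∈ inP P) (r : R) (h : ∀ y : GQ → Fin 2 → M, Co P a y →
    y s = 0 → ∀ g ∈ dec P, r • y (g * s * g⁻¹) = 0) {η : R}
    (hd : (a s - 1).det * r * (a s - 1).det ∣ η) :
    ∃ m, ∀ g ∈ dec P, η • x g = ac (a g - 1) m := by
  obtain ⟨t, ht⟩ := hd
  have z1 := (z.smul (a s - 1).det).sub (D.cob (ac (a s - 1).adjugate (x s)))
  have e1 : (a s - 1).det • x s - ac (a s - 1) (ac (a s - 1).adjugate (x s)) = 0 := by
    rw [← ac_mul, mul_adjugate, ac_sm, ac_one, sub_self]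
  refine ⟨(t * ((a s - 1).det * r)) • ac (a s - 1).adjugate (x s), fun g hg => ?_⟩
  have c := conj_inP hg hs
  have e := (z1.smul r).coc _ (inP_le_dec c) g hg
  rw [inv_mul_cancel_right, (z1.smul r).coc g hg s (inP_le_dec hs), e1, smul_zero, ac_zero,
    h _ z1 e1 g hg, add_zero, zero_add, eq_comm, ← sub_eq_zero, ← ac_s1] at e
  have k := congrArg (t • ·) (det_kill e)
  simp only [det_cj, smul_sub, smul_smul, smul_zero, sub_eq_zero] at k
  rw [ac_smul, ← k, ht]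
  congr 1
  ring

/-- **the local classes are killed by the cube of `det (a s - 1)`, `s` in the inertia group** -/
theorem Dt.core (z : Co P a x) (hs : s ∈ inP P) :
    ∃ m, ∀ g ∈ dec P, (a s - 1).det ^ 3 • x g = ac (a g - 1) m := by
  by_cases h : ∀ w ∈ inP P, Wd l w → br π a w = 1
  · refine D.red z hs (a s - 1).det (fun y k y0 g hg => ?_) (dvd_of_eq (by ring))
    have c := conj_inP hg hs
    generalize g * s * g⁻¹ = t at c
    have m := mul_mem (mul_mem hs c) (inv_mem (mul_mem c hs))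
    have wd := wd_comm D.ov hs c
    have e := k.coc _ (inP_le_dec m) _ (inP_le_dec (mul_mem c hs))
    have u := D.kill (D.cob (y t)) m wd (h _ m wd)
    rw [inv_mul_cancel_right, D.kill k m wd (h _ m wd), k.coc s (inP_le_dec hs) t (inP_le_dec c),
      k.coc t (inP_le_dec c) s (inP_le_dec hs), y0, ac_zero, zero_add, zero_add, add_zero,
      sub_eq_zero.1 ((ac_s1 _ _).symm.trans u), ← sub_eq_zero, ← ac_s1] at e
    exact det_kill e
  push Not at h
  obtain ⟨w, hw, wd, ne⟩ := h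
  obtain ⟨U, oU, hU⟩ := D.lc
  have p : ∀ t ∈ inP P, Wd l t → br π a t ≠ 1 → (br π a t).det ≠ 0 ∧ br π a t * br π a t ≠ 1 :=
    fun t ht k n => by
    obtain ⟨i, h0⟩ := Va.Wd.pow k oU
    obtain ⟨q, e⟩ := D.odd i
    have h : br π a (t ^ l ^ i) = 1 := by
      show π.mapMatrix (a _) = 1
      rw [hU _ h0 (pow_mem ht _), map_one]
    rw [map_pow, e, pow_succ] at h
    refine ⟨fun d => by simpa [d] using congrArg Matrix.det h, fun d => n ?_⟩
    rwa [pow_mul, sq, d, one_pow, one_mul] at h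
  obtain ⟨p1, p2⟩ := p w hw wd ne
  have u : IsUnit (a w - 1).det := D.un _ (by
    rw [RingHom.map_det, map_sub, map_one]; exact (f2 _ _ p1 p2 p1 p2).1)
  refine D.red z hw 1 (fun y k y0 g hg => ?_) ((u.mul isUnit_one).mul u).dvd
  have c := conj_inP hg hw
  have wc : Wd l (g * w * g⁻¹) := fun U n o => (wd U n o).conj g
  obtain ⟨q1, q2⟩ := p _ c wc fun e => ne (by
    rw [show w = g⁻¹ * (g * w * g⁻¹) * g by group, map_mul, map_mul, e, mul_one, ← map_mul,
      inv_mul_cancel, map_one])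
  generalize g * w * g⁻¹ = t at c wc q1 q2
  have fin : ∀ s ∈ inP P, Wd l s → y s = 0 → br π a t * br π a s = 1 → (1 : R) • y t = 0 :=
    fun s hs ws ys e => by
    have := D.kill k (mul_mem c hs) (wd_mul D.ov c hs wc ws) ((map_mul _ _ _).trans e)
    rw [k.coc t (inP_le_dec c) s (inP_le_dec hs), ys, ac_zero, add_zero] at this
    rw [this, smul_zero]
  exact (f2 _ _ p1 p2 q1 q2).2.elim (fin w hw wd y0) fun e => fin _ (mul_mem hw hw)
    (wd_mul D.ov hw hw wd wd) (by rw [k.coc w (inP_le_dec hw) w (inP_le_dec hw), y0, ac_zero,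
      add_zero]) (by rwa [map_mul])

omit D

theorem un_of [IsLocalRing R] (π : R →+* ZMod 2) (r : R) (h : π r ≠ 0) : IsUnit r := by
  by_contra k
  have m : RingHom.ker π = IsLocalRing.maximalIdeal R := IsLocalRing.eq_maximalIdeal
    (RingHom.ker_isMaximal_of_surjective π (ZMod.ringHom_surjective π))
  exact h (RingHom.mem_ker.1 (m ▸ (IsLocalRing.mem_maximalIdeal r).2 k))

/-- **global form**: any place `P` over `l`, `s` in the inertia group of some place over `l` -/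
theorem van [IsLocalRing R] (π : R →+* ZMod 2) (a : GQ →* M2 R) {P₀ : Ideal (𝓞 Qb)} (o₀ : Ov l P₀)
    (l2 : l ≠ 2) (lc : ∃ W : Subgroup GQ, IsOpen (W : Set GQ) ∧ ∀ w ∈ W, a w = 1)
    (hs : P027M.S.Inert P₀ s) (o : Ov l P) (coc : ∀ g h, x (g * h) = x g + ac (a g) (x h))
    (lx : ∃ W : Subgroup GQ, IsOpen (W : Set GQ) ∧ ∀ w ∈ W, x w = 0) :
    ∃ m, ∀ g ∈ dec P, (a s - 1).det ^ 3 • x g = ac (a g - 1) m := by
  obtain ⟨t, t1, -⟩ := P004S.ex_conj o o₀
  have D : Dt l P π a := ⟨o, l2, un_of π, lc.imp fun _ u => ⟨u.1, fun g b _ => u.2 g b⟩⟩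
  have := D.core (x := x) ⟨fun g _ h _ => coc g h, lx.imp fun _ u => ⟨u.1, fun g b _ => u.2 g b⟩⟩
    (s := t⁻¹ * s * t⁻¹⁻¹) (by rw [inv_inv]; exact t1 s hs)
  rwa [det_cj] at this

/-- a multiple of the cube -/
theorem van' [IsLocalRing R] (π : R →+* ZMod 2) (a : GQ →* M2 R) {P₀ : Ideal (𝓞 Qb)} (o₀ : Ov l P₀)
    (l2 : l ≠ 2) (lc : ∃ W : Subgroup GQ, IsOpen (W : Set GQ) ∧ ∀ w ∈ W, a w = 1)
    (hs : P027M.S.Inert P₀ s) {η : R} (hη : (a s - 1).det ^ 3 ∣ η) (o : Ov l P)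
    (coc : ∀ g h, x (g * h) = x g + ac (a g) (x h))
    (lx : ∃ W : Subgroup GQ, IsOpen (W : Set GQ) ∧ ∀ w ∈ W, x w = 0) :
    ∃ m, ∀ g ∈ dec P, η • x g = ac (a g - 1) m := by
  obtain ⟨m, h⟩ := van π a o₀ l2 lc hs o coc lx
  obtain ⟨t, rfl⟩ := hη
  exact ⟨t • m, fun g hg => by rw [mul_comm, mul_smul, h g hg, ac_smul]⟩

theorem det_sc {B : M2 R} {u : R} (h : B = (1 + u) • 1) : (B - 1).det = u ^ 2 := by
  rw [h, add_smul, one_smul, add_sub_cancel_left, det_smul, det_one, mul_one, Fintype.card_fin]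

theorem det_map (f : ℤ_[2] →+* R) {A : M2 ℤ_[2]} {v : ℕ} (h : (A - 1).det ∣ 2 ^ v) :
    (A.map f - 1).det ∣ 2 ^ v := by
  have := map_dvd f h
  rwa [RingHom.map_det, map_sub, map_one, map_pow, map_ofNat] at this

theorem ex_pow {d : ℤ_[2]} (h : d ≠ 0) : ∃ v : ℕ, d ∣ 2 ^ v :=
  (IsDiscreteValuationRing.associated_pow_irreducible h PadicInt.irreducible_p).imp fun _ k => k.dvd

end Vale.Agent.P014T.Pp.Vn
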