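import Vale.Agent.P014T.Pp.Cm1
import Vale.Agent.P014T.Pp.Isl
import Vale.Agent.P014T.Pp.Lmx
import Vale.Agent.P014T.Pp.Lcb
import Vale.Agent.P014T.Pp.Pert
import Vale.Agent.P014T.Pp.Gs
import Vale.Agent.P014T.Pp.Gl1
import Vale.Agent.P014T.Pp.Gl2
import Vale.Agent.P014T.Pp.Van
import Vale.Agent.P014T.Pp.Glk
import Vale.Agent.P014T.Kq.All

/-! # P014T, block PATQ: the export -/

namespace Vale.Agent.P014T.Pp

/-- **the divisibility in the tower** -/
theorem patq : PATQ :=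
  Cm.cmp Kq.kq lmx (lok isl) lex (lcb btl) (sqx (pert rng) gl0 gl1 gl2 (van gl0) glk)

end Vale.Agent.P014T.Pp
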