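import Vale.Agent.P014T.Pp.St
import Vale.Agent.P014T.Ba.Spq
import Vale.Agent.P014T.Ba.La
import Vale.Agent.P004F.Pa.Pk1

/-! # P014T, block PATQ: two presentations of the same functor -/

set_option linter.all false

open Matrix Submodule Set
open scoped Classical

noncomputable section

namespace Vale.Agent.P014T.Pp.Cm

open Vale.Agent.P004F.Pr (ac mul_ac ac_zero ac_map)
open Vale.Agent.P004F.Pa (up ac_up sum_up ac_mk mk_zero)
open Vale.Agent.P004F.Alg (Dt)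
open Ba (st pr_st)

variable {A G ι κ ι' κ' : Type} [CommRing A] [Fintype ι] [Fintype κ] [Fintype ι'] [Fintype κ']
  [DecidableEq ι] [DecidableEq κ] [DecidableEq ι'] [DecidableEq κ']
  {Z : ∀ (M : Type) [AddCommGroup M] [Module A M], Set (G → Fin 2 → M)}
  {Q : Matrix ι κ A} {u : G → Matrix (Fin 2) κ A} {Q' : Matrix ι' κ' A} {u' : G → Matrix (Fin 2) κ' A}

variable (Z Q u) in
/-- `(Q, u)` represents `Z` -/
def Rp : Prop := ∀ (M : Type) [AddCommGroup M] [Module A M],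
  BijOn (fun (v : κ → M) g => ac (u g) v) {v | ac Q v = 0} (Z M)

variable (Q u Q' u') in
/-- `B` is a transition matrix -/
def Tr (B : Matrix κ κ' A) : Prop := ∀ (M : Type) [AddCommGroup M] [Module A M] (v : κ' → M),
  ac Q' v = 0 → ac Q (ac B v) = 0 ∧ ∀ g, ac (u g) (ac B v) = ac (u' g) v

theorem ac_of {M : Type} [AddCommGroup M] [Module A M] {v : κ → M} (h : ac Q v = 0) {x y : κ → A}
    (e : (span A (range Q)).mkQ x = (span A (range Q)).mkQ y) : ∑ j, x j • v j = ∑ j, y j • v j :=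
  (LinearMap.sub_mem_ker_iff (f := Fintype.linearCombination A v)).1
    (span_le.2 (by rintro _ ⟨i, rfl⟩; exact congrFun h i) ((Submodule.Quotient.eq _).1 e))

theorem up_le {L : Submodule A (κ → A)} {s : Type} {E : Matrix s κ A} (h : span A (range E) ≤ L) :
    ac E (up L) = 0 :=
  funext fun i => (ac_up L _ i).trans ((mk_zero L).2 (h (subset_span (mem_range_self i))))

theorem Rp.tr (h : Rp Z Q u) (h' : Rp Z Q' u') : ∃ B, Tr Q u Q' u' B := by
  obtain ⟨y, y1, y2⟩ := (h _).surjOn ((h' _).mapsTo (up_le (L := span A (range Q')) le_rfl))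
  choose B hB using fun k => (span A (range Q')).mkQ_surjective (y k)
  obtain rfl : (fun k => (span A (range Q')).mkQ (B k)) = y := funext hB
  refine ⟨.of B, fun M _ _ v hv => ⟨funext fun i => ?_, fun g => funext fun i => ?_⟩⟩
  · rw [← mul_ac]
    refine (ac_of hv (y := 0) ?_).trans (by simp)
    exact (ac_mk _ Q (.of B) i).symm.trans ((congrFun y1 i).trans (map_zero _).symm)
  · rw [← mul_ac]
    exact ac_of hv ((ac_mk _ (u g) (.of B) i).symm.trans
      ((congrFun (congrFun y2 g) i).trans (ac_up _ _ i)))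

theorem Rp.inv (h : Rp Z Q u) {B B'} (t : Tr Q u Q' u' B) (t' : Tr Q' u' Q u B') {M : Type}
    [AddCommGroup M] [Module A M] {v : κ → M} (hv : ac Q v = 0) : ac B (ac B' v) = v :=
  (h M).injOn (t M _ (t' M v hv).1).1 hv
    (funext fun g => ((t M _ (t' M v hv).1).2 g).trans ((t' M v hv).2 g))

theorem dt_st (e : κ ≃ ι ⊕ Fin 2) {C : Matrix (Fin 2) κ A} {L : Submodule A (κ' → A)}
    {y : κ → (κ' → A) ⧸ L} {B : Matrix κ' κ A} (hy : ac B y = up L) (h : ac Q y = 0) (h' : ac C y = 0) :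
    Dt ((κ' → A) ⧸ L) (st e Q C).det := by
  refine ⟨κ, inferInstance, inferInstance, y, _, eq_top_iff.2 fun x _ => ?_, fun k => ?_, rfl⟩
  · obtain ⟨v, rfl⟩ := L.mkQ_surjective x
    rw [← sum_up, ← hy]
    exact sum_mem fun k _ => smul_mem _ _
      (sum_mem fun l _ => smul_mem _ _ (subset_span (mem_range_self l)))
  · obtain ⟨i | i, rfl⟩ := e.symm.surjective k
    · simpa [st, ac] using congrFun h i
    · simpa [st, ac] using congrFun h' i

/-- **the maximal minors agree up to units** -/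
theorem Rp.det (h : Rp Z Q u) (h' : Rp Z Q' u') (e : κ ≃ ι ⊕ Fin 2) (e' : κ' ≃ ι' ⊕ Fin 2) {B}
    (t : Tr Q u Q' u' B) (C : Matrix (Fin 2) κ A) :
    (st e Q C).det ∣ (st e' Q' (C * B)).det ∧ (st e' Q' (C * B)).det ∣ (st e Q C).det := by
  obtain ⟨B', t'⟩ := h'.tr h
  constructor
  · have k := up_le (E := Q) (L := span A (range Q) ⊔ span A (range C)) le_sup_left
    refine (pr_st e Q C).dvd (dt_st e' (h.inv t t' k) (t' _ _ k).1 ?_)
    rw [mul_ac, h.inv t t' k]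
    exact up_le le_sup_right
  · have k := up_le (E := Q') (L := span A (range Q') ⊔ span A (range (C * B))) le_sup_left
    refine (pr_st e' Q' (C * B)).dvd (dt_st e (h'.inv t' t k) (t _ _ k).1 ?_)
    rw [← mul_ac]
    exact up_le le_sup_right

/-- framed lifts of one class differ by a multiple of `d gp`, up to `2` -/
theorem Rp.two (h : Rp Z Q u) {a : G → Matrix (Fin 2) (Fin 2) A} {c : G} {p w m : Fin 2 → A}
    (hc : 1 + a c = vecMulVec p w) {d x y : κ → A} (hd : Q *ᵥ d = 0) (hx : Q *ᵥ x = 0)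
    (hy : Q *ᵥ y = 0) (ud : ∀ g, u g *ᵥ d = (a g - 1) *ᵥ p) (xc : u c *ᵥ x = 0) (yc : u c *ᵥ y = 0)
    (e : ∀ g, u g *ᵥ x - u g *ᵥ y = a g *ᵥ m - m) :
    (2 : A) • x = (2 : A) • y + (w ⬝ᵥ m) • d := by
  have m2 : (2 : A) • m = (w ⬝ᵥ m) • p := by
    have := e c
    rw [xc, yc, sub_self, eq_comm, sub_eq_zero] at this
    rw [two_smul, ← op_smul_eq_smul, ← vecMulVec_mulVec, ← hc, add_mulVec, one_mulVec, this]
  refine (h A).injOn (show Q *ᵥ _ = 0 by rw [mulVec_smul, hx, smul_zero])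
    (show Q *ᵥ _ = 0 by rw [mulVec_add, mulVec_smul, mulVec_smul, hy, hd, smul_zero, smul_zero, add_zero])
    (funext fun g => show u g *ᵥ _ = u g *ᵥ _ from ?_)
  rw [mulVec_add, mulVec_smul, mulVec_smul, mulVec_smul, ud, ← mulVec_smul (a g - 1), ← m2,
    mulVec_smul, sub_mulVec, one_mulVec, ← e, ← smul_add, add_sub_cancel]

theorem two_det (C : Matrix (Fin 2) κ A) {d x y : κ → A} {t : A}
    (h : (2 : A) • x = (2 : A) • y + t • d) : 2 * (C * Ba.cl d x).det = 2 * (C * Ba.cl d y).det := by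
  have k i := congrArg (C i ⬝ᵥ ·) h
  simp only [dotProduct_add, dotProduct_smul, smul_eq_mul] at k
  have a := Ba.det_cl (fun i => C i) d x
  have b := Ba.det_cl (fun i => C i) d y
  refine (congrArg _ a).trans (Eq.trans ?_ (congrArg _ b).symm)
  linear_combination (C 0 ⬝ᵥ d) * k 1 - (C 1 ⬝ᵥ d) * k 0

theorem cl_tr (V : Matrix κ (Fin 2) A) : Ba.cl (Vᵀ 0) (Vᵀ 1) = V := by
  ext k i; fin_cases i <;> rfl

theorem mul_cl {s : Type} (B : Matrix s κ A) (x y : κ → A) :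
    B * Ba.cl x y = Ba.cl (B *ᵥ x) (B *ᵥ y) := by
  ext k i; fin_cases i <;> rfl

/-- **the comparison at one level** -/
theorem core (h : Rp Z Q u) (h' : Rp Z Q' u') (e : κ ≃ ι ⊕ Fin 2) (e' : κ' ≃ ι' ⊕ Fin 2)
    {a : G → Matrix (Fin 2) (Fin 2) A} {c : G} {p w m : Fin 2 → A} (hc : 1 + a c = vecMulVec p w)
    (hZ : ∀ x ∈ Z A, x c = 0) {V : Matrix κ (Fin 2) A} (hV : Q * V = 0)
    (ud : ∀ g, u g *ᵥ Vᵀ 0 = (a g - 1) *ᵥ p) {d y : κ' → A} (hd : Q' *ᵥ d = 0) (hy : Q' *ᵥ y = 0)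
    (ud' : ∀ g, u' g *ᵥ d = (a g - 1) *ᵥ p) (ch : ∀ g, u g *ᵥ Vᵀ 1 - u' g *ᵥ y = a g *ᵥ m - m)
    (C : Matrix (Fin 2) κ A) : ∃ C' : Matrix (Fin 2) κ' A,
      (st e Q C).det ∣ (st e' Q' C').det ∧ (st e' Q' C').det ∣ (st e Q C).det ∧
      2 * (C * V).det = 2 * (C' * Ba.cl d y).det := by
  obtain ⟨B, t⟩ := h.tr h'
  have k i : Q *ᵥ Vᵀ i = 0 := funext fun x => congrFun (congrFun hV x) i
  have e0 : B *ᵥ d = Vᵀ 0 := (h A).injOn (t A d hd).1 (k 0)
    (funext fun g => ((t A d hd).2 g).trans ((ud' g).trans (ud g).symm))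
  refine ⟨C * B, (h.det h' e e' t C).1, (h.det h' e e' t C).2, ?_⟩
  rw [Matrix.mul_assoc, mul_cl B, e0, ← cl_tr V]
  exact two_det C (h.two hc (k 0) (k 1) (t A y hy).1 ud (hZ _ ((h A).mapsTo (k 1)))
    (hZ _ ((h A).mapsTo (t A y hy).1)) fun g => (congrArg (_ - ·) ((t A y hy).2 g)).trans (ch g))

/-- base change -/
theorem Rp.map {A' : Type} [CommRing A'] (f : A →+* A')
    {Z' : ∀ (M : Type) [AddCommGroup M] [Module A' M], Set (G → Fin 2 → M)} (h : Rp Z Q u)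
    (hZ : ∀ (M : Type) [AddCommGroup M] [Module A' M], Z' M = @Z M _ (Module.compHom M f)) :
    Rp Z' (Q.map f) fun g => (u g).map f := fun M _ _ => by
  rw [hZ]
  exact @h M _ (Module.compHom M f)

end Vale.Agent.P014T.Pp.Cm
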