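import Vale.Agent.P014T.Pp.Lmx

/-! # P014T, block PATQ: the row `LOK` -/

set_option linter.all false

open NumberField Matrix Filter Submodule Set Sum
open scoped Classical

noncomputable section

namespace Vale.Agent.P014T.Pp

open Vale.Agent.P022 (Qb GQ IsConj)
open Vale.Agent.P027M.S (Inert)
open Vale.Agent.P022D.W (dec)
open Vale.Agent.P022E.GW (Ov Fb Gn)
open Vale.Agent.P004F.Pat (U Ae lm U_ch U_fin lm_mul lm_sub lm_one lm_add lm_sum lm_smul lm_tr lm_det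
  vm_mem)
open Pq (Zq Gd Ps Tm Lu)
open Dr (Hm Zn aa am Kp Ks Inj)
open Kq (M2 F4 Un Gl Pk Sg)
open Ex Lv Lx

namespace Lo

theorem odd_unit {R : Type} [CommRing R] {N n : ℕ} (f : Zn N →+* R) (h : Odd n) : IsUnit (n : R) := by
  obtain ⟨m, rfl⟩ := h
  have : IsNilpotent (2 : R) := ⟨N, two_zero f⟩
  push_cast
  exact ((Commute.all _ _).isNilpotent_mul_right this).isUnit_add_one

theorem lm_Jm {R : ℕ → Type} [∀ j, CommRing (R j)] {O : Type} [CommRing O] (ψ : (∀ j, R j) →+* O) :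
    lm ψ (fun j => Jm (R j)) = Jm O := by
  ext a b
  fin_cases a <;> fin_cases b
  exacts [ψ.map_zero, ψ.map_one, (ψ.map_neg 1).trans (congrArg _ ψ.map_one), ψ.map_zero]

theorem sp3 {R I a b β : Type} [CommRing R] {A : a → I → R} {M : Matrix b I R}
    {B : Matrix (Fin 2) I R} {v : I → R} (h : v ∈ span R (range A) ⊔ (span R (range M) ⊔
      span R {v | ∃ (_ : β) (i : Fin 2), v = B i})) : 
    v ∈ span R (range (fromRows (.of A) (fromRows M B))) := by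
  rw [sp_rows, sp_rows]
  refine SetLike.le_def.1 (sup_le_sup_left (sup_le_sup_left (span_mono ?_) _) _) h
  rintro _ ⟨b, i, rfl⟩
  exact ⟨i, rfl⟩

variable {R : ℕ → Type} [∀ j, CommRing (R j)] [∀ j, IsLocalRing (R j)] {O : Type} [CommRing O]
  {ψ : (∀ j, R j) →+* O} (hψ : Ae ψ) {σ ι β : Type} [Fintype σ] [Fintype ι] [Fintype β]
  {γ : ∀ j, Gl (R j) GQ σ} {τ : ℕ → GQ} {c : GQ} {X : Rs R σ ι}
include hψ

theorem Rl_lim {v : ∀ j, Fin X.g → R j} (h : ∀ᶠ j in U, v j ∈ (X.pk j).Rl (γ j) (τ j)) :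
    lv ψ v ∈ (X.lim ψ).Rl (lg ψ γ) τ :=
  Rl_pl (Γ := lg ψ γ) (γ := γ) (fun _ => rfl) rfl hψ
    (d := fun j => ⟨X.Q j, X.l j, X.F j, X.S j, X.u j⟩) h

omit hψ in
theorem Rm_lim : (X.lim ψ).Rm (lg ψ γ) τ = lm ψ fun j => (X.pk j).Rm (γ j) (τ j) :=
  Rm_pl (Γ := lg ψ γ) (γ := γ) (fun _ => rfl) rfl fun j => ⟨X.Q j, X.l j, X.F j, X.S j, X.u j⟩

/-- one side -/
theorem ok {D : β → Subgroup GQ} {m : ∀ j, β → Matrix (Fin 2) (Fin X.g) (R j)} {H : Subgroup (ℕ → GQ)}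
    {d : ℕ} (cn : X.r + 2 * (Fintype.card σ + Fintype.card ι) + d ≤ X.g) {g : ℕ → GQ}
    (hg : ∀ j b, g j ∈ D b) {δ : ∀ j, R j} (hδ : ∀ j (b : β), ((γ j).ρ (g j) - 1).det ∣ δ j)
    (uδ : Un (ψ δ)) {t : ι → ℕ → GQ} (ht : ∀ x, t x ∈ H)
    (h : ∀ᶠ j in U, ∃ T q, Lu (γ j) (τ j) T c D q (X.pk j) (m j) ∧ ∀ x, q.t (inr x) = t x j) :
    (X.lim ψ).Ok (lg ψ γ) τ H (fun _ => c) d := by
  have us : ∀ (Z : Set (ℕ → GQ)) g, g ∈ Z → ∀ i, (X.lim ψ).u g i ∈ (X.lim ψ).Us (lg ψ γ) τ Z :=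
    fun Z g m i => mem_sup_left (subset_span ⟨g, m, i, rfl⟩)
  refine ⟨cn, fun g g' i => ?_, ?_, fun i => Rl_lim hψ (h.mono fun j ⟨_, _, u, _⟩ => u.fr i),
    fun x i => ?_⟩
  · have := Rl_lim hψ (h.mono fun j ⟨_, _, u, _⟩ => u.coc (g j) (g' j) i)
    rwa [← lm_row, lm_sub, lm_sub, lm_mul] at this
  · obtain ⟨f, h1⟩ := U_ch (h.mono fun j ⟨_, _, u, _⟩ => u.gen (hg j) (hδ j))
    obtain ⟨e', h1⟩ := U_ch h1
    obtain ⟨e, he⟩ := U_fin (α := Fin X.g → Fin 2) e'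
    obtain ⟨k, z, hz⟩ := uδ
    refine ⟨k, fun v => ?_⟩
    let B : ∀ j, Matrix (Fin X.g ⊕ (Fin X.r ⊕ (σ ⊕ ι) × Fin 2) ⊕ Fin 2) (Fin X.g) (R j) := fun j =>
      fromRows (.of fun x => X.u j (f j x) (e x)) (fromRows ((X.pk j).Rm (γ j) (τ j)) (X.u j (g j)))
    have h2 : ∀ᶠ j in U, ∀ v : Fin X.g → R j, δ j • v ∈ span (R j) (range (B j)) := by
      filter_upwards [h1, he] with j k1 k2 v
      have k3 := k1 v
      rw [k2] at k3
      exact sp3 (β := β) k3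
    have h3 : ∀ v : ∀ j, Fin X.g → R j, ψ δ • lv ψ v ∈ span O (range (lm ψ B)) := fun v => by
      rw [← lv_smul]
      exact lv_mem hψ (h2.mono fun j k => k (v j))
    have : ∀ a, ψ δ • (1 : Matrix _ _ O) a ∈ (X.lim ψ).Us (lg ψ γ) τ univ := fun a => by
      have := h3 fun j => (1 : Matrix (Fin X.g) (Fin X.g) (R j)) a
      rw [← lm_row, lm_one, P004F.Pat.lm_rows, P004F.Pat.lm_rows, sp_rows, sp_rows,
        ← Rm_lim] at this
      refine SetLike.le_def.1 (sup_le (span_le.2 ?_) (sup_le le_sup_right (span_le.2 ?_))) this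
      · rintro _ ⟨x, rfl⟩
        exact us univ (fun j => f j x) trivial (e x)
      · rintro _ ⟨i, rfl⟩
        exact us univ g trivial i
    have := smul_mem _ z (sum_mem (t := Finset.univ) fun a _ => smul_mem _ (v a) (this a))
    simp only [smul_comm (v _) (ψ δ)] at this
    rwa [← Finset.smul_sum, smul_smul, mul_comm, ← hz, ← vecMul_eq_sum, vecMul_one] at this
  · have := Rl_lim hψ (v := fun j => X.S j x i - X.u j (t x j) i)
      (h.mono fun j ⟨_, _, u, e⟩ => e x ▸ u.hS x i)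
    rw [lv_sub] at this
    exact (sub_add_cancel _ _).subst (motive := (· ∈ _)) (add_mem (mem_sup_right this) (us _ _ (ht x) i))

theorem kr {v : ∀ j, Fin X.g → R j} (h : ∀ᶠ j in U, (X.pk j).Rm (γ j) (τ j) *ᵥ v j = 0) :
    (X.lim ψ).Rm (lg ψ γ) τ *ᵥ lv ψ v = 0 := by
  rw [Rm_lim, ← lv_mv]
  exact (lv_ae hψ h).trans lv_zero

end Lo

open Lo

/-- **row LOK** -/
theorem lok (isl : ISL) : LOK := by
  choose w hw H using isl
  refine ⟨w, fun O _ s L => ?_⟩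
  let t : L.ι → ℕ → GQ := fun x j => (L.n j).elim 1 fun k => (k x).τ
  let ω : L.ι → ∀ j, s.R j := fun x j => (L.n j).elim 1 fun k => w (s.N j) (k x).l (k x).τ
  have ht : ∀ x, t x ∈ s.H := fun x => (L.un.and s.gs.lv).mono fun j ⟨⟨k, e, u⟩, V⟩ => by
    have a := ok1 u.ad V
    have i : Inert (k x).P (k x).τ := (k x).gn.1
    simp only [t, e, Option.elim]
    exact ⟨a.kt x _ i, (ok2 u.ad V).kt x _ i, Dr.inert_Hm (k x).ov (fun d => (a.tm (inr x)).ne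
      ((Nat.prime_dvd_prime_iff_eq (k x).ov.1 Nat.prime_two).1 ((k x).ov.1.dvd_of_dvd_pow d))) i⟩
  obtain ⟨g, g1, g2⟩ := s.g1.g0
  obtain ⟨η, η1, η2⟩ := s.g3
  have uω : ∀ x, IsUnit (s.ψ (ω x)) := fun x => ps_unit s.ae ((L.un.and s.gs.lv).mono
    fun j ⟨⟨k, e, u⟩, V⟩ => by
      simp only [ω, e, Option.elim]
      exact odd_unit (s.f j) (hw _ _ _ _ (k x).ov ((ok1 u.ad V).tm (inr x)).ne (k x).gn))
  refine ⟨ok s.ae (β := Empty) (D := fun _ => dec s.P₂) (m := fun _ _ => 0) L.cX.le (g := 1)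
      (fun _ b => b.elim) (δ := 1) (fun _ b => b.elim) ⟨0, by simp⟩ ht
      (L.un.mono fun j ⟨k, e, u⟩ => ⟨_, _, u.hX, fun x => by simp only [t, e]; rfl⟩),
    ok s.ae (β := Unit) (D := fun _ => dec s.P₂) (m := fun j _ => L.m j) L.cY.le (fun j _ => g1 j)
      (fun _ _ => dvd_rfl) (by
        rw [← lm_det, lm_sub, lm_one]; exact g2) ht
      (L.un.mono fun j ⟨k, e, u⟩ => ⟨_, _, u.hY, fun x => by simp only [t, e]; rfl⟩),
    kr s.ae (L.un.mono fun j ⟨k, e, u⟩ => u.kr), kr s.ae (L.un.mono fun j ⟨k, e, u⟩ => u.dr),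
    fun g => ?_, ?_⟩
  · show lm s.ψ (fun j => L.X.u j (g j)) *ᵥ lv s.ψ L.dg =
      (lm s.ψ (fun j => (s.γ j).ρ (g j)) - 1) *ᵥ lv s.ψ fun j => (s.γ j).gp
    rw [← lm_one (ψ := s.ψ), ← lm_sub, ← lv_mv, ← lv_mv]
    exact lv_ae s.ae (L.un.mono fun j ⟨k, e, u⟩ => u.du _)
  · have h1 : ∀ᶠ j in U, ∃ (Z : Matrix (Fin L.X.r ⊕ (s.σ ⊕ L.ι) × Fin 2) (Fin L.Y.g) (s.R j))
        (Z' : Matrix (Fin L.X.g) (Fin L.Y.r ⊕ (s.σ ⊕ L.ι) × Fin 2) (s.R j)),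
        ∑ x, ((η j * ω x j) • ((L.X.F j x)ᵀ * Jm (s.R j) * L.Y.S j x) +
          (-(η j * ω x j)) • ((L.X.S j x)ᵀ * Jm (s.R j) * L.Y.F j x)) +
        η j • ∑ y, (L.X.l j y)ᵀ * ((w (s.N j) ((s.q j).l y) ((s.q j).t y) : s.R j) •
          Bt ((s.γ j).ρ ((s.q j).t y)) ((s.γ' j).ρ ((s.q j).φ y)) ((s.γ' j).ρ ((s.q j).t y))
            ((s.q j).l y)) * L.Y.l j y =
        ((L.X.pk j).Rm (s.γ j) (s.τ j))ᵀ * Z + Z' * (L.Y.pk j).Rm (s.γ' j) (s.τ j) := by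
      filter_upwards [L.un, s.gs.lv, η2] with j ⟨k, e, u⟩ V v
      simp only [ω, e, Option.elim]
      have := H (s.N j) (s.R j) (s.f j) s.σ L.ι (s.γ j) (s.γ' j) (s.τ j) s.c _ s.P₂ _ (L.X.pk j) (L.Y.pk j) (L.m j) (η j)
        (gd_Tn V.gd) (gd_Tn V.gd') s.gs.cc s.gs.ov (ok1 u.ad V) (ok2 u.ad V) (fun x => (k x).md) V.dual
        u.hX u.hY fun l a b c => v l ((mem_Tn.1 a).resolve_right fun ⟨i, e⟩ => c (inr i) e) b
          fun y => c (inl y)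
      dsimp only [ps, kp, Sum.elim_inl, Sum.elim_inr] at this
      exact this
    obtain ⟨Z, h1⟩ := U_ch h1
    obtain ⟨Z', h1⟩ := U_ch h1
    have un : ∀ x, Un (s.ψ η * s.ψ (ω x)) := fun x => η1.imp fun c a => ((uω x).mul_right_dvd).2 a
    refine ⟨fun x => s.ψ η * s.ψ (ω x), fun x => -(s.ψ η * s.ψ (ω x)), s.ψ η, lm s.ψ Z, lm s.ψ Z',
      fun x => ⟨un x, (un x).imp fun c a => neg_dvd.2 a⟩, ?_⟩
    have := (s.ae.lm h1).trans ((lm_add _ _).trans (congrArg₂ (· + ·)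
      ((lm_mul _ _).trans (congrArg (·ᵀ * lm s.ψ Z) Rm_lim.symm))
      ((lm_mul _ _).trans (congrArg (lm s.ψ Z' * ·) Rm_lim.symm))))
    rw [lm_add, lm_sum, lm_smul, lm_sum] at this
    refine Eq.trans (congrArg₂ (· + ·) (Finset.sum_congr rfl fun x _ => ?_)
      (congrArg _ (Finset.sum_congr rfl fun y _ => ?_))) this
    · rw [lm_add, lm_smul, lm_smul, lm_mul, lm_mul, lm_mul, lm_mul, lm_Jm]
      exact congrArg₂ (· + ·) (congrArg (· • _) (s.ψ.map_mul η (ω x)).symm) (congrArg (· • _)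
        ((congrArg _ (s.ψ.map_mul η (ω x)).symm).trans (s.ψ.map_neg (η * ω x)).symm))
    · rw [lm_mul, lm_mul]
      rfl

end Vale.Agent.P014T.Pp
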