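import Vale.Agent.P014T.Pp.Cm0
import Vale.Agent.P014T.Pp.Rn0
import Vale.Agent.P014T.Pp.Lok

/-! # P014T, block PATQ, row CMP: from the perturbed sequences to the tower -/

set_option linter.all false

open Matrix Filter PowerSeries Submodule Set
open scoped Classical

noncomputable section

namespace Vale.Agent.P014T.Pp.Cm

open Vale.Agent.P022 (GQ)
open Vale.Agent.P004F (La Rj cj mj)
open Vale.Agent.P004F.Pr (ac)
open Vale.Agent.P004F.Pat (U lm Sy Im Im_anti U_ge clo1 two_Im)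
open Pq (Zq Ps Lu)
open Kq (M2 Gl Pk KQ Rq)
open Ba (st rd)

theorem lu_rp {R σ : Type} [CommRing R] [Fintype σ] {γ : Gl R GQ σ} {τ c : GQ} {T : Finset ℕ}
    {D : Empty → Subgroup GQ} {q : Ps (σ ⊕ Empty)} {p : Pk R GQ σ Empty}
    (h : Lu γ τ T c D q p fun _ => 0) : Rp (fun M _ _ => Zq M T γ.ρ c) (p.Rm γ τ) p.u := fun M _ _ =>
  ⟨fun v a => ((h.bij M).mapsTo a).1,
    fun v a v' a' e => (h.bij M).injOn a a' (Prod.ext e (funext fun b => b.elim)), fun x a => by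
      obtain ⟨v, b, e⟩ := (h.bij M).surjOn (show (x, fun b => b.elim) ∈ _ from ⟨a, fun b => b.elim⟩)
      exact ⟨v, b, congrArg Prod.fst e⟩⟩

theorem rp_map {R S ι κ : Type} [CommRing R] [CommRing S] [Fintype κ] (f : R →+* S) {T T' : Finset ℕ}
    {a : GQ → M2 R} {a' : GQ → M2 S} {c c' : GQ} {Q : Matrix ι κ R} {u : GQ → Matrix (Fin 2) κ R}
    (h : Rp (fun M _ _ => Zq M T a c) Q u) (e1 : T = T') (e2 : ∀ g, (a g).map f = a' g) (e3 : c = c') :
    Rp (fun M _ _ => Zq M T' a' c') (Q.map f) fun g => (u g).map f := by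
  obtain rfl := funext e2
  subst e1 e3
  exact fun M _ _ => @h M _ (Module.compHom M f)

theorem mp_mv {R S m n : Type} [CommRing R] [CommRing S] [Fintype n] (f : R →+* S) {A : Matrix m n R}
    {v : n → R} {y : m → R} (h : A *ᵥ v = y) : A.map f *ᵥ (f ∘ v) = f ∘ y :=
  funext fun i => (f.map_mulVec A v i).symm.trans (congrArg (f <| · i) h)

theorem mp_s1 {R S : Type} [CommRing R] [CommRing S] (f : R →+* S) (A : M2 R) :
    (A - 1).map f = A.map f - 1 := (f.mapMatrix.map_sub A 1).trans (congrArg _ f.mapMatrix.map_one)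

theorem um_red {m n : Type} [Finite m] [Finite n] (A : ∀ j, Matrix m n (Rj (j + 1))) (k : ℕ) :
    ∀ᶠ j in U, ∀ p : Rj (j + 1) →+* Rj k, (∀ y, p (mj _ y) = mj _ y) →
      (A j).map p = (Sy.succ.um A).map (mj k) :=
  (Sy.succ.um_spec A k).mono fun j e p hp => Matrix.ext fun a b => by
    obtain ⟨y, hy⟩ := Ideal.Quotient.mk_surjective (A j a b)
    exact (congrArg p hy.symm).trans ((hp y).trans (Ideal.Quotient.eq.2 (e a b y hy)))

theorem rd_Im {k : ℕ} (hk : 1 ≤ k) {y : La} (h : y ∈ Im k) : X ^ k ∣ rd y := by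
  obtain ⟨a, b, rfl⟩ := Ideal.mem_span_pair.1 h
  rw [map_add, Ba.rd_zero.2 ((dvd_pow_self 2 (by omega)).mul_left a), zero_add, map_mul, map_pow,
    PowerSeries.map_X]
  exact dvd_mul_left _ _

theorem lvl (kq : KQ) (h1 : LMX) (h2 : LOK) (h3 : LEX) (h4 : LCB) {b : Bs} {t : Tw b} {x : t.Es}
    {r : ℕ} {Q : ∀ j, Matrix (Fin r) (Fin (r + 2)) (Rj (j + 1))}
    {u : ∀ j, GQ → Matrix (Fin 2) (Fin (r + 2)) (Rj (j + 1))}
    {V : ∀ j, Matrix (Fin (r + 2)) (Fin 2) (Rj (j + 1))} (hz : ∀ᶠ j in U, Pz x j (Q j) (u j) (V j))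
    (C : Matrix (Fin 2) (Fin (r + 2)) La) {k : ℕ} (hk : 1 ≤ k)
    (hX : ¬ X ^ k ∣ rd (st finSumFinEquiv.symm (Sy.succ.um Q) C).det) {w : ℤ_[2]} (hw : 4 ^ k ∣ w)
    {s : Sq (Rq (-w) (-w))} (cp : Tw.Cp x k s) :
    mj k (st finSumFinEquiv.symm (Sy.succ.um Q) C).det ∣ mj k (2 * (t.E * (C * Sy.succ.um V).det)) := by
  have w2 : 2 ^ k ∣ w := (pow_dvd_pow_of_dvd ⟨2, by norm_num⟩ k).trans hw
  obtain ⟨X, Y, m, κ, dg, cX, cY, un, -⟩ := h1 _ s Empty (fun j => some Empty.elim)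
    (.of_forall fun j => ⟨_, rfl, fun i => i.elim, fun i => i.elim, fun i => i.elim, fun i => i.elim⟩)
  let L : s.Lm := ⟨Empty, _, X, Y, m, κ, dg, cX, cY, un⟩
  obtain ⟨f, f1, f2⟩ := cp.red
  have a1 : ∀ᶠ j in U, ((X.pk j).Rm (s.γ j) (s.τ j)).map (f j) =
      ((X.lim s.ψ).Rm s.G s.τ).map (rz w2) := by
    rw [Lo.Rm_lim]
    exact (eventually_all.2 fun a : (Fin X.r ⊕ (s.σ ⊕ Empty) × Fin 2) × Fin X.g =>
      f1 fun j => (X.pk j).Rm (s.γ j) (s.τ j) a.1 a.2).mono fun j e => Matrix.ext fun a i => e (a, i)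
  have a2 : ∀ᶠ j in U, ∀ i, f j (κ j i) = rz w2 (L.sg.κ i) ∧ f j (dg j i) = rz w2 (L.sg.dg i) :=
    eventually_all.2 fun i => (f1 fun j => κ j i).and (f1 fun j => dg j i)
  obtain ⟨j, ⟨⟨⟨⟨⟨⟨z, n, -, v⟩, F, eF, hF⟩, a1⟩, a2⟩, q1⟩, q2⟩, kj⟩ :=
    (((((((hz.and un).and f2).and a1).and a2).and (um_red Q k)).and (um_red V k)).and (U_ge k)).exists
  rw [← eF] at a1 a2
  obtain ⟨p, hp⟩ : ∃ p : Rj (j + 1) →+* Rj k, ∀ y, p (mj _ y) = mj _ y :=
    ⟨Ideal.Quotient.factor (Im_anti (kj.trans j.le_succ)), fun _ => Ideal.Quotient.factor_mk ..⟩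
  have pc y : p (cj _ y) = cj k y := hp _
  obtain ⟨b1, b2, m', b3⟩ := hF p hp
  obtain ⟨m'', b4⟩ := z.cl
  obtain ⟨y, hy⟩ := b.cj
  have e0 : Finset.univ.image n = ∅ := by simp
  have eT : s.Tn j n = b.S ∪ t.T j := by rw [Sq.Tn, e0, cp.hT]; simp
  have R1 := rp_map p z.bij rfl (fun _ => rfl) rfl
  have R2 := rp_map F (lu_rp v.hX) eT b1 cp.hc
  have c1 : 1 + (t.a j b.c).map p = vecMulVec (cj k ∘ b.gp) (cj k ∘ y) := by
    rw [t.a_eq, t.hΨ, b.εc, (t.tq j).cj _ b.cc, ZMod.val_zero, pow_zero, map_one, one_mul, one_smul]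
    refine Matrix.ext fun i i' => ?_
    have := congrArg (cj k) (congrFun (congrFun hy i) i')
    rw [Matrix.add_apply, map_add, vecMulVec_apply, map_mul, ← Matrix.map_apply (f := cj k) (M := 1),
      Matrix.map_one _ (map_zero _) (map_one _), ← pc] at this
    exact this
  let e' : Fin X.g ≃ (Fin X.r ⊕ (s.σ ⊕ Empty) × Fin 2) ⊕ Fin 2 :=
    Fintype.equivOfCardEq (by rw [← cX]; simp; ring)
  obtain ⟨C', d1, d2, d3⟩ := core R1 R2 finSumFinEquiv.symm e' (c := b.c) (p := cj k ∘ b.gp)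
    (w := cj k ∘ y) (m := p ∘ m'' - m') (a := fun g => (t.a j g).map p)
    (V := (V j).map p) (d := F ∘ dg j) (y := F ∘ κ j) c1 (fun _ a => a.2.2.2)
    (by rw [← Matrix.map_mul, z.ker, Matrix.map_zero _ p.map_zero])
    (fun g => (mp_mv p (z.dg g)).trans ((mp_mv p rfl).symm.trans (by
      rw [mp_s1]; exact congrArg _ (funext fun _ => pc _))))
    ((mp_mv F v.dr).trans (funext fun _ => F.map_zero))
    ((mp_mv F v.kr).trans (funext fun _ => F.map_zero))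
    (fun g => (mp_mv F (v.du g)).trans ((mp_mv F rfl).symm.trans (by
      rw [mp_s1, b1]; exact congrArg _ (funext b2))))
    (fun g => by
      have i1 : p ∘ (u j g *ᵥ (V j)ᵀ 1) - p ∘ (2 • x.cl j g) = p ∘ (t.a j g *ᵥ m'') - p ∘ m'' :=
        funext fun i => (p.map_sub _ _).symm.trans
          ((congrArg (p <| · i) (b4 g trivial)).trans (p.map_sub _ _))
      have i2 := b3 g trivial
      beta_reduce at i2
      rw [← e0, ← v.ku, ← mp_mv F rfl] at i2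
      rw [← mp_mv p rfl, ← mp_mv p rfl] at i1
      rw [mulVec_sub]
      exact (sub_sub_sub_cancel_right _ _ _).symm.trans
        ((congrArg₂ (· - ·) i1 i2).trans (sub_sub_sub_comm ..))) (C.map (mj k))
  choose l hl using fun y : Rj k => Ideal.Quotient.mk_surjective y
  let x' : Fin 2 → Fin X.g → Rq (-w) (-w) := fun i a => algebraMap La _ (l (C' i a))
  have hx : (of x').map (rz w2) = C' := Matrix.ext fun i a => hl _
  rw [q1 p hp, ← Ba.st_map, ← RingHom.mapMatrix_apply, ← RingHom.map_det, a1, ← hx, ← Ba.st_map,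
    ← RingHom.mapMatrix_apply, ← RingHom.map_det] at d1 d2
  obtain ⟨α, β, e⟩ := kq (-w) (-w) k hk hw.neg_right w2.neg_right (s.sy h2 h3 h4 L inferInstance) x' _
    (Ba.pr_st e' ((X.lim s.ψ).Rm s.G s.τ) (of x')) (fun a => hX (by
      obtain ⟨c, hc⟩ := d2
      have := rd_Im hk (Ideal.Quotient.eq.1 (hc.trans (congrArg (_ * ·) (hl c).symm)))
      rwa [map_sub, map_mul, show rd _ = 0 from a, zero_mul, sub_zero] at this))
  have e1 : rz w2 (∏ y, s.P y) * rz w2 (L.sg.W x') =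
      mj k α * rz w2 (st e' ((X.lim s.ψ).Rm s.G s.τ) (of x')).det := by
    have := congrArg (mj k) e
    rw [map_add, map_mul, map_mul, Ideal.Quotient.eq_zero_iff_mem.2 (two_Im k), zero_mul,
      add_zero] at this
    exact (map_mul _ _ _).symm.trans this
  have e2 : rz w2 (L.sg.W x') = (C' * Ba.cl (F ∘ dg j) (F ∘ κ j)).det := by
    rw [show L.sg.W x' = (of x' * Ba.cl (κ := Fin X.g) L.sg.dg L.sg.κ).det from (Ba.det_cl ..).symm, RingHom.map_det,
      RingHom.mapMatrix_apply, Matrix.map_mul, hx]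
    refine congrArg (fun M => (C' * M).det) (Matrix.ext fun a i => ?_)
    fin_cases i
    exacts [(a2 a).2.symm, (a2 a).1.symm]
  rw [q2 p hp, ← Matrix.map_mul, ← RingHom.mapMatrix_apply, ← RingHom.map_det, ← e2] at d3
  rw [map_mul, map_mul, map_ofNat, mul_left_comm, d3, ← cp.hP, ← rz_apply w2, mul_left_comm, e1]
  exact (d1.mul_left _).mul_left _

/-- **the comparison** -/
theorem cmp : CMP := fun kq h1 h2 h3 h4 h5 b t x r Q u V hz C hd => by
  obtain ⟨n, hn⟩ : ∃ n, ¬ X ^ n ∣ rd (st finSumFinEquiv.symm (Sy.succ.um Q) C).det := by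
    by_contra a
    push Not at a
    exact hd (PowerSeries.ext fun n => X_pow_dvd_iff.1 (a (n + 1)) n n.lt_succ_self)
  refine Ba.cancel (t := 2) (e := 1) (by simp) hd (Ideal.mem_span_singleton.1 (clo1 _ fun k => ?_))
  obtain ⟨w, hw, s, cp⟩ := h5 b t x (k + n + t.m + 2) (by omega)
  obtain ⟨c, hc⟩ := lvl kq h1 h2 h3 h4 hz C (by omega)
    (fun a => hn ((pow_dvd_pow _ (by omega)).trans a)) hw cp
  obtain ⟨c, rfl⟩ := Ideal.Quotient.mk_surjective c
  rw [← add_sub_cancel (_ * c) (2 * _)]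
  exact add_mem (mem_sup_left (Ideal.mem_span_singleton.2 (dvd_mul_right _ c)))
    (mem_sup_right (Im_anti (by omega) (Ideal.Quotient.eq.1 hc)))

end Vale.Agent.P014T.Pp.Cm
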