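import Vale.Agent.P014T.Pp.G2a

/-! # P014T, block PATQ: the Euler factors are minors of the tame relation -/

set_option linter.all false

open Matrix nonZeroDivisors

noncomputable section

namespace Vale.Agent.P014T.Pp.Eul

open Vale.Agent.P004F (Nt)
open Kq (M2 F4)
open G2 (I2 mem_I2)

variable {R : Type} [CommRing R] {A U F n : M2 R} {l : ℕ} {t ε : R}

theorem nt_r (A U : M2 R) (l : ℕ) :
    Nt A U l * fromRows (0 : M2 R) (1 : M2 R) = A - ∑ i ∈ Finset.range l, U ^ i := by
  rw [Nt, fromCols_mul_fromRows, Matrix.mul_one, Matrix.mul_zero, zero_add]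

theorem pow_n (h : n * n = 0) (l : ℕ) : (1 + n) ^ l = 1 + (l : R) • n := by
  induction l with
  | zero => simp
  | succ l ih =>
    rw [pow_succ, ih, Nat.cast_succ, add_smul, one_smul, mul_add, add_mul, add_mul, smul_mul_assoc,
      smul_mul_assoc, h, smul_zero]
    simp only [mul_one, one_mul, add_zero]
    abel

theorem sum_n (h : n * n = 0) (l : ℕ) :
    ∑ i ∈ Finset.range l, (1 + n) ^ i = (l : R) • 1 + (l.choose 2 : R) • n := by
  induction l with
  | zero => simp
  | succ l ih =>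
    rw [Finset.sum_range_succ, ih, pow_n h, Nat.choose_succ_succ' l 1, Nat.choose_one_right]
    push_cast
    simp only [add_smul, one_smul]
    abel

theorem det_sub_n (h0 : n.det = 0) (h1 : n.trace = 0) (h2 : (F * n).trace = 0) (t c d : R) :
    (t • F - (c • 1 + d • n)).det = t ^ 2 * F.det - t * c * F.trace + c ^ 2 := by
  simp only [det_fin_two, trace_fin_two, mul_apply, Fin.sum_univ_two] at h0 h1 h2
  simp [det_fin_two, trace_fin_two]
  linear_combination d ^ 2 * h0 + (c * d - t * d * (F 0 0 + F 1 1)) * h1 + t * d * h2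

/-- a mixed minor -/
theorem minor (h : n * n = 0) (h1 : n.trace = 0) (e : n * F = ε • n) (t : R) (l : ℕ) (i k : Fin 2) :
    l * n i k * (ε * t - l) ∈ I2 (Nt (t • F) (1 + n) l) := by
  obtain ⟨M, hM⟩ : ∃ M, M = t • F - ∑ i ∈ Finset.range l, (1 + n) ^ i := ⟨_, rfl⟩
  have a : n * M = (ε * t - l) • n := by
    rw [hM, sum_n h, mul_sub, mul_add, mul_smul_comm, mul_smul_comm, mul_smul_comm, e, h, smul_zero,
      add_zero, mul_one, smul_smul, sub_smul, mul_comm t]
  have b : ∀ j, (Nt (t • F) (1 + n) l * fromRows (single j 0 1 : M2 R) (single k 1 1 : M2 R)).det =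
      -l * (n 0 j * M 1 k - n 1 j * M 0 k) := fun j => by
    rw [Nt, fromCols_mul_fromRows, pow_n h, ← hM, sub_add_cancel_left, det_fin_two]
    simp [mul_single_apply_same, mul_single_apply_of_ne]
    ring
  have c := congrFun (congrFun a i) k
  rw [trace_fin_two] at h1
  simp only [mul_apply, Fin.sum_univ_two, Matrix.smul_apply, smul_eq_mul] at c
  fin_cases i
  · refine Eq.mp (congrArg (· ∈ _) ?_) (neg_mem (b 1 ▸ mem_I2 (Nt (t • F) (1 + n) l) _))
    simp only [Fin.zero_eta] at c ⊢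
    linear_combination (l : R) * c - l * M 0 k * h1
  · refine Eq.mp (congrArg (· ∈ _) ?_) (b 0 ▸ mem_I2 (Nt (t • F) (1 + n) l) _)
    simp only [Fin.mk_one] at c ⊢
    linear_combination (l : R) * c - l * M 1 k * h1

section dom
variable {O : Type} [CommRing O] [IsDomain O] [CharZero O] {F n : M2 O} {l : ℕ}

theorem sm_zero {c : O} (h : c • n = 0) (n0 : n ≠ 0) : c = 0 := (smul_eq_zero.1 h).resolve_right n0

theorem ch {R : Type} [CommRing R] (X : M2 R) : X * X = X.trace • X - X.det • 1 := by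
  ext i j
  fin_cases i <;> fin_cases j <;> simp [mul_apply, trace_fin_two, det_fin_two] <;> ring

theorem sq0 (h : n * n = 0) : n.det = 0 ∧ n.trace = 0 := by
  have a : n.det = 0 := by simpa using congrArg det h
  refine ⟨a, (eq_or_ne n 0).elim (fun e => by simp [e]) (sm_zero ?_)⟩
  simpa [a, h] using (ch n).symm

theorem rel (h : n * n = 0) (e : F * (1 + n) = (1 + n) ^ l * F) : F * n = (l : O) • (n * F) := by
  rwa [pow_n h, mul_add, add_mul, mul_one, one_mul, add_right_inj, smul_mul_assoc] at e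

theorem tr0 (hl : 1 < l) (e : F * n = (l : O) • (n * F)) : (F * n).trace = 0 := by
  have := congrArg trace e
  rw [trace_smul, trace_mul_comm n, smul_eq_mul] at this
  have k : (l : O) - 1 ≠ 0 := sub_ne_zero.2 (by exact_mod_cast hl.ne')
  exact (mul_eq_zero.1 (by linear_combination -this)).resolve_left k

theorem sgn (hl : 1 < l) (h : n * n = 0) (e : F * n = (l : O) • (n * F)) (d : F.det = l)
    (n0 : n ≠ 0) : ∃ ε : ℤ, (ε = 1 ∨ ε = -1) ∧ n * F = (ε : O) • n ∧ F.trace = ε * (l + 1) := by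
  have a : ((l : O) + 1) • (n * F) = F.trace • n := by
    have t := tr0 hl e
    have u := (sq0 h).2
    rw [add_smul, ← e, one_smul]
    simp only [trace_fin_two, mul_apply, Fin.sum_univ_two] at t u
    ext i j
    fin_cases i <;> fin_cases j <;> simp [mul_apply, trace_fin_two]
    · linear_combination t - (F 0 0 + F 1 1 - F 0 0) * u
    · linear_combination F 0 1 * u
    · linear_combination F 1 0 * u
    · linear_combination t - F 0 0 * u
  have c : (l : O) + 1 ≠ 0 := by exact_mod_cast l.succ_ne_zero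
  have l0 : (l : O) ≠ 0 := by exact_mod_cast (zero_lt_one.trans hl).ne'
  have b : (l * (F.trace ^ 2 - (l + 1) ^ 2)) • n = 0 := by
    have x : ((l : O) + 1) • ((l : O) + 1) • (n * F * F) = F.trace • F.trace • n := by
      rw [← smul_mul_assoc, a, smul_mul_assoc, smul_comm, a]
    rw [mul_assoc, ch F, d, mul_sub, mul_smul_comm, mul_smul_comm, mul_one, smul_sub,
      smul_comm _ F.trace, a] at x
    ext i j
    have y := congrFun (congrFun x i) j
    simp only [Matrix.sub_apply, Matrix.smul_apply, smul_eq_mul, Matrix.zero_apply] at y ⊢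
    linear_combination y
  have s := (mul_eq_zero.1 (sm_zero b n0)).resolve_left l0
  have k : ∀ ε : ℤ, F.trace = ε * (l + 1) → n * F = (ε : O) • n := fun ε y =>
    smul_right_injective _ c (by
      simp only []
      rw [a, y, smul_smul, mul_comm])
  rcases sq_eq_sq_iff_eq_or_eq_neg.1 (sub_eq_zero.1 s) with y | y
  · exact ⟨1, .inl rfl, k 1 (by simpa using y), by simpa using y⟩
  · exact ⟨-1, .inr rfl, k (-1) (by rw [y]; simp), by rw [y]; simp⟩

end dom

section loc
variable {f : ℤ_[2] →+* R} {F U : M2 ℤ_[2]}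

theorem odd_unit (h : Odd l) : IsUnit (l : ℤ_[2]) :=
  PadicInt.isUnit_iff.2 (PadicInt.norm_natCast_eq_one_iff.2 (Nat.coprime_two_left.2 h))

/-- a tame unipotent pair -/
structure Up (F U : M2 ℤ_[2]) (l : ℕ) : Prop where
  odd : Odd l
  one : 1 < l
  sq : (U - 1) * (U - 1) = 0
  rel : F * U = U ^ l * F
  det : F.det = l

theorem mp_one (n : M2 ℤ_[2]) : (1 + n).map f = 1 + n.map f := by
  rw [← RingHom.mapMatrix_apply, map_add, map_one, RingHom.mapMatrix_apply]

theorem mp_det (F : M2 ℤ_[2]) : (F.map f).det = f F.det := (RingHom.map_det f F).symm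

theorem mp_tr (F : M2 ℤ_[2]) : (F.map f).trace = f F.trace := (AddMonoidHom.map_trace f F).symm

theorem Up.det_r (h : Up F U l) (f : ℤ_[2] →+* R) (t : R) :
    (Nt (t • F.map f) (U.map f) l * fromRows (0 : M2 R) (1 : M2 R)).det =
      t ^ 2 * l - t * l * f F.trace + l ^ 2 := by
  obtain ⟨n, rfl⟩ : ∃ n, U = 1 + n := ⟨U - 1, by simp⟩
  have s := h.sq
  rw [add_sub_cancel_left] at s
  rw [nt_r, mp_one, sum_n (by rw [← Matrix.map_mul, s, Matrix.map_zero _ f.map_zero]),
    det_sub_n (by rw [mp_det, (sq0 s).1, map_zero]) (by rw [mp_tr, (sq0 s).2, map_zero])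
      (by rw [← Matrix.map_mul, mp_tr, tr0 h.one (Eul.rel s h.rel), map_zero]), mp_det, mp_tr, h.det,
    map_natCast]

/-- the quadratic factor is always a minor up to a unit -/
theorem Up.good (h : Up F U l) (f : ℤ_[2] →+* R) (t : R) :
    l - f F.trace * t + t ^ 2 ∈ I2 (Nt (t • F.map f) (U.map f) l) := by
  have u : IsUnit (l : R) := map_natCast f l ▸ (odd_unit h.odd).map f
  refine (Ideal.unit_mul_mem_iff_mem _ u).1 ?_
  have := h.det_r f t ▸ mem_I2 (Nt (t • F.map f) (U.map f) l) _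
  rwa [show (l : R) * (l - f F.trace * t + t ^ 2) = t ^ 2 * l - t * l * f F.trace + l ^ 2 by ring]

/-- the linear factor -/
theorem Up.mult (h : Up F U l) (n0 : U ≠ 1) : ∃ (ε : ℤ) (e : ℕ), (ε = 1 ∨ ε = -1) ∧
    (U - 1) * F = (ε : ℤ_[2]) • (U - 1) ∧ F.trace = ε * (l + 1) ∧
    ∀ (R : Type) [CommRing R] (f : ℤ_[2] →+* R) (t : R),
      2 ^ e * (l - ε * t) ∈ I2 (Nt (t • F.map f) (U.map f) l) := by
  obtain ⟨n, rfl⟩ : ∃ n, U = 1 + n := ⟨U - 1, by simp⟩
  have s := h.sq
  rw [add_sub_cancel_left] at s ⊢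
  have n1 : n ≠ 0 := fun e => n0 (by simp [e])
  obtain ⟨ε, h1, h2, h3⟩ := sgn h.one s (Eul.rel s h.rel) h.det n1
  obtain ⟨i, k, c⟩ : ∃ i k, n i k ≠ 0 := by
    by_contra! a
    exact n1 (Matrix.ext a)
  obtain ⟨e, u, hu⟩ := IsDiscreteValuationRing.associated_pow_irreducible
    (mul_ne_zero (odd_unit h.odd).ne_zero c) PadicInt.irreducible_p
  refine ⟨ε, e, h1, h2, h3, fun R _ f t => ?_⟩
  have := minor (F := F.map f) (n := n.map f) (ε := (ε : R))
    (by rw [← Matrix.map_mul, s, Matrix.map_zero _ f.map_zero]) (by rw [mp_tr, (sq0 s).2, map_zero])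
    (by rw [← Matrix.map_mul, h2]; ext; simp) t l i k
  rw [mp_one]
  have v := congrArg f hu
  simp only [map_mul, map_pow, map_natCast, Nat.cast_ofNat, map_ofNat] at v
  rw [← v, show (l : R) * f (n i k) * f u * (l - ε * t) = -f u * (l * f (n i k) * (ε * t - l)) by ring]
  exact Ideal.mul_mem_left _ _ this

end loc

end Vale.Agent.P014T.Pp.Eul
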