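import Vale.Agent.P014T.Pp.Eul
import Vale.Agent.P014T.Pp.St
import Vale.Agent.P014T.Iv.Lg
import Vale.Agent.P022K.CH.Tame
import Vale.Agent.P022K.G2.Kum

/-! # P014T, block PATQ: the tame pair of a Galois representation, its Euler factors -/

set_option linter.all false

open NumberField Matrix Polynomial

noncomputable section

namespace Vale.Agent.P014T.Pp.Eul

open Vale.Agent.P022 (Qb GQ)
open Vale.Agent.P027M.S (Inert)
open Vale.Agent.P022E.GW (Ov Fb Gn)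
open Vale.Agent.P004F (Nt)
open Vale.Agent.P004S.Aq (cz)
open Kq (M2 F4)
open G2 (I2)

variable {r : GQ →* M2 ℤ_[2]} {ε : GQ →* ℤ_[2]} {l : ℕ} {P : Ideal (𝓞 Qb)} {φ τ : GQ}

/-- the tame relation at a finite level -/
theorem rel0 {A : Type} [Monoid A] (a : GQ →* A) (lc : IsOpen {g | a g = 1}) (o : Ov l P)
    (l2 : l ≠ 2) (f : Fb l P φ) (t : Inert P τ) (h : ∀ g, Inert P g → ∃ n : ℕ, a g ^ 2 ^ n = 1) :
    a φ * a τ = a τ ^ l * a φ := by
  obtain ⟨V, hV, le⟩ := P022K.G2.ex_lv' (H := a.ker) lc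
  have := hV.nrm
  obtain ⟨k, _, _, χ, -, -, h1⟩ := P022K.CH.Loc.chi_data V hV.opn o
  obtain ⟨n, e⟩ := h1 φ f τ t
  obtain ⟨s, e'⟩ := h _ (mul_mem (P022D.W.conj_inP (P022D.W.phi_mem o.1 o.2.1 f) t)
    (inv_mem (pow_mem t l)))
  have := (pow_eq_one_iff_of_coprime (((Nat.coprime_primes o.1 Nat.prime_two).2 l2).pow n s)).1
    ⟨(map_pow a _ _).symm.trans (le e), e'⟩
  rw [← map_pow, ← map_mul, ← map_mul, show φ * τ = φ * τ * φ⁻¹ * (τ ^ l)⁻¹ * (τ ^ l * φ) by group,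
    map_mul, this, one_mul]

theorem up_of (lc : ∀ n, IsOpen {g | (r g).map (PadicInt.toZModPow n) = 1})
    (det : ∀ g, (r g).det = cz g) (sq : ∀ g, ε g ^ 2 = 1) (o : Ov l P) (l2 : l ≠ 2) (f : Fb l P φ)
    (t : Inert P τ) (uni : ∀ g, Inert P g → (ε g • r g - 1) ^ 2 = 0) :
    Up (ε φ • r φ) (ε τ • r τ) l := by
  have od := o.1.odd_of_ne_two l2
  have a : r φ * r τ = r τ ^ l * r φ := Matrix.ext fun i j => PadicInt.ext_of_toZModPow.1 fun n => by
    have := rel0 ((PadicInt.toZModPow n).mapMatrix.toMonoidHom.comp r) (lc n) o l2 f t fun g i => by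
      have u := uni g i
      rw [_root_.sq] at u
      have v := congrArg (PadicInt.toZModPow n).mapMatrix (pow_n u (2 ^ (n + 1)))
      rw [add_sub_cancel, _root_.smul_pow, pow_succ' 2 n, pow_mul (ε g), sq, one_pow, one_smul, map_pow,
        ← pow_succ' 2 n, map_add, map_one, RingHom.mapMatrix_apply _ (_ • _),
        Matrix.map_smul' _ _ _ (map_mul _), G2.dvd_iff.1 ⟨2, by push_cast; ring⟩, zero_smul,
        add_zero] at v
      exact ⟨_, v⟩
    have e : (PadicInt.toZModPow n).mapMatrix (r φ * r τ) =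
        (PadicInt.toZModPow n).mapMatrix (r τ ^ l * r φ) := by
      rw [map_mul, map_mul, map_pow]
      exact this
    exact congrFun (congrFun e i) j
  refine ⟨od, o.1.one_lt, (_root_.sq _).symm.trans (uni τ t), ?_, ?_⟩
  · obtain ⟨m, e⟩ := od
    have b : ε τ ^ l = ε τ := by rw [e, pow_succ, pow_mul, sq, one_pow, one_mul]
    rw [_root_.smul_pow, b, smul_mul_smul_comm, smul_mul_smul_comm, a, mul_comm (ε φ)]
  · rw [det_smul, Fintype.card_fin, sq, one_mul, det]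
    exact Subtype.ext (Iv.cy_fb' o l2 f)

variable {F U : M2 ℤ_[2]}

/-- the quadratic factor, in the words of `Bs.eul` -/
theorem Up.eul_g (h : Up F U l) : ∃ e : ℕ, 2 ^ e * (C (l : ℤ_[2]) - C F.trace * X + X ^ 2) ∈
    Ideal.span (Set.range fun D : Matrix F4 (Fin 2) ℤ_[2][X] =>
      (Nt ((X : ℤ_[2][X]) • F.map C) (U.map C) l * D).det) :=
  ⟨0, by rw [pow_zero, one_mul, map_natCast]; exact h.good C X⟩

/-- the linear factor, in the words of `Bs.eul` -/
theorem Up.eul_m (h : Up F U l) (n0 : U ≠ 1) : ∃ s : ℤ, (s = 1 ∨ s = -1) ∧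
    (U - 1) * F = (s : ℤ_[2]) • (U - 1) ∧ F.trace = s * (l + 1) ∧
    ∃ e : ℕ, 2 ^ e * (C (l : ℤ_[2]) - C (s : ℤ_[2]) * X) ∈
      Ideal.span (Set.range fun D : Matrix F4 (Fin 2) ℤ_[2][X] =>
        (Nt ((X : ℤ_[2][X]) • F.map C) (U.map C) l * D).det) := by
  obtain ⟨s, e, a, b, c, d⟩ := h.mult n0
  exact ⟨s, a, b, c, e, by rw [map_natCast, map_intCast]; exact d _ C X⟩

theorem e0_g (h : Odd l) (a b : ℤ_[2]) :
    (C (l : ℤ_[2]) - C a * X + C b * X ^ 2).map PadicInt.toZMod ≠ 0 := fun e =>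
  ((odd_unit h).map PadicInt.toZMod).ne_zero (by simpa using congrArg (coeff · 0) e)

end Vale.Agent.P014T.Pp.Eul
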