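import Vale.Agent.P014T.Iv.Two

/-!
# P014T, block PATQ: reciprocity at tame places with an arbitrary tame action
-/

set_option linter.all false

noncomputable section

namespace Vale.Agent.P014T.Pp

open NumberField Topology Filter Finset
open Vale.Agent.P022 Vale.Agent.P022K
open Vale.Agent.P022D.W (dec inP_le_dec phi_mem conj_inP)
open Vale.Agent.P022.H443 (inP)
open Vale.Agent.P022E.GW (Ov Fb Gn)
open Vale.Agent.P004S.Ga (K O mem_O d2 d3 Z2 B2)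
open Vale.Agent.P004S.Aq Vale.Agent.P004F.Rc Vale.Agent.P014T.Sy Vale.Agent.P014T.Iv

/-- the value of a two cochain on the tame relation -/
def Df {A : Type} [AddCommGroup A] (l : ℕ) (φ τ : GQ) (z : GQ → GQ → A) : A :=
  z φ τ - z (τ ^ l) φ - ∑ n ∈ range l, z (τ ^ n) τ

/-- inertia acts through a group of order a power of two -/
def Pw {M : Type} [AddCommGroup M] (P : Ideal (𝓞 Qb)) (ρ : GQ → M →+ M) : Prop :=
  ∀ i ∈ inP P, ∃ n : ℕ, ∀ x, ρ (i ^ 2 ^ n) x = x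

/-- **reciprocity over the rational field** -/
def RECQ : Prop := ∀ N : ℕ, ∃ w : ℕ → GQ → ℕ,
  (∀ l P τ, Ov l P → l ≠ 2 → Gn l P τ → Odd (w l τ)) ∧
  ∀ (A M M' : Type) [AddCommGroup A] [AddCommGroup M] [AddCommGroup M']
    (B : M →+ M' →+ A) (ρ : GQ → M →+ M) (σ : GQ → M' →+ M') (a : GQ → M) (b : GQ → M')
    (L : Finset ℕ) (P : ℕ → Ideal (𝓞 Qb)) (φ τ : ℕ → GQ) (c : GQ),
    (∀ x : A, 2 ^ N • x = 0) → Co ⊤ ρ a → Co ⊤ σ b →
    (∀ g k, Cy N g k → ∀ x y, B (ρ g x) (σ g y) = k • B x y) →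
    IsConj c → a c = 0 ∨ b c = 0 →
    (∀ l ∈ L, Ov l (P l) ∧ l ≠ 2 ∧ Fb l (P l) (φ l) ∧ Gn l (P l) (τ l) ∧ Pw (P l) ρ) →
    (∀ p : ℕ, p.Prime → p ∉ L → ∃ Q, Ov p Q ∧ (Tv (dec Q) ρ a ∨ Tv (dec Q) σ b ∨
      (p ≠ 2 ∧ Ur (inP Q) ρ a ∧ Ur (inP Q) σ b))) →
    ∑ l ∈ L, w l (τ l) • Df l (φ l) (τ l) (fun g h => B (a g) (σ g (b h))) = 0

namespace Rq

variable {l n : ℕ} {P : Ideal (𝓞 Qb)} {φ τ : GQ} {z : GQ → GQ → K} {β : Qb}

/-- tame cochains -/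
structure Tz (P : Ideal (𝓞 Qb)) (z : GQ → GQ → K) : Prop where
  opn : ∃ W : Subgroup GQ, IsOpen (W : Set GQ) ∧ ∀ w ∈ inP P, w ∈ W → ∀ y ∈ dec P, z w y ∈ O
  two : ∀ i ∈ inP P, ∃ m : ℕ, ∀ y ∈ dec P, z (i ^ 2 ^ m) y ∈ O

theorem map_Df {A A' : Type} [AddCommGroup A] [AddCommGroup A'] (F : A →+ A') (z : GQ → GQ → A) :
    F (Df l φ τ z) = Df l φ τ fun g h => F (z g h) := by simp only [Df, map_sub, map_sum]

theorem df_b2 (o : Ov l P) (h2 : l ≠ 2) (f : Fb l P φ) (t : τ ∈ inP P) (T : Tz P z)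
    (b : B2 cy (dec P) z) : Df l φ τ z ∈ O := by
  obtain ⟨θ, c, e⟩ := b
  obtain ⟨W, oW, hW⟩ := T.opn
  have d := one_mem (dec P)
  have θ1 : θ 1 ∈ O := O_of (sub_mem (hW 1 (one_mem _) (one_mem _) 1 d) (e 1 d 1 d)) (by simp [d2])
  have st : ∀ j ∈ inP P, (∀ y ∈ dec P, z j y ∈ O) → ∀ y ∈ dec P, θ (j * y) - θ j - θ y ∈ O :=
    fun j hj k y hy => O_of (sub_mem (e j (inP_le_dec hj) y hy) (k y hy)) (by
      rw [d2, cy_in o h2 hj]; ring)
  let H : Subgroup GQ :=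
    { carrier := {j | j ∈ dec P ∧ ∀ y ∈ dec P, θ (j * y) - θ y ∈ O}
      one_mem' := ⟨d, fun y _ => by simp⟩
      mul_mem' := fun {a b} ha hb => ⟨mul_mem ha.1 hb.1, fun y hy => O_of
        (add_mem (ha.2 _ (mul_mem hb.1 hy)) (hb.2 y hy)) (by rw [mul_assoc]; ring)⟩
      inv_mem' := fun {a} ha => ⟨inv_mem ha.1, fun y hy => O_of
        (neg_mem (ha.2 _ (mul_mem (inv_mem ha.1) hy))) (by rw [mul_inv_cancel_left]; ring)⟩ }
  obtain ⟨V, hV, eV⟩ := nb (D := dec P) (S := W ∩ θ ⁻¹' O) (inter_mem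
    (mem_nhdsWithin_of_mem_nhds (oW.mem_nhds W.one_mem)) (c 1 d (O_open.mem_nhds θ1)))
  have mφ := phi_mem o.1 o.2.1 f
  have mτ := inP_le_dec t
  have mj : φ * τ * φ⁻¹ * (τ ^ l)⁻¹ ∈ inP P := mul_mem (conj_inP mφ t) (inv_mem (pow_mem t l))
  have := hV.nrm
  obtain ⟨_, _, _, _, -, -, h3⟩ := CH.Loc.chi_data V hV.opn o
  obtain ⟨k, hk⟩ := h3 φ f τ t
  obtain ⟨m, hm⟩ := T.two _ mj
  generalize hj : φ * τ * φ⁻¹ * (τ ^ l)⁻¹ = j at mj hk hm
  have p1 : j ^ l ^ k ∈ H := by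
    have a := pow_mem mj (l ^ k)
    have := eV _ (inP_le_dec a) hk
    exact ⟨inP_le_dec a, fun y hy => O_of (add_mem (st _ a (hW _ a this.1) y hy) this.2) (by ring)⟩
  have p2 : ∃ r, j ^ 2 ^ r ∈ H := by
    have a := pow_mem mj (2 ^ m)
    obtain ⟨r, hr⟩ := lev_ex (θ (j ^ 2 ^ m))
    have : ∀ s : ℕ, ∀ y ∈ dec P, θ ((j ^ 2 ^ m) ^ s * y) - s * θ (j ^ 2 ^ m) - θ y ∈ O := by
      intro s y hy
      induction s with
      | zero => simp
      | succ s ih =>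
        refine O_of (add_mem (st _ a hm _ (mul_mem (inP_le_dec (pow_mem a s)) hy)) ih) ?_
        rw [pow_succ', mul_assoc]; push_cast; ring
    refine ⟨m + r, inP_le_dec (pow_mem mj _), fun y hy => ?_⟩
    rw [pow_add, pow_mul]
    exact O_of (add_mem (this (2 ^ r) y hy) hr) (by push_cast; ring)
  obtain ⟨r, p2⟩ := p2
  have p : j ∈ H := by
    obtain ⟨u, v, huv⟩ := (Nat.isCoprime_iff_coprime.2 (((Nat.coprime_primes o.1 Nat.prime_two).2
      h2).pow k r))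
    rw [← zpow_one j, ← huv, zpow_add, mul_comm u, mul_comm v, zpow_mul, zpow_mul, zpow_natCast,
      zpow_natCast]
    exact mul_mem (zpow_mem p1 u) (zpow_mem p2 v)
  have q := p.2 _ (mul_mem (pow_mem mτ l) mφ)
  rw [← hj, show φ * τ * φ⁻¹ * (τ ^ l)⁻¹ * (τ ^ l * φ) = φ * τ by group] at q
  have s := sum_range_sub' (fun n => θ (τ ^ n)) l
  refine O_of (sub_mem (sub_mem (sub_mem (sub_mem (e φ mφ τ mτ) (e _ (pow_mem mτ l) φ mφ))
    (sum_mem fun n (_ : n ∈ range l) => e _ (pow_mem mτ n) τ mτ)) q) θ1) ?_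
  simp only [Df, d2, cy_fb' o h2 f, map_pow, cy_in o h2 t, one_pow, one_mul, sum_sub_distrib,
    sum_add_distrib, sum_const, card_range, nsmul_eq_mul, ← pow_succ, pow_zero] at s ⊢
  linear_combination -s

/-- **the tame invariant** -/
theorem iv_df (o : Ov l P) (h2 : l ≠ 2) (f : Fb l P φ) (t : τ ∈ inP P) (hz : Z2 cy (dec P) z)
    (T : Tz P z) (lv : ∀ g ∈ dec P, ∀ j ∈ dec P, 2 ^ n * z g j ∈ O) (hβ : β ^ 2 ^ n = l) {w : ℕ}
    (hw : hn n * (w * (l * (2 ^ n * ku β τ)) - 1) ∈ O) : iv P z = w • mq (Df l φ τ z) := by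
  obtain ⟨s, hs⟩ := QuotientAddGroup.mk'_surjective O (iv P z)
  replace hs : mq s = iv P z := hs
  have s1 : 2 ^ n * s ∈ O := mq_zero.1 (by
    have := mq_nat (2 ^ n) s
    rw [hs, ← map_nsmul, iv_b2 o (b2_zero fun g hg j hj => by simpa using lv g hg j hj)] at this
    exact_mod_cast this)
  have e : β ^ 2 ^ n = bs l := by rwa [bs, if_neg h2]
  have k : ∀ i ∈ inP P, ∀ y, (z - cp n (fun g => s * ps l g) β) i y = z i y := fun i m y => by
    simp [cp, ps_in o h2 l m]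
  have := df_b2 o h2 f t (z := z - cp n (fun g => s * ps l g) β)
    ⟨T.opn.imp fun W h => ⟨h.1, fun w m a y hy => k w m y ▸ h.2 w m a y hy⟩, fun i m =>
      (T.two i m).imp fun r h y hy => k _ (pow_mem m _) y ▸ h y hy⟩
    ((iv_iff o (sub_mem (H := ZZ _) hz (ps_z2 o e s1))).1 (by
      rw [map_sub, iv_ps o e s1, hs, sub_self]))
  rw [← hs, ← mq_nat, mq_eq]
  refine O_of (neg_mem (add_mem (O_mul (O_nat w) this) (O_lv s1 hw))) ?_
  simp only [Df, k _ (pow_mem t _)]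
  simp only [Pi.sub_apply, cp, ps_fb o h2 f, cy_fb' o h2 f]
  ring

theorem ex_w (N l : ℕ) (τ : GQ) {β : Qb} (hβ : β ^ 2 ^ (N + 1) = l) : ∃ w : ℕ, ∀ P, Ov l P → l ≠ 2 →
    Gn l P τ → Odd w ∧ hn (N + 1) * (w * (l * (2 ^ (N + 1) * ku β τ)) - 1) ∈ O := by
  by_cases h : ∃ P, Ov l P ∧ l ≠ 2 ∧ Gn l P τ
  swap
  · exact ⟨0, fun P a b c => absurd ⟨P, a, b, c⟩ h⟩
  obtain ⟨P, o, h2, gn⟩ := h
  have k : Rt ⊤ (N + 1) β := rt_nat hβ o.1.ne_zero
  have i := O_mul (O_nat l) (k.int (g := τ) trivial)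
  obtain ⟨y, hy, e⟩ := unit i fun e => by
    have h1 := ((k.pow (2 ^ N)).fix (g := τ) trivial).2 (O_of (add_mem (k.ku_pow (2 ^ N) trivial)
      (O_odd (o.1.odd_of_ne_two h2) (x := 2 ^ N * ku β τ) (O_of e (by ring)))) (by push_cast; ring))
    rw [gn.2 _ (by rw [← pow_mul, ← pow_succ, hβ]), neg_eq_iff_add_eq_zero, ← two_mul] at h1
    exact mul_ne_zero two_ne_zero (pow_ne_zero _ k.1) h1
  obtain ⟨w, hw⟩ := apx (N + 1) hy
  have m : hn (N + 1) * (w * (l * (2 ^ (N + 1) * ku β τ)) - 1) ∈ O :=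
    O_of (neg_mem (O_mul hw i)) (by rw [← e]; ring)
  refine ⟨w, fun _ _ _ _ => ⟨Nat.not_even_iff_odd.1 ?_, m⟩⟩
  rintro ⟨c, rfl⟩
  refine half_not (O_of (sub_mem (O_mul (O_nat c) i) (O_mul (O_pow N) m)) ?_)
  generalize (l * (2 ^ (N + 1) * ku β τ) : K) = x
  rw [hn]; push_cast; field_simp; ring

end Rq

open Rq in
/-- **row RECQ** -/
theorem recq : RECQ := by
  classical
  intro N
  choose β hβ using fun l : ℕ => ex_rt (N + 1) l
  choose w hw using fun l τ => ex_w N l τ (hβ l)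
  refine ⟨w, fun l P τ o h2 gn => (hw l τ P o h2 gn).1, ?_⟩
  intro A M M' _ _ _ B ρ σ a b L P φ τ c hA ha hb hB hc ac hL out
  by_contra ne
  obtain ⟨F, hF⟩ := ex_F (hA _) ne
  obtain ⟨f, fe⟩ : ∃ f : A → K, ∀ x, mq (f x) = F x := ⟨fun x => (F x).out, fun x => Quot.out_eq _⟩
  have lv : ∀ x, 2 ^ N * f x ∈ O := fun x => mq_zero.1 (by
    have := mq_nat (2 ^ N) (f x)
    rw [fe, ← map_nsmul, hA, map_zero] at this
    exact_mod_cast this)
  have T : ∀ g : GQ, g ∈ (⊤ : Subgroup GQ) := fun _ => trivial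
  have cf : ∀ g x y, mq (cy g * f (B x y)) = F (B (ρ g x) (σ g y)) := fun g x y => by
    obtain ⟨k, hk⟩ := apx N (O_cy g)
    rw [hB g k (cy_iff.2 hk), map_nsmul, ← fe, ← mq_nat, mq_eq]
    exact O_of (O_lv (lv (B x y)) hk) (by ring)
  have lc : IsLocallyConstant fun g => ((ρ g, a g), (σ g, b g)) :=
    (ha.loc.prodMk hb.loc).comp_continuous (f := fun g => (⟨g, T g⟩ : (⊤ : Subgroup GQ)))
      (by fun_prop)
  have c1 : ∀ (D : Subgroup GQ) (G : (M →+ M) × M → (M' →+ M') × M' → K),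
      ContinuousOn (fun g => G (ρ g, a g) (σ g, b g)) D := fun D G =>
    (lc.comp fun x => G x.1 x.2).continuous.continuousOn
  obtain ⟨z, hz⟩ : ∃ z : GQ → GQ → K, z = fun g h => f (B (a g) (σ g (b h))) := ⟨_, rfl⟩
  have z2 : Z2 cy ⊤ z := by
    refine ⟨hz ▸ (((lc.comp_continuous continuous_fst).prodMk (lc.comp_continuous
      continuous_snd)).comp fun x => f (B x.1.1.2 (x.1.2.1 x.2.2.2))).continuous.continuousOn,
      fun g _ h _ j _ => mq_zero.1 ?_⟩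
    simp only [hz, d3, map_sub, map_add, fe, cf g, ha.co g (T _) h (T _), hb.co h (T _) j (T _),
      hb.mul g (T _) h (T _), AddMonoidHom.add_apply]
    abel
  have tv : ∀ D, Tv D ρ a ∨ Tv D σ b → B2 cy D z := by
    rintro D (⟨x, hx⟩ | ⟨x, hx⟩)
    · refine ⟨fun h => f (B x (b h)), c1 _ fun _ y => f (B x y.2), fun g hg j hj => mq_zero.1 ?_⟩
      simp only [hz, d2, map_sub, map_add, fe, cf g, hx g hg, hb.co g (T _) j (T _),
        AddMonoidHom.sub_apply]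
      abel
    · refine ⟨fun g => -f (B (a g) (σ g x)), c1 _ fun y y' => -f (B y.2 (y'.1 x)),
        fun g hg j hj => mq_zero.1 ?_⟩
      simp only [hz, d2, mul_neg, map_neg, map_sub, map_add, fe, cf g, hx j hj,
        ha.co g (T _) j (T _), hb.mul g (T _) j (T _), AddMonoidHom.add_apply]
      abel
  have a1 : a 1 = 0 := let ⟨W, _, e⟩ := ha.lc; (e 1 trivial W.one_mem).2
  have b1 : b 1 = 0 := let ⟨W, _, e⟩ := hb.lc; (e 1 trivial W.one_mem).2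
  obtain ⟨v, hv⟩ := ex_st hc
  have key := Iv.rec z2 L P (fun l m => (hL l m).1) (fun p hp m => ?_) ⟨v, tv _ (ac.imp
    (fun e => ⟨0, fun g hg => by rcases (hv g).1 hg with rfl | rfl <;> simp [a1, e]⟩)
    fun e => ⟨0, fun g hg => by rcases (hv g).1 hg with rfl | rfl <;> simp [b1, e]⟩)⟩
  · refine hF ?_
    rw [map_sum, ← key]
    refine sum_congr rfl fun l m => ?_
    obtain ⟨o, h2, fb, gn, pw⟩ := hL l m
    rw [iv_df o h2 fb gn.1 (z2_mono z2 le_top) ⟨?_, fun i hi => ?_⟩ (fun g _ j _ =>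
      lev_up (hz ▸ lv _) N.le_succ) (hβ l) (hw l _ _ o h2 gn).2, map_nsmul, map_Df, map_Df]
    · simp only [hz, fe]
    · exact ha.lc.imp fun W e => ⟨e.1, fun w _ k y _ => mq_zero.1 (by
        simp only [hz, fe, (e.2 w trivial k).2, map_zero, AddMonoidHom.zero_apply])⟩
    · obtain ⟨r, hr⟩ := pw i hi
      have : ∀ s : ℕ, a ((i ^ 2 ^ r) ^ s) = s • a (i ^ 2 ^ r) := fun s => by
        induction s with
        | zero => simp [a1]
        | succ s ih => rw [pow_succ', ha.co _ (T _) _ (T _), hr, ih, succ_nsmul']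
      refine ⟨r + N, fun y _ => mq_zero.1 ?_⟩
      simp only [hz, fe, pow_add, pow_mul, this, map_nsmul, AddMonoidHom.nsmul_apply]
      rw [← map_nsmul, hA, map_zero]
  · obtain ⟨Q, o, e | e | ⟨p2, u, u'⟩⟩ := out p hp m
    exacts [⟨Q, o, tv _ (.inl e)⟩, ⟨Q, o, tv _ (.inr e)⟩, ⟨Q, o, by
      rw [← top_inf_eq (dec Q)]
      refine unr1 isOpen_univ o p2 le_top (z2_mono z2 le_top) fun g hg j hj t ht => ?_
      simp only [hz, ha.co g (T _) t (T _), hb.co j (T _) t (T _), hb.mul g (T _) t (T _),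
        (u t ht).2, (u' t ht).2, (u' t ht).1, map_zero, add_zero, sub_self, and_self]
      exact zero_mem _⟩]

end Vale.Agent.P014T.Pp
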